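import Mathlib

/-!
P057 module Hoeff: Hoeffding inequality for sampling from a finite set, in counting form.
-/

set_option autoImplicit false

namespace P057

open Finset

namespace Hoeff

theorem exp_le_aux {s y : ℝ} (h1 : -1 ≤ y) (h2 : y ≤ 1) :
    Real.exp (s * y) ≤ Real.cosh s + y * Real.sinh s := by
  have h := convexOn_exp.2 (Set.mem_univ s) (Set.mem_univ (-s))
    (by linarith : (0 : ℝ) ≤ (1 + y) / 2) (by linarith : (0 : ℝ) ≤ (1 - y) / 2) (by ring)
  simp only [smul_eq_mul] at h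
  have h3 : (1 + y) / 2 * s + (1 - y) / 2 * -s = s * y := by ring
  rw [h3] at h
  rw [Real.cosh_eq, Real.sinh_eq]
  linarith

theorem one_side {G : Type*} [DecidableEq G] (X : Finset G) (Y : G → ℝ)
    (h1 : ∀ a ∈ X, -1 ≤ Y a) (h2 : ∀ a ∈ X, Y a ≤ 1) (h0 : ∑ a ∈ X, Y a = 0) (m : ℕ) (δ : ℝ)
    (hδ : 0 ≤ δ) :
    (((Fintype.piFinset (fun _ : Fin m => X)).filter
        (fun v => δ * m < ∑ i, Y (v i))).card : ℝ) ≤
      Real.exp (-(m * δ ^ 2 / 2)) * (X.card : ℝ) ^ m := by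
  have hsum : ∑ a ∈ X, Real.exp (δ * Y a) ≤ (X.card : ℝ) * Real.exp (δ ^ 2 / 2) := by
    calc ∑ a ∈ X, Real.exp (δ * Y a) ≤ ∑ a ∈ X, (Real.cosh δ + Y a * Real.sinh δ) :=
          Finset.sum_le_sum fun a ha => exp_le_aux (h1 a ha) (h2 a ha)
      _ = (X.card : ℝ) * Real.cosh δ := by
          rw [Finset.sum_add_distrib, ← Finset.sum_mul, h0, zero_mul, add_zero, Finset.sum_const,
            nsmul_eq_mul]
      _ ≤ (X.card : ℝ) * Real.exp (δ ^ 2 / 2) :=
          mul_le_mul_of_nonneg_left (Real.cosh_le_exp_half_sq δ) (Nat.cast_nonneg _)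
  have hprod : ∑ v ∈ Fintype.piFinset (fun _ : Fin m => X), Real.exp (δ * ∑ i, Y (v i)) =
      (∑ a ∈ X, Real.exp (δ * Y a)) ^ m := by
    have h := Finset.prod_univ_sum (fun _ : Fin m => X) (fun _ a => Real.exp (δ * Y a))
    rw [Finset.prod_const, Finset.card_univ, Fintype.card_fin] at h
    rw [h]
    refine Finset.sum_congr rfl fun v _ => ?_
    rw [← Real.exp_sum, Finset.mul_sum]
  have hmark : (((Fintype.piFinset (fun _ : Fin m => X)).filter
        (fun v => δ * m < ∑ i, Y (v i))).card : ℝ) * Real.exp (δ * (δ * m)) ≤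
      ∑ v ∈ Fintype.piFinset (fun _ : Fin m => X), Real.exp (δ * ∑ i, Y (v i)) := by
    calc _ = ∑ v ∈ (Fintype.piFinset (fun _ : Fin m => X)).filter
          (fun v => δ * m < ∑ i, Y (v i)), Real.exp (δ * (δ * m)) := by
          rw [Finset.sum_const, nsmul_eq_mul]
      _ ≤ ∑ v ∈ (Fintype.piFinset (fun _ : Fin m => X)).filter
          (fun v => δ * m < ∑ i, Y (v i)), Real.exp (δ * ∑ i, Y (v i)) := by
          refine Finset.sum_le_sum fun v hv => ?_
          exact Real.exp_le_exp.2 (mul_le_mul_of_nonneg_left (Finset.mem_filter.1 hv).2.le hδ)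
      _ ≤ _ := Finset.sum_le_sum_of_subset_of_nonneg (Finset.filter_subset _ _)
          fun _ _ _ => (Real.exp_pos _).le
  have hpow : (∑ a ∈ X, Real.exp (δ * Y a)) ^ m ≤ ((X.card : ℝ) * Real.exp (δ ^ 2 / 2)) ^ m :=
    pow_le_pow_left₀ (Finset.sum_nonneg fun _ _ => (Real.exp_pos _).le) hsum m
  rw [hprod] at hmark
  have h3 := hmark.trans hpow
  rw [mul_pow, ← Real.exp_nat_mul] at h3
  have h4 : Real.exp (-(m * δ ^ 2 / 2)) = Real.exp (m * (δ ^ 2 / 2)) / Real.exp (δ * (δ * m)) := by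
    rw [← Real.exp_sub]
    congr 1
    ring
  rw [h4, div_mul_eq_mul_div, le_div_iff₀ (Real.exp_pos _)]
  linarith

end Hoeff

/-- Let `μ = (∑_{a∈X} g a)/|X|`, `0 ≤ g ≤ 1`. The number of `v ∈ X^m` (functions `Fin m → G` with
values in `X`) with `|∑_i g(v i) - m μ| > δ m` is at most `2 exp(-m δ²/2) |X|^m`.
Proof: `Y a = g a - μ ∈ [-1,1]` has mean 0 over `X`. For `s ≥ 0` and `|y| ≤ 1`,
`exp(s y) ≤ cosh s + y sinh s` (convexity), so `∑_{a∈X} exp(s Y a) ≤ |X| cosh s ≤ |X| exp(s²/2)`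
(`Real.cosh_le_exp_half_sq`). Hence `∑_{v ∈ X^m} exp(s ∑_i Y(v i)) = (∑_{a∈X} exp(s Y a))^m
≤ |X|^m exp(m s²/2)` (`Finset.sum_pow'`/`Finset.prod_univ_sum`), and Markov with `s = δ` gives
`#{v : ∑ Y(v i) > δ m} ≤ |X|^m exp(m δ²/2 - m δ²) = |X|^m exp(-m δ²/2)`.
The same for `-Y`. -/
theorem hoeffding {G : Type*} [DecidableEq G] (X : Finset G) (hX : X.Nonempty) (g : G → ℝ)
    (hg0 : ∀ a ∈ X, 0 ≤ g a) (hg1 : ∀ a ∈ X, g a ≤ 1) (m : ℕ) (δ : ℝ) (hδ : 0 ≤ δ) :
    (((Fintype.piFinset (fun _ : Fin m => X)).filter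
        (fun v => δ * m < |∑ i, g (v i) - m * ((∑ a ∈ X, g a) / X.card)|)).card : ℝ) ≤
      2 * Real.exp (-(m * δ ^ 2 / 2)) * (X.card : ℝ) ^ m := by
  set μ : ℝ := (∑ a ∈ X, g a) / X.card with hμ
  have hc : (0 : ℝ) < X.card := by exact_mod_cast hX.card_pos
  have hμ0 : 0 ≤ μ := div_nonneg (Finset.sum_nonneg hg0) hc.le
  have hμ1 : μ ≤ 1 := by
    rw [hμ, div_le_one hc]
    calc ∑ a ∈ X, g a ≤ ∑ _a ∈ X, (1 : ℝ) := Finset.sum_le_sum hg1
      _ = X.card := by rw [Finset.sum_const, nsmul_eq_mul, mul_one]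
  have hs : ∑ a ∈ X, g a = X.card * μ := by
    rw [hμ]; field_simp
  have h1 := Hoeff.one_side X (fun a => g a - μ) (fun a ha => by linarith [hg0 a ha])
    (fun a ha => by linarith [hg1 a ha])
    (by rw [Finset.sum_sub_distrib, Finset.sum_const, nsmul_eq_mul, hs, sub_self]) m δ hδ
  have h2 := Hoeff.one_side X (fun a => μ - g a) (fun a ha => by linarith [hg1 a ha])
    (fun a ha => by linarith [hg0 a ha])
    (by rw [Finset.sum_sub_distrib, Finset.sum_const, nsmul_eq_mul, hs, sub_self]) m δ hδ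
  have hsub : (Fintype.piFinset (fun _ : Fin m => X)).filter
        (fun v => δ * m < |∑ i, g (v i) - m * μ|) ⊆
      (Fintype.piFinset (fun _ : Fin m => X)).filter (fun v => δ * m < ∑ i, (g (v i) - μ)) ∪
      (Fintype.piFinset (fun _ : Fin m => X)).filter (fun v => δ * m < ∑ i, (μ - g (v i))) := by
    intro v hv
    rw [Finset.mem_filter] at hv
    rw [Finset.mem_union, Finset.mem_filter, Finset.mem_filter]
    have e1 : ∑ i : Fin m, (g (v i) - μ) = ∑ i, g (v i) - m * μ := by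
      rw [Finset.sum_sub_distrib, Finset.sum_const, Finset.card_univ, Fintype.card_fin, nsmul_eq_mul]
    have e2 : ∑ i : Fin m, (μ - g (v i)) = -(∑ i, g (v i) - m * μ) := by
      rw [Finset.sum_sub_distrib, Finset.sum_const, Finset.card_univ, Fintype.card_fin, nsmul_eq_mul]
      ring
    rcases lt_abs.1 hv.2 with h | h
    · left; exact ⟨hv.1, by rw [e1]; exact h⟩
    · right; exact ⟨hv.1, by rw [e2]; exact h⟩
  have h3 : (((Fintype.piFinset (fun _ : Fin m => X)).filter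
        (fun v => δ * m < |∑ i, g (v i) - m * μ|)).card : ℝ) ≤
      (((Fintype.piFinset (fun _ : Fin m => X)).filter
        (fun v => δ * m < ∑ i, (g (v i) - μ))).card : ℝ) +
      (((Fintype.piFinset (fun _ : Fin m => X)).filter
        (fun v => δ * m < ∑ i, (μ - g (v i)))).card : ℝ) := by
    exact_mod_cast (Finset.card_le_card hsub).trans (Finset.card_union_le _ _)
  linarith

end P057
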