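import Vale.Agent.Lib.P057.R.Defs
import Vale.Agent.Lib.P057.R.Hoeff

/-!
P057 module AlmostPer: Croot-Sisask almost periodicity, in the form needed.
-/

set_option autoImplicit false

namespace P057

open Finset

variable {G : Type*} [AddCommGroup G] [Fintype G] [DecidableEq G]

/-! Auxiliary lemmas. -/

namespace AlmostPer

/-- average of the indicator of `x - a ∈ S` over `a ∈ X`. -/
noncomputable def gav (S X : Finset G) (x : G) : ℝ :=
  (∑ a ∈ X, (if x - a ∈ S then (1 : ℝ) else 0)) / (X.card : ℝ)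

/-- average of the indicator of `x - v i ∈ S` over `i : Fin m`. -/
noncomputable def gv (S : Finset G) {m : ℕ} (v : Fin m → G) (x : G) : ℝ :=
  (∑ i, (if x - v i ∈ S then (1 : ℝ) else 0)) / (m : ℝ)

lemma gav_nonneg (S X : Finset G) (x : G) : 0 ≤ gav S X x :=
  div_nonneg (Finset.sum_nonneg fun _ _ => by split_ifs <;> norm_num) (Nat.cast_nonneg _)

lemma gav_le_one (S X : Finset G) (x : G) : gav S X x ≤ 1 := by
  unfold gav
  apply div_le_one_of_le₀ _ (Nat.cast_nonneg _)
  calc (∑ a ∈ X, (if x - a ∈ S then (1 : ℝ) else 0)) ≤ ∑ _a ∈ X, (1 : ℝ) :=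
        Finset.sum_le_sum fun _ _ => by split_ifs <;> norm_num
    _ = _ := by simp

lemma hS_eq (S X : Finset G) (hX : X.Nonempty) (u : G) :
    hS S X u = (∑ b ∈ X, gav S X (b + u)) / (X.card : ℝ) := by
  have hc : (X.card : ℝ) ≠ 0 := by
    have := Finset.card_pos.mpr hX
    positivity
  unfold hS gav
  rw [Finset.sum_comm, ← Finset.sum_div, div_div, ← sq]
  congr 1
  refine Finset.sum_congr rfl fun b _ => Finset.sum_congr rfl fun a _ => ?_
  have : b - a + u = b + u - a := by abel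
  rw [this]

lemma gv_shift (S : Finset G) {m : ℕ} (w : Fin m → G) (t x : G) :
    gv S (fun i => w i - t) x = gv S w (x + t) := by
  unfold gv
  congr 1
  refine Finset.sum_congr rfl fun i _ => ?_
  have : x - (w i - t) = x + t - w i := by abel
  rw [this]

/-- the exceptional set of `v` -/
noncomputable def exc (S X D : Finset G) (δ : ℝ) {m : ℕ} (v : Fin m → G) : Finset G :=
  D.filter fun x => δ < |gv S v x - gav S X x|

lemma hoeff_point (S X : Finset G) (hX : X.Nonempty) (δ : ℝ) (hδ : 0 < δ) (m : ℕ) (hm : 0 < m)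
    (x : G) :
    (((Fintype.piFinset (fun _ : Fin m => X)).filter
      (fun v => δ < |gv S v x - gav S X x|)).card : ℝ) ≤
      2 * Real.exp (-(m * δ ^ 2 / 2)) * (X.card : ℝ) ^ m := by
  have h := hoeffding X hX (fun a => if x - a ∈ S then (1 : ℝ) else 0)
    (fun a _ => by split_ifs <;> norm_num) (fun a _ => by split_ifs <;> norm_num) m δ hδ.le
  refine le_trans ?_ h
  apply Nat.cast_le.mpr
  apply Finset.card_le_card
  intro v hv
  rw [Finset.mem_filter] at hv ⊢
  refine ⟨hv.1, ?_⟩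
  have hmpos : (0 : ℝ) < m := by exact_mod_cast hm
  have h1 : (∑ i, (if x - v i ∈ S then (1 : ℝ) else 0)) -
      m * ((∑ a ∈ X, (if x - a ∈ S then (1 : ℝ) else 0)) / X.card) =
      m * (gv S v x - gav S X x) := by
    unfold gv gav
    field_simp
  rw [h1, abs_mul, abs_of_pos hmpos, mul_comm δ]
  exact mul_lt_mul_of_pos_left hv.2 hmpos

lemma sum_exc (S X D : Finset G) (hX : X.Nonempty) (δ : ℝ) (hδ : 0 < δ) (m : ℕ) (hm : 0 < m) :
    ∑ v ∈ Fintype.piFinset (fun _ : Fin m => X), ((exc S X D δ v).card : ℝ) ≤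
      (D.card : ℝ) * (2 * Real.exp (-(m * δ ^ 2 / 2)) * (X.card : ℝ) ^ m) := by
  have h1 : ∑ v ∈ Fintype.piFinset (fun _ : Fin m => X), ((exc S X D δ v).card : ℝ) =
      ∑ x ∈ D, (((Fintype.piFinset (fun _ : Fin m => X)).filter
        (fun v => δ < |gv S v x - gav S X x|)).card : ℝ) := by
    simp only [exc, Finset.card_filter, Nat.cast_sum]
    rw [Finset.sum_comm]
  rw [h1]
  calc _ ≤ ∑ _x ∈ D, (2 * Real.exp (-(m * δ ^ 2 / 2)) * (X.card : ℝ) ^ m) :=
        Finset.sum_le_sum fun x _ => hoeff_point S X hX δ hδ m hm x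
    _ = _ := by rw [Finset.sum_const, nsmul_eq_mul]

/-- good tuples -/
noncomputable def good (S X D : Finset G) (δ : ℝ) (m : ℕ) : Finset (Fin m → G) :=
  (Fintype.piFinset (fun _ : Fin m => X)).filter fun v =>
    ((exc S X D δ v).card : ℝ) ≤ 4 * Real.exp (-(m * δ ^ 2 / 2)) * D.card

lemma card_good (S X D : Finset G) (hX : X.Nonempty) (hXD : X ⊆ D) (δ : ℝ) (hδ : 0 < δ) (m : ℕ)
    (hm : 0 < m) : (X.card : ℝ) ^ m / 2 ≤ ((good S X D δ m).card : ℝ) := by
  classical
  set e : ℝ := Real.exp (-(m * δ ^ 2 / 2)) with he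
  have hepos : 0 < e := Real.exp_pos _
  have hDpos : (0 : ℝ) < D.card := by
    have := Finset.card_pos.mpr (hX.mono hXD)
    exact_mod_cast this
  have hsum := sum_exc S X D hX δ hδ m hm
  rw [← he] at hsum
  set P := Fintype.piFinset (fun _ : Fin m => X) with hP
  have hPc : (P.card : ℝ) = (X.card : ℝ) ^ m := by
    rw [hP, Fintype.card_piFinset]
    simp
  set Bd := P.filter fun v => ¬ (((exc S X D δ v).card : ℝ) ≤ 4 * e * D.card) with hBd
  have hsplit : ((good S X D δ m).card : ℝ) + (Bd.card : ℝ) = (X.card : ℝ) ^ m := by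
    rw [← hPc, ← Nat.cast_add]
    congr 1
    exact Finset.card_filter_add_card_filter_not _
  have h1 : (Bd.card : ℝ) * (4 * e * D.card) ≤ (D.card : ℝ) * (2 * e * (X.card : ℝ) ^ m) := by
    calc (Bd.card : ℝ) * (4 * e * D.card) = ∑ _v ∈ Bd, (4 * e * (D.card : ℝ)) := by
          rw [Finset.sum_const, nsmul_eq_mul]
      _ ≤ ∑ v ∈ Bd, ((exc S X D δ v).card : ℝ) := by
          refine Finset.sum_le_sum fun v hv => ?_
          rw [hBd, Finset.mem_filter] at hv
          exact (not_le.mp hv.2).le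
      _ ≤ ∑ v ∈ P, ((exc S X D δ v).card : ℝ) :=
          Finset.sum_le_sum_of_subset_of_nonneg (Finset.filter_subset _ _)
            (fun _ _ _ => Nat.cast_nonneg _)
      _ ≤ _ := hsum
  have h2 : (Bd.card : ℝ) ≤ (X.card : ℝ) ^ m / 2 := by
    have h3 : (0 : ℝ) < 4 * e * D.card := by positivity
    have h4 : (Bd.card : ℝ) * (4 * e * D.card) ≤ (X.card : ℝ) ^ m / 2 * (4 * e * D.card) := by
      refine h1.trans (le_of_eq ?_)
      ring
    exact le_of_mul_le_mul_right h4 h3
  linarith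

end AlmostPer

/-- Almost periodicity. For `x : G` let `g x = #{a ∈ X : x - a ∈ S}/|X| ∈ [0,1]`, and for
`v : Fin m → G`, `g_v x = #{i : x - v i ∈ S}/m`. Note
`hS S X u = (1/|X|) ∑_{b∈X} g(b+u)`.

1. By `hoeffding` (with the function `a ↦ 1_{x - a ∈ S}`), for every `x` the number of `v ∈ X^m`
with `|g_v x - g x| > δ` is at most `2 e |X|^m`, `e = exp(-mδ²/2)`. Sum over `x ∈ D`: the number of
pairs is at most `2 e |D| |X|^m`, so at least half of the `v ∈ X^m` are good, meaning
`#{x ∈ D : |g_v x - g x| > δ} ≤ 4 e |D|` (Markov).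

2. Pigeonhole: for `t ∈ Z` and good `v`, the tuple `w = v + t` (add `t` to every coordinate) lies in
`D^m` (by `hD1`). Number of pairs `(t, v)` is at least `|Z| |X|^m/2`, so some `w ∈ D^m` has
`T = {t ∈ Z : w - t good}` with `|T| ≥ |Z| |X|^m/(2 |D|^m) ≥ (1/2) (σ/2)^m |Z|`
(`|X| ≥ σ |C|`, `|D| ≤ 2|C|`).

3. For `t ∈ T`: `g_{w-t}(x) = g_w(x+t)`. So the set
`E_t = {x ∈ D : |g_w(x+t) - g x| > δ}` has at most `4 e |D|` elements.
For `t, t' ∈ T` and `b ∈ X`: `b ∈ D` and `b + t - t' ∈ D` (`hD1` with `t = 0`... see below, `hD2`).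
If `b ∉ E_t` and `b + t - t' ∉ E_{t'}` then `|g(b+t-t') - g_w(b + t)| ≤ δ` and
`|g_w(b+t) - g(b)| ≤ δ`, so `|g(b+t-t') - g b| ≤ 2δ`; otherwise the difference is at most 1.
So `|hS (t-t') - hS 0| ≤ 2δ + 8 e |D|/|X| ≤ 2δ + 16 e/σ ≤ 3δ` by `hm`. -/
theorem almost_periodic (S X C D Z : Finset G) (σ δ : ℝ) (hσ : 0 < σ) (hσ1 : σ ≤ 1)
    (hδ : 0 < δ) (m : ℕ) (hm0 : 0 < m)
    (hX : X.Nonempty) (hXC : σ * (C.card : ℝ) ≤ (X.card : ℝ)) (hDC : (D.card : ℝ) ≤ 2 * C.card)
    (hXD : X ⊆ D) (hD1 : ∀ x ∈ X, ∀ t ∈ Z, x + t ∈ D)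
    (hD2 : ∀ x ∈ X, ∀ t ∈ Z, ∀ t' ∈ Z, x + t - t' ∈ D)
    (hm : 16 * Real.exp (-(m * δ ^ 2 / 2)) ≤ δ * σ) :
    ∃ T : Finset G, T ⊆ Z ∧ (1 / 2) * (σ / 2) ^ m * (Z.card : ℝ) ≤ (T.card : ℝ) ∧
      ∀ t ∈ T, ∀ t' ∈ T, |hS S X (t - t') - hS S X 0| ≤ 3 * δ := by
  classical
  have hXpos : (0 : ℝ) < X.card := by
    have := Finset.card_pos.mpr hX
    exact_mod_cast this
  have hDpos : (0 : ℝ) < D.card := by
    have := Finset.card_pos.mpr (hX.mono hXD)
    exact_mod_cast this
  have hepos : 0 < Real.exp (-(m * δ ^ 2 / 2)) := Real.exp_pos _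
  have hcg := AlmostPer.card_good S X D hX hXD δ hδ m hm0
  set Gd := AlmostPer.good S X D δ m with hGd
  -- pigeonhole
  set PD := Fintype.piFinset (fun _ : Fin m => D) with hPD
  have hPDc : (PD.card : ℝ) = (D.card : ℝ) ^ m := by
    rw [hPD, Fintype.card_piFinset]
    simp
  have hdx : σ / 2 * (D.card : ℝ) ≤ X.card := by nlinarith
  have hdxm : (σ / 2) ^ m * (D.card : ℝ) ^ m ≤ (X.card : ℝ) ^ m := by
    rw [← mul_pow]
    exact pow_le_pow_left₀ (by positivity) hdx m
  have hpig : (Z.card : ℝ) * (Gd.card : ℝ) ≤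
      ∑ w ∈ PD, ((Z.filter fun t => (fun i => w i - t) ∈ Gd).card : ℝ) := by
    have h1 : ∑ w ∈ PD, ((Z.filter fun t => (fun i => w i - t) ∈ Gd).card : ℝ) =
        ∑ t ∈ Z, ((PD.filter fun w => (fun i => w i - t) ∈ Gd).card : ℝ) := by
      simp only [Finset.card_filter, Nat.cast_sum]
      rw [Finset.sum_comm]
    rw [h1]
    calc (Z.card : ℝ) * (Gd.card : ℝ) = ∑ _t ∈ Z, (Gd.card : ℝ) := by
          rw [Finset.sum_const, nsmul_eq_mul]
      _ ≤ _ := by
          refine Finset.sum_le_sum fun t ht => ?_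
          apply Nat.cast_le.mpr
          refine Finset.card_le_card_of_injOn (fun v i => v i + t) ?_ ?_
          · intro v hv
            have hv' : v ∈ Gd := hv
            have hvX : v ∈ Fintype.piFinset (fun _ : Fin m => X) :=
              (Finset.mem_filter.mp hv').1
            rw [Fintype.mem_piFinset] at hvX
            rw [Finset.mem_coe, Finset.mem_filter]
            refine ⟨?_, ?_⟩
            · rw [hPD, Fintype.mem_piFinset]
              intro i
              exact hD1 _ (hvX i) t ht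
            · have : (fun i => v i + t - t) = v := by
                funext i
                abel
              rw [this]
              exact hv'
          · intro v _ v' _ h
            funext i
            exact add_right_cancel (congrFun h i)
  have hPDne : PD.Nonempty := by
    rw [hPD, Fintype.piFinset_nonempty]
    exact fun _ => hX.mono hXD
  obtain ⟨w, hw, hwc⟩ : ∃ w ∈ PD, (1 / 2) * (σ / 2) ^ m * (Z.card : ℝ) ≤
      ((Z.filter fun t => (fun i => w i - t) ∈ Gd).card : ℝ) := by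
    refine Finset.exists_le_of_sum_le hPDne ?_
    refine le_trans ?_ hpig
    rw [Finset.sum_const, nsmul_eq_mul, hPDc]
    have hZ : (0 : ℝ) ≤ Z.card := Nat.cast_nonneg _
    calc (D.card : ℝ) ^ m * ((1 / 2) * (σ / 2) ^ m * (Z.card : ℝ))
        = (Z.card : ℝ) * (((σ / 2) ^ m * (D.card : ℝ) ^ m) / 2) := by ring
      _ ≤ (Z.card : ℝ) * ((X.card : ℝ) ^ m / 2) := by
          refine mul_le_mul_of_nonneg_left ?_ hZ
          linarith
      _ ≤ _ := mul_le_mul_of_nonneg_left hcg hZ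
  refine ⟨Z.filter fun t => (fun i => w i - t) ∈ Gd, Finset.filter_subset _ _, hwc, ?_⟩
  intro t ht t' ht'
  obtain ⟨htZ, htG⟩ := Finset.mem_filter.mp ht
  obtain ⟨htZ', htG'⟩ := Finset.mem_filter.mp ht'
  have hE : ((AlmostPer.exc S X D δ (fun i => w i - t)).card : ℝ) ≤
      4 * Real.exp (-(m * δ ^ 2 / 2)) * D.card := (Finset.mem_filter.mp htG).2
  have hE' : ((AlmostPer.exc S X D δ (fun i => w i - t')).card : ℝ) ≤
      4 * Real.exp (-(m * δ ^ 2 / 2)) * D.card := (Finset.mem_filter.mp htG').2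
  set E := AlmostPer.exc S X D δ (fun i => w i - t) with hEdef
  set E' := AlmostPer.exc S X D δ (fun i => w i - t') with hEdef'
  have hpt : ∀ b ∈ X, |AlmostPer.gav S X (b + (t - t')) - AlmostPer.gav S X (b + 0)| ≤
      2 * δ + ((if b ∈ E then (1 : ℝ) else 0) + (if b + (t - t') ∈ E' then (1 : ℝ) else 0)) := by
    intro b hb
    rw [add_zero]
    have hbD : b ∈ D := hXD hb
    have hbD' : b + (t - t') ∈ D := by
      have := hD2 b hb t htZ t' htZ'
      have h2 : b + (t - t') = b + t - t' := by abel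
      rw [h2]; exact this
    have hone : |AlmostPer.gav S X (b + (t - t')) - AlmostPer.gav S X b| ≤ 1 := by
      rw [abs_le]
      have h1 := AlmostPer.gav_nonneg S X (b + (t - t'))
      have h2 := AlmostPer.gav_le_one S X (b + (t - t'))
      have h3 := AlmostPer.gav_nonneg S X b
      have h4 := AlmostPer.gav_le_one S X b
      constructor <;> linarith
    by_cases h1 : b ∈ E
    · rw [if_pos h1]
      have : (0 : ℝ) ≤ if b + (t - t') ∈ E' then (1 : ℝ) else 0 := by split_ifs <;> norm_num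
      linarith
    · by_cases h2 : b + (t - t') ∈ E'
      · rw [if_pos h2, if_neg h1]
        linarith
      · rw [if_neg h1, if_neg h2]
        have h3 : |AlmostPer.gv S w (b + t) - AlmostPer.gav S X b| ≤ δ := by
          rw [hEdef, AlmostPer.exc, Finset.mem_filter, not_and, AlmostPer.gv_shift] at h1
          exact not_lt.mp (h1 hbD)
        have h4 : |AlmostPer.gv S w (b + t) - AlmostPer.gav S X (b + (t - t'))| ≤ δ := by
          rw [hEdef', AlmostPer.exc, Finset.mem_filter, not_and, AlmostPer.gv_shift] at h2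
          have h5 := not_lt.mp (h2 hbD')
          have h6 : b + (t - t') + t' = b + t := by abel
          rw [h6] at h5
          exact h5
        rw [abs_le] at h3 h4 ⊢
        constructor <;> linarith [h3.1, h3.2, h4.1, h4.2]
  have hcE : ∑ b ∈ X, (if b ∈ E then (1 : ℝ) else 0) ≤ E.card := by
    rw [Finset.sum_ite_mem, Finset.sum_const, nsmul_eq_mul, mul_one]
    exact_mod_cast Finset.card_le_card Finset.inter_subset_right
  have hcE' : ∑ b ∈ X, (if b + (t - t') ∈ E' then (1 : ℝ) else 0) ≤ E'.card := by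
    rw [← Finset.sum_filter, Finset.sum_const, nsmul_eq_mul, mul_one]
    apply Nat.cast_le.mpr
    refine Finset.card_le_card_of_injOn (fun b => b + (t - t')) ?_ ?_
    · intro b hb
      exact (Finset.mem_filter.mp (Finset.mem_coe.mp hb)).2
    · intro b _ b' _ h
      exact add_right_cancel h
  have h8 : 8 * Real.exp (-(m * δ ^ 2 / 2)) * (D.card : ℝ) ≤ δ * X.card := by
    have h9 : (8 * Real.exp (-(m * δ ^ 2 / 2)) * (D.card : ℝ)) * σ ≤ (δ * X.card) * σ := by
      calc (8 * Real.exp (-(m * δ ^ 2 / 2)) * (D.card : ℝ)) * σ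
          = 8 * Real.exp (-(m * δ ^ 2 / 2)) * ((D.card : ℝ) * σ) := by ring
        _ ≤ 8 * Real.exp (-(m * δ ^ 2 / 2)) * (2 * X.card) := by
            refine mul_le_mul_of_nonneg_left ?_ (by positivity)
            nlinarith
        _ = 16 * Real.exp (-(m * δ ^ 2 / 2)) * X.card := by ring
        _ ≤ (δ * σ) * X.card := mul_le_mul_of_nonneg_right hm hXpos.le
        _ = _ := by ring
    exact le_of_mul_le_mul_right h9 hσ
  rw [AlmostPer.hS_eq S X hX, AlmostPer.hS_eq S X hX, ← sub_div, ← Finset.sum_sub_distrib, abs_div,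
    abs_of_pos hXpos, div_le_iff₀ hXpos]
  calc |∑ b ∈ X, (AlmostPer.gav S X (b + (t - t')) - AlmostPer.gav S X (b + 0))|
      ≤ ∑ b ∈ X, |AlmostPer.gav S X (b + (t - t')) - AlmostPer.gav S X (b + 0)| :=
        Finset.abs_sum_le_sum_abs _ _
    _ ≤ ∑ b ∈ X, (2 * δ + ((if b ∈ E then (1 : ℝ) else 0) +
          (if b + (t - t') ∈ E' then (1 : ℝ) else 0))) := Finset.sum_le_sum hpt
    _ = 2 * δ * X.card + ((∑ b ∈ X, (if b ∈ E then (1 : ℝ) else 0)) +
          ∑ b ∈ X, (if b + (t - t') ∈ E' then (1 : ℝ) else 0)) := by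
        rw [Finset.sum_add_distrib, Finset.sum_add_distrib, Finset.sum_const, nsmul_eq_mul]
        ring
    _ ≤ 2 * δ * X.card + (4 * Real.exp (-(m * δ ^ 2 / 2)) * D.card +
          4 * Real.exp (-(m * δ ^ 2 / 2)) * D.card) := by linarith
    _ ≤ 3 * δ * X.card := by linarith

end P057
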