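import Vale.Agent.Lib.P057.R.Defs

/-!
P057 module BohrBasic: elementary facts on `nu` and `bohr`.
-/

set_option autoImplicit false

namespace P057

open Finset


variable {q : ℕ} [NeZero q]

private theorem q_pos : (0 : ℝ) < (q : ℝ) := by
  exact_mod_cast Nat.pos_of_ne_zero (NeZero.ne q)

theorem nu_nonneg (t : ZMod q) : 0 ≤ nu t := by
  unfold nu
  positivity

theorem nu_zero : nu (0 : ZMod q) = 0 := by
  unfold nu
  simp

theorem nu_neg (t : ZMod q) : nu (-t) = nu t := by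
  unfold nu
  rw [ZMod.natAbs_valMinAbs_neg]

/-- `nu` is the minimum of `|j| / q` over the integer representatives `j`. -/
theorem nu_le_of_int (t : ZMod q) (j : ℤ) (h : (j : ZMod q) = t) : nu t ≤ |(j : ℝ)| / q := by
  unfold nu
  have hq : (0 : ℝ) < (q : ℝ) := q_pos
  apply div_le_div_of_nonneg_right _ hq.le
  have h1 : t.valMinAbs.natAbs ≤ j.natAbs := by
    apply ZMod.natAbs_min_of_le_div_two q
    · rw [ZMod.coe_valMinAbs, h]
    · exact ZMod.natAbs_valMinAbs_le t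
  have h2 : ((t.valMinAbs.natAbs : ℕ) : ℝ) ≤ ((j.natAbs : ℕ) : ℝ) := by exact_mod_cast h1
  rw [Nat.cast_natAbs, Nat.cast_natAbs] at h2
  rw [Nat.cast_natAbs]
  exact_mod_cast h2

theorem nu_add_le (s t : ZMod q) : nu (s + t) ≤ nu s + nu t := by
  have h := nu_le_of_int (s + t) (s.valMinAbs + t.valMinAbs) (by
    rw [Int.cast_add, ZMod.coe_valMinAbs, ZMod.coe_valMinAbs])
  refine h.trans ?_
  unfold nu
  rw [← add_div]
  have hq : (0 : ℝ) < (q : ℝ) := q_pos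
  apply div_le_div_of_nonneg_right _ hq.le
  rw [Nat.cast_natAbs, Nat.cast_natAbs]
  push_cast
  exact abs_add_le _ _

theorem nu_sub_le (s t : ZMod q) : nu (s - t) ≤ nu s + nu t := by
  have h := nu_add_le s (-t)
  rwa [nu_neg, ← sub_eq_add_neg] at h

theorem nu_le_half (t : ZMod q) : nu t ≤ 1 / 2 := by
  unfold nu
  have hq : (0 : ℝ) < (q : ℝ) := q_pos
  rw [div_le_iff₀ hq]
  have h := ZMod.natAbs_valMinAbs_le t
  have h1 : ((t.valMinAbs.natAbs : ℕ) : ℝ) ≤ ((q / 2 : ℕ) : ℝ) := by exact_mod_cast h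
  have h2 : ((q / 2 : ℕ) : ℝ) ≤ (q : ℝ) / 2 := by
    have := @Nat.cast_div_le ℝ _ _ _ q 2
    simpa using this
  linarith

theorem norm_one_sub_char (t : ZMod q) :
    ‖(1 : ℂ) - ZMod.stdAddChar t‖ ≤ 2 * Real.pi * nu t := by
  have h1 : ZMod.stdAddChar t = Complex.exp (Complex.I * ((2 * Real.pi * (t.valMinAbs : ℝ) / q : ℝ) : ℂ)) := by
    conv_lhs => rw [← ZMod.coe_valMinAbs t]
    rw [ZMod.stdAddChar_coe]
    congr 1
    push_cast
    ring
  rw [h1, ← norm_neg, neg_sub]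
  refine Real.norm_exp_I_mul_ofReal_sub_one_le.trans ?_
  rw [Real.norm_eq_abs, abs_div, abs_mul, abs_mul]
  unfold nu
  rw [Nat.cast_natAbs, Nat.abs_cast, abs_of_pos Real.pi_pos]
  push_cast
  rw [abs_of_pos (show (0:ℝ) < 2 by norm_num), mul_div_assoc]

theorem mem_bohr (Γ : Finset (ZMod q)) (r : ℝ) (x : ZMod q) :
    x ∈ bohr Γ r ↔ ∀ γ ∈ Γ, nu (γ * x) ≤ r := by
  classical
  unfold bohr
  simp

theorem zero_mem_bohr (Γ : Finset (ZMod q)) (r : ℝ) (hr : 0 ≤ r) : (0 : ZMod q) ∈ bohr Γ r := by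
  rw [mem_bohr]
  intro γ _
  rw [mul_zero, nu_zero]
  exact hr

theorem card_bohr_pos (Γ : Finset (ZMod q)) (r : ℝ) (hr : 0 ≤ r) : 0 < (bohr Γ r).card :=
  Finset.card_pos.2 ⟨0, zero_mem_bohr Γ r hr⟩

theorem neg_mem_bohr (Γ : Finset (ZMod q)) (r : ℝ) (x : ZMod q) (hx : x ∈ bohr Γ r) :
    -x ∈ bohr Γ r := by
  rw [mem_bohr] at hx ⊢
  intro γ hγ
  rw [mul_neg, nu_neg]
  exact hx γ hγ

theorem add_mem_bohr (Γ : Finset (ZMod q)) (r s : ℝ) (x y : ZMod q) (hx : x ∈ bohr Γ r)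
    (hy : y ∈ bohr Γ s) : x + y ∈ bohr Γ (r + s) := by
  rw [mem_bohr] at hx hy ⊢
  intro γ hγ
  rw [mul_add]
  exact (nu_add_le _ _).trans (add_le_add (hx γ hγ) (hy γ hγ))

theorem sub_mem_bohr (Γ : Finset (ZMod q)) (r s : ℝ) (x y : ZMod q) (hx : x ∈ bohr Γ r)
    (hy : y ∈ bohr Γ s) : x - y ∈ bohr Γ (r + s) := by
  rw [sub_eq_add_neg]
  exact add_mem_bohr Γ r s x (-y) hx (neg_mem_bohr Γ s y hy)

theorem sum_mem_bohr (Γ : Finset (ZMod q)) (r : ℝ) (l : ℕ) (w : Fin l → ZMod q)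
    (hw : ∀ i, w i ∈ bohr Γ r) (hr : 0 ≤ r) : (∑ i, w i) ∈ bohr Γ (l * r) := by
  induction l with
  | zero =>
    rw [Fin.sum_univ_zero]
    apply zero_mem_bohr
    simp
  | succ l ih =>
    rw [Fin.sum_univ_castSucc]
    have h1 := ih (fun i => w i.castSucc) (fun i => hw _)
    have h2 := add_mem_bohr Γ (l * r) r _ _ h1 (hw (Fin.last l))
    have h3 : ((l + 1 : ℕ) : ℝ) * r = l * r + r := by push_cast; ring
    rw [h3]
    exact h2

theorem bohr_mono (Γ : Finset (ZMod q)) (r s : ℝ) (h : r ≤ s) : bohr Γ r ⊆ bohr Γ s := by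
  intro x hx
  rw [mem_bohr] at hx ⊢
  exact fun γ hγ => (hx γ hγ).trans h

theorem bohr_anti (Γ Γ' : Finset (ZMod q)) (r : ℝ) (h : Γ ⊆ Γ') : bohr Γ' r ⊆ bohr Γ r := by
  intro x hx
  rw [mem_bohr] at hx ⊢
  exact fun γ hγ => hx γ (h hγ)

theorem bohr_empty (r : ℝ) : bohr (∅ : Finset (ZMod q)) r = Finset.univ := by
  ext x
  rw [mem_bohr]
  simp

theorem half_card_le (Γ : Finset (ZMod q)) : (half Γ).card ≤ Γ.card := by
  unfold half
  exact Finset.card_image_le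

omit [NeZero q] in
private theorem two_inv_mul (hq : Odd q) : (2 : ZMod q)⁻¹ * 2 = 1 := by
  have hc : Nat.Coprime 2 q := (Nat.coprime_two_left).2 hq
  have h := ZMod.coe_mul_inv_eq_one 2 hc
  rw [mul_comm]
  exact_mod_cast h

/-- For odd `q`, `bohr (half Γ) r` is the set of doubles of elements of `bohr Γ r`. -/
theorem bohr_half (hq : Odd q) (Γ : Finset (ZMod q)) (r : ℝ) :
    bohr (half Γ) r = (bohr Γ r).image (fun x => x + x) := by
  have h2 := two_inv_mul hq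
  ext y
  rw [mem_bohr, Finset.mem_image]
  constructor
  · intro h
    refine ⟨(2 : ZMod q)⁻¹ * y, ?_, ?_⟩
    · rw [mem_bohr]
      intro γ hγ
      have h3 := h ((2 : ZMod q)⁻¹ * γ) (Finset.mem_image_of_mem _ hγ)
      have h4 : γ * ((2 : ZMod q)⁻¹ * y) = (2 : ZMod q)⁻¹ * γ * y := by ring
      rw [h4]
      exact h3
    · rw [← two_mul, ← mul_assoc, mul_comm 2, h2, one_mul]
  · rintro ⟨x, hx, rfl⟩ γ' hγ'
    rw [mem_bohr] at hx
    unfold half at hγ'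
    obtain ⟨γ, hγ, rfl⟩ := Finset.mem_image.1 hγ'
    have h4 : (2 : ZMod q)⁻¹ * γ * (x + x) = ((2 : ZMod q)⁻¹ * 2) * (γ * x) := by ring
    rw [h4, h2, one_mul]
    exact hx γ hγ

/-- `x + x = y + y` forces `x = y` for odd `q`. -/
theorem double_inj (hq : Odd q) (x y : ZMod q) (h : x + x = y + y) : x = y := by
  have h2 := two_inv_mul hq
  have h3 : (2 : ZMod q)⁻¹ * (x + x) = (2 : ZMod q)⁻¹ * (y + y) := by rw [h]
  rw [← two_mul, ← two_mul, ← mul_assoc, ← mul_assoc, h2, one_mul, one_mul] at h3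
  exact h3

theorem card_bohr_half (hq : Odd q) (Γ : Finset (ZMod q)) (r : ℝ) :
    (bohr (half Γ) r).card = (bohr Γ r).card := by
  rw [bohr_half hq]
  exact Finset.card_image_of_injective _ (fun x y h => double_inj hq x y h)

theorem double_mem_bohr_half (hq : Odd q) (Γ : Finset (ZMod q)) (r : ℝ) (x : ZMod q)
    (hx : x ∈ bohr Γ r) : x + x ∈ bohr (half Γ) r := by
  rw [bohr_half hq]
  exact Finset.mem_image.2 ⟨x, hx, rfl⟩

theorem bohr_half_subset (hq : Odd q) (Γ : Finset (ZMod q)) (r : ℝ) :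
    bohr (half Γ) r ⊆ bohr Γ (2 * r) := by
  rw [bohr_half hq]
  intro y hy
  obtain ⟨x, hx, rfl⟩ := Finset.mem_image.1 hy
  rw [two_mul]
  exact add_mem_bohr Γ r r x x hx hx

end P057
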