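import Vale.Agent.Lib.P057.R.Chang
import Vale.Agent.Lib.P057.R.BohrBasic

/-!
P057 module Annih: a small set `Λ` such that `bohr (Γ ∪ Λ) r` annihilates the large spectrum.
-/

set_option autoImplicit false

namespace P057

open Finset

variable {q : ℕ} [NeZero q]

namespace Annih

theorem norm_char (t : ZMod q) : ‖(ZMod.stdAddChar t : ℂ)‖ = 1 := by
  rw [ZMod.stdAddChar_apply]
  exact Circle.norm_coe _

theorem norm_one_sub_add (a b : ZMod q) :
    ‖(1 : ℂ) - ZMod.stdAddChar (a + b)‖ ≤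
      ‖(1 : ℂ) - ZMod.stdAddChar a‖ + ‖(1 : ℂ) - ZMod.stdAddChar b‖ := by
  have e : (1 : ℂ) - ZMod.stdAddChar (a + b) =
      ((1 : ℂ) - ZMod.stdAddChar a) + ZMod.stdAddChar a * ((1 : ℂ) - ZMod.stdAddChar b) := by
    rw [AddChar.map_add_eq_mul]
    ring
  rw [e]
  refine (norm_add_le _ _).trans ?_
  rw [norm_mul, norm_char, one_mul]

theorem mh_zero (W : Finset (ZMod q)) (hW : W.Nonempty) : mh W 0 = 1 := by
  unfold mh
  have hc : (W.card : ℂ) ≠ 0 := by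
    exact_mod_cast hW.card_pos.ne'
  simp only [zero_mul, AddChar.map_zero_eq_one, sum_const, nsmul_eq_mul, mul_one]
  exact div_self hc

theorem norm_mh_neg (W : Finset (ZMod q)) (ξ : ZMod q) : ‖mh W (-ξ)‖ = ‖mh W ξ‖ := by
  have e : mh W (-ξ) = (starRingEnd ℂ) (mh W ξ) := by
    unfold mh
    rw [map_div₀, map_sum, map_natCast]
    congr 1
    refine sum_congr rfl fun x _ => ?_
    rw [neg_mul, AddChar.map_neg_eq_conj]
  rw [e, RCLike.norm_conj]

theorem dissoc_subset {W Λ Λ' : Finset (ZMod q)} (h : Dissoc W Λ) (hs : Λ' ⊆ Λ) :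
    Dissoc W Λ' := by
  classical
  intro θ hθ hne
  obtain ⟨l, hl, hl0⟩ := hne
  have h1 := h (fun t => if t ∈ Λ' then θ t else 0) (by
    intro t _
    by_cases ht : t ∈ Λ'
    · simp only [ht, if_true]
      exact hθ t ht
    · simp [ht]) ⟨l, hs hl, by simpa [hl] using hl0⟩
  have e : ∑ t ∈ Λ, (((if t ∈ Λ' then θ t else 0 : ℤ)) : ZMod q) * t =
      ∑ t ∈ Λ', (θ t : ZMod q) * t := by
    rw [← sum_subset hs]
    · refine sum_congr rfl fun t ht => ?_
      rw [if_pos ht]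
    · intro t _ ht
      rw [if_neg ht]
      simp
  rw [e] at h1
  exact h1

theorem dissoc_empty (W : Finset (ZMod q)) : Dissoc W ∅ := by
  intro θ _ hne
  obtain ⟨l, hl, _⟩ := hne
  simp at hl

/-- a combination with coefficients in `{-1, 0, 1}` -/
theorem nu_comb_le (Λ : Finset (ZMod q)) (θ : ZMod q → ℤ)
    (hθ : ∀ l ∈ Λ, θ l = -1 ∨ θ l = 0 ∨ θ l = 1) (x : ZMod q) (r : ℝ)
    (hx : ∀ l ∈ Λ, nu (l * x) ≤ r) (hr : 0 ≤ r) :
    nu ((∑ l ∈ Λ, (θ l : ZMod q) * l) * x) ≤ Λ.card * r := by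
  classical
  induction Λ using Finset.induction_on with
  | empty => simp [nu_zero]
  | insert a s ha ih =>
    have ih' := ih (fun l hl => hθ l (mem_insert_of_mem hl)) (fun l hl => hx l (mem_insert_of_mem hl))
    rw [sum_insert ha, add_mul, card_insert_of_notMem ha]
    have h1 : nu ((θ a : ZMod q) * a * x) ≤ r := by
      have hxa := hx a (mem_insert_self a s)
      rcases hθ a (mem_insert_self a s) with h | h | h
      · rw [h]
        have e : (((-1 : ℤ)) : ZMod q) * a * x = -(a * x) := by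
          push_cast
          ring
        rw [e, nu_neg]
        exact hxa
      · rw [h]
        simp only [Int.cast_zero, zero_mul, nu_zero]
        exact hr
      · rw [h]
        simp only [Int.cast_one, one_mul]
        exact hxa
    refine (nu_add_le _ _).trans ?_
    push_cast
    linarith

end Annih

open Annih

/-- If `‖mh W ξ‖ > 1/2`, `W = bohr Γ r6`, `|bohr Γ (r6+η6)| ≤ (1+ε)|W|`, and `x ∈ bohr Γ η6`, then
`‖1 - χ(ξ x)‖ ‖∑_{y∈W} χ(ξ y)‖ = ‖∑_{y∈W} χ(ξ y) - ∑_{y∈W+x} χ(ξ y)‖ ≤ |W Δ (W+x)| ≤ 2 ε |W|`,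
since `W ∪ (W+x) ⊆ bohr Γ (r6+η6)`, so `|(W+x) \ W| ≤ ε|W|` and
`|W \ (W+x)| = |(W - x) \ W| ≤ ε |W|`. Hence `‖1 - χ(ξ x)‖ ≤ 4 ε`. -/
theorem annih_spec (Γ : Finset (ZMod q)) (r6 η6 ε : ℝ) (hr6 : 0 ≤ r6) (hη6 : 0 ≤ η6)
    (hreg : ((bohr Γ (r6 + η6)).card : ℝ) ≤ (1 + ε) * ((bohr Γ r6).card : ℝ))
    (ξ : ZMod q) (hξ : 1 / 2 < ‖mh (bohr Γ r6) ξ‖) (x : ZMod q) (hx : x ∈ bohr Γ η6) :
    ‖(1 : ℂ) - ZMod.stdAddChar (ξ * x)‖ ≤ 4 * ε := by
  classical
  set W := bohr Γ r6 with hW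
  set W' := W.image (fun y => x + y) with hW'
  set f : ZMod q → ℂ := fun y => ZMod.stdAddChar (ξ * y) with hf
  have hWpos : (0 : ℝ) < W.card := by
    exact_mod_cast card_bohr_pos Γ r6 hr6
  have hinj : Set.InjOn (fun y => x + y) (W : Set (ZMod q)) := fun a _ b _ hab =>
    add_left_cancel hab
  have hcard : W'.card = W.card := card_image_of_injOn hinj
  have hWsub : W ⊆ bohr Γ (r6 + η6) := bohr_mono Γ _ _ (by linarith)
  have hW'sub : W' ⊆ bohr Γ (r6 + η6) := by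
    intro y hy
    rw [hW', mem_image] at hy
    obtain ⟨z, hz, rfl⟩ := hy
    rw [add_comm r6 η6]
    exact add_mem_bohr Γ η6 r6 x z hx hz
  have hdiff : ((W' \ W).card : ℝ) ≤ ε * W.card := by
    have h1 : W' \ W ⊆ bohr Γ (r6 + η6) \ W := sdiff_subset_sdiff hW'sub (Subset.refl _)
    have h2 : (bohr Γ (r6 + η6) \ W).card + W.card = (bohr Γ (r6 + η6)).card :=
      card_sdiff_add_card_eq_card hWsub
    have h3 : ((W' \ W).card : ℝ) ≤ ((bohr Γ (r6 + η6) \ W).card : ℝ) := by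
      exact_mod_cast card_le_card h1
    have h4 : ((bohr Γ (r6 + η6) \ W).card : ℝ) + W.card = ((bohr Γ (r6 + η6)).card : ℝ) := by
      exact_mod_cast h2
    linarith
  have hdiff' : ((W \ W').card : ℝ) ≤ ε * W.card := by
    rw [card_sdiff_comm hcard.symm]
    exact hdiff
  have hsum : (1 - f x) * ∑ y ∈ W, f y = ∑ y ∈ W \ W', f y - ∑ y ∈ W' \ W, f y := by
    rw [sum_sdiff_sub_sum_sdiff, hW', sum_image hinj, sub_mul, one_mul, mul_sum]
    congr 1
    refine sum_congr rfl fun y _ => ?_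
    simp only [hf]
    rw [mul_add, AddChar.map_add_eq_mul]
  have hnorm : ∀ s : Finset (ZMod q), ‖∑ y ∈ s, f y‖ ≤ s.card := by
    intro s
    refine (norm_sum_le _ _).trans (le_of_eq ?_)
    rw [sum_congr rfl fun y _ => norm_char (ξ * y)]
    simp
  have hle : ‖1 - f x‖ * ‖∑ y ∈ W, f y‖ ≤ 2 * ε * W.card := by
    rw [← norm_mul, hsum]
    refine (norm_sub_le _ _).trans ?_
    have h1 := hnorm (W \ W')
    have h2 := hnorm (W' \ W)
    linarith
  have hmh : W.card / 2 ≤ ‖∑ y ∈ W, f y‖ := by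
    unfold mh at hξ
    rw [norm_div, Complex.norm_natCast, lt_div_iff₀ hWpos] at hξ
    have : ‖∑ y ∈ W, f y‖ = ‖∑ x ∈ W, (ZMod.stdAddChar (ξ * x) : ℂ)‖ := rfl
    rw [this]
    linarith
  have h5 : ‖1 - f x‖ * (W.card / 2) ≤ 4 * ε * (W.card / 2) := by
    refine (mul_le_mul_of_nonneg_left hmh (norm_nonneg _)).trans ?_
    linarith
  exact le_of_mul_le_mul_right h5 (by positivity)

/-- Let `W = bohr Γ r6` and let `Λ` be a dissociated (`Dissoc W Λ`) subset of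
`Δ = {γ : 1/2 < ‖mh T γ‖²}` of maximal cardinality (`∅` is dissociated, so it exists).
Every subset of a dissociated set is dissociated (extend `θ` by zero).
So `|Λ| ≤ l`: otherwise a subset of size exactly `l` has `l ≤ 5 log(4/τ) < l` by `chang`,
contradiction (`hl`); hence `chang` applies to `Λ` itself and `|Λ| ≤ 5 log (4/τ)`.
For `γ ∈ Δ \ Λ`, `Λ ∪ {γ}` is not dissociated: there is `θ` on `Λ ∪ {γ}` with values in
`{-1,0,1}`, not all zero, with `‖mh W (θ_γ γ + ∑ θ_λ λ)‖ > 1/2`; `θ_γ ≠ 0` since `Λ` is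
dissociated; replacing `θ` by `-θ` if necessary (`‖mh W (-ξ)‖ = ‖mh W ξ‖`) we may take `θ_γ = 1`.
So `γ = ξ - ∑_{λ∈Λ} θ_λ λ` with `‖mh W ξ‖ > 1/2`. For `γ ∈ Λ` the same holds with `ξ = 0`.
For `x ∈ bohr (Γ ∪ Λ) r`, `r ≤ η6`: `‖1 - χ(ξ x)‖ ≤ 4 ε` by `annih_spec` and
`‖1 - χ(λ x)‖ ≤ 2π r` for each `λ ∈ Λ` (`norm_one_sub_char`), so
`‖1 - χ(γ x)‖ ≤ 4 ε + 2 π |Λ| r ≤ 5 ε` (using `‖1 - z1 z2‖ ≤ ‖1 - z1‖ + ‖1 - z2‖` for unimodular
numbers, and induction over `Λ`). -/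
theorem annihilate (T Z P : Finset (ZMod q)) (Γ : Finset (ZMod q)) (l : ℕ) (τ : ℝ) (hτ : 0 < τ)
    (hτ1 : τ ≤ 1) (hT : T.Nonempty) (hTZ : T ⊆ Z) (hTcard : τ * (Z.card : ℝ) ≤ (T.card : ℝ))
    (hP : (P.card : ℝ) ≤ 2 * Z.card) (r6 η6 ε : ℝ) (hr6 : 0 ≤ r6) (hη6 : 0 ≤ η6) (hε : 0 ≤ ε)
    (hreg : ((bohr Γ (r6 + η6)).card : ℝ) ≤ (1 + ε) * ((bohr Γ r6).card : ℝ))
    (hZ : ∀ z ∈ Z, ∀ w : Fin l → ZMod q, (∀ i, w i ∈ bohr Γ r6) → z - ∑ i, w i ∈ P)
    (hl : 5 * Real.log (4 / τ) < l) :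
    ∃ Λ : Finset (ZMod q), (Λ.card : ℝ) ≤ 5 * Real.log (4 / τ) ∧
      ∀ r : ℝ, 0 ≤ r → r ≤ η6 → 2 * Real.pi * Λ.card * r ≤ ε →
        ∀ x ∈ bohr (Γ ∪ Λ) r, ∀ γ : ZMod q, 1 / 2 < ‖mh T γ‖ ^ 2 →
          ‖(1 : ℂ) - ZMod.stdAddChar (γ * x)‖ ≤ 5 * ε := by
  classical
  set W := bohr Γ r6 with hW
  have hWne : W.Nonempty := card_pos.1 (card_bohr_pos Γ r6 hr6)
  set Δ : Finset (ZMod q) := univ.filter (fun γ => 1 / 2 < ‖mh T γ‖ ^ 2) with hΔ
  set F : Finset (Finset (ZMod q)) := Δ.powerset.filter (fun Λ => Dissoc W Λ) with hF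
  have hFne : F.Nonempty := ⟨∅, by
    rw [hF, mem_filter, mem_powerset]
    exact ⟨empty_subset _, dissoc_empty W⟩⟩
  obtain ⟨Λ, hΛF, hmax⟩ := exists_max_image F Finset.card hFne
  rw [hF, mem_filter, mem_powerset] at hΛF
  obtain ⟨hΛΔ, hΛd⟩ := hΛF
  have hspec : ∀ t ∈ Λ, 1 / 2 < ‖mh T t‖ ^ 2 := fun t ht => (mem_filter.1 (hΛΔ ht)).2
  -- the size of `Λ`
  have hcard_l : Λ.card ≤ l := by
    by_contra hcon
    push Not at hcon
    obtain ⟨Λ', hΛ's, hΛ'c⟩ := exists_subset_card_eq hcon.le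
    have h1 := chang T Z P W Λ' l τ hτ hτ1 hT hTZ hTcard hP hWne hZ (dissoc_subset hΛd hΛ's)
      hΛ'c.le (fun t ht => hspec t (hΛ's ht))
    rw [hΛ'c] at h1
    linarith
  have hcardΛ := chang T Z P W Λ l τ hτ hτ1 hT hTZ hTcard hP hWne hZ hΛd hcard_l hspec
  refine ⟨Λ, hcardΛ, fun r hr0 hrη hrε x hx γ hγ => ?_⟩
  -- the representation of `γ`
  have hrep : ∃ θ : ZMod q → ℤ, (∀ t ∈ Λ, θ t = -1 ∨ θ t = 0 ∨ θ t = 1) ∧
      1 / 2 < ‖mh W (γ + ∑ t ∈ Λ, (θ t : ZMod q) * t)‖ := by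
    by_cases hγΛ : γ ∈ Λ
    · refine ⟨fun t => if t = γ then -1 else 0, fun t _ => ?_, ?_⟩
      · by_cases ht : t = γ
        · simp [ht]
        · simp [ht]
      · have e : γ + ∑ t ∈ Λ, (((if t = γ then -1 else 0 : ℤ)) : ZMod q) * t = 0 := by
          rw [sum_eq_single γ]
          · simp
          · intro b _ hb
            simp [hb]
          · intro h
            exact absurd hγΛ h
        rw [e, mh_zero W hWne]
        norm_num
    · have hnd : ¬ Dissoc W (insert γ Λ) := by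
        intro hd
        have hmem : insert γ Λ ∈ F := by
          rw [hF, mem_filter, mem_powerset]
          refine ⟨insert_subset ?_ hΛΔ, hd⟩
          rw [hΔ, mem_filter]
          exact ⟨mem_univ _, hγ⟩
        have h1 := hmax _ hmem
        rw [card_insert_of_notMem hγΛ] at h1
        omega
      unfold Dissoc at hnd
      push Not at hnd
      obtain ⟨θ, hθ, hne, hbig⟩ := hnd
      rw [sum_insert hγΛ] at hbig
      have hθΛ : ∀ t ∈ Λ, θ t = -1 ∨ θ t = 0 ∨ θ t = 1 := fun t ht => hθ t (mem_insert_of_mem ht)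
      rcases hθ γ (mem_insert_self γ Λ) with h | h | h
      · refine ⟨fun t => - θ t, fun t ht => ?_, ?_⟩
        · rcases hθΛ t ht with h2 | h2 | h2 <;> simp [h2]
        · have e : γ + ∑ t ∈ Λ, (((- θ t : ℤ)) : ZMod q) * t =
              -((θ γ : ZMod q) * γ + ∑ t ∈ Λ, (θ t : ZMod q) * t) := by
            rw [h]
            push_cast
            rw [neg_add, ← sum_neg_distrib]
            congr 1
            · ring
            · refine sum_congr rfl fun t _ => ?_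
              ring
          rw [e, norm_mh_neg]
          exact hbig
      · exfalso
        obtain ⟨t, ht, ht0⟩ := hne
        have htΛ : t ∈ Λ := by
          rcases mem_insert.1 ht with h2 | h2
          · rw [h2] at ht0
            exact absurd h ht0
          · exact h2
        have h3 := hΛd θ hθΛ ⟨t, htΛ, ht0⟩
        rw [h] at hbig
        simp only [Int.cast_zero, zero_mul, zero_add] at hbig
        linarith
      · refine ⟨θ, hθΛ, ?_⟩
        rw [h] at hbig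
        simpa using hbig
  obtain ⟨θ, hθ, hbig⟩ := hrep
  set s := ∑ t ∈ Λ, (θ t : ZMod q) * t with hs
  rw [mem_bohr] at hx
  have hxΓ : x ∈ bohr Γ η6 := by
    rw [mem_bohr]
    intro g hg
    exact (hx g (mem_union_left _ hg)).trans hrη
  have hxΛ : ∀ t ∈ Λ, nu (t * x) ≤ r := fun t ht => hx t (mem_union_right _ ht)
  have h1 := annih_spec Γ r6 η6 ε hr6 hη6 hreg (γ + s) hbig x hxΓ
  have h2 : ‖(1 : ℂ) - ZMod.stdAddChar (-(s * x))‖ ≤ ε := by
    refine (norm_one_sub_char _).trans ?_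
    rw [nu_neg]
    have h3 := nu_comb_le Λ θ hθ x r hxΛ hr0
    rw [← hs] at h3
    have h4 : 2 * Real.pi * nu (s * x) ≤ 2 * Real.pi * (Λ.card * r) :=
      mul_le_mul_of_nonneg_left h3 (by positivity)
    linarith
  have e : γ * x = (γ + s) * x + -(s * x) := by ring
  rw [e]
  refine (norm_one_sub_add _ _).trans ?_
  linarith

end P057
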