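import Vale.Agent.Lib.P057.R.Defs

/-!
P057 module Bal: the balanced function `f = 1_A - a 1_P`, `a = |A|/|B|`.
-/

set_option autoImplicit false

namespace P057

open Finset

section Aux0

variable {G : Type*} [DecidableEq G]

private noncomputable def ind (A : Finset G) (y : G) : ℝ := if y ∈ A then 1 else 0

private lemma bal_eq (A P : Finset G) (a : ℝ) (y : G) : bal A P a y = ind A y - a * ind P y := rfl

private lemma ind_nonneg (A : Finset G) (y : G) : 0 ≤ ind A y := by
  unfold ind; split_ifs <;> norm_num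

private lemma ind_le_one (A : Finset G) (y : G) : ind A y ≤ 1 := by
  unfold ind; split_ifs <;> norm_num

private lemma sum_ind [Fintype G] (A : Finset G) : ∑ y, ind A y = A.card := by
  unfold ind
  simp

private lemma ind_mul_of_imp {A P : Finset G} {x y : G} (h : x ∈ A → y ∈ P) :
    ind A x * ind P y = ind A x := by
  unfold ind
  by_cases hx : x ∈ A
  · simp [hx, h hx]
  · simp [hx]

end Aux0

section Aux

variable {G : Type*} [AddCommGroup G] [Fintype G] [DecidableEq G]

private lemma sum_ind_add (A : Finset G) (c : G) : ∑ y, ind A (y + c) = A.card := by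
  rw [← sum_ind A]
  exact Equiv.sum_comp (Equiv.addRight c) (fun y => ind A y)

private lemma sum_ind_sub (A : Finset G) (w : G) : ∑ y, ind A (w - y) = A.card := by
  rw [← sum_ind A]
  exact Equiv.sum_comp (Equiv.subLeft w) (fun y => ind A y)

private lemma sum_corr (A : Finset G) (c c' : G) :
    ∑ y, ind A (y + c) * ind A (y + c') = (corr A (c - c') : ℝ) := by
  unfold corr
  rw [Finset.card_filter, Nat.cast_sum]
  rw [← Equiv.sum_comp (Equiv.subRight c') (fun y => ind A (y + c) * ind A (y + c'))]
  have h1 : ∀ y : G, ind A ((Equiv.subRight c') y + c) * ind A ((Equiv.subRight c') y + c') =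
      if y ∈ A then (if y + (c - c') ∈ A then (1 : ℝ) else 0) else 0 := by
    intro y
    have e1 : (Equiv.subRight c') y + c = y + (c - c') := by
      simp only [Equiv.subRight_apply]; abel
    have e2 : (Equiv.subRight c') y + c' = y := by
      simp only [Equiv.subRight_apply]; abel
    rw [e1, e2]
    unfold ind
    by_cases hy : y ∈ A <;> by_cases hy' : y + (c - c') ∈ A <;> simp [hy, hy']
  simp_rw [h1]
  rw [Finset.sum_ite_mem, Finset.univ_inter]
  refine Finset.sum_congr rfl fun y _ => ?_
  split_ifs <;> simp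

end Aux

variable {G : Type*} [AddCommGroup G] [Fintype G] [DecidableEq G]

/-- Expansion: `∑_y f(y+c) f(y+c') = corr A (c - c') - 2 a |A| + a² #{y : y + c ∈ P, y + c' ∈ P}`,
when `c - c'` and `c' - c` move `B ⊇ A` into `P`: the two middle terms are
`#{y : y + c ∈ A, y + c' ∈ P} = |A|` since `y + c' = (y + c) + (c' - c) ∈ P` automatically, and
similarly for the other one. The last term lies between `|B|` (if `y + c ∈ B`, then
`y + c, y + c' ∈ P`; `B ⊆ P`) and `|P| ≤ (1+ε) |B|`. As `a |B| = |A|` one gets
`corr A (c-c') - a|A| ≤ ∑_y f(y+c) f(y+c') ≤ corr A (c-c') - a |A| + ε a |A|`; divide by `a|A|`. -/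
theorem bal_corr (A B P : Finset G) (a ε : ℝ) (hAB : A ⊆ B) (hA : A.Nonempty)
    (ha : a = (A.card : ℝ) / (B.card : ℝ)) (hBP0 : B ⊆ P) (hP : (P.card : ℝ) ≤ (1 + ε) * B.card)
    (c c' : G) (h1 : ∀ b ∈ B, b + (c - c') ∈ P) (h2 : ∀ b ∈ B, b + (c' - c) ∈ P) :
    (corr A (c - c') : ℝ) / (a * A.card) - 1 ≤
        (∑ y, bal A P a (y + c) * bal A P a (y + c')) / (a * A.card) ∧
      (∑ y, bal A P a (y + c) * bal A P a (y + c')) / (a * A.card) ≤
        (corr A (c - c') : ℝ) / (a * A.card) - 1 + ε := by
  have hBne : B.Nonempty := hA.mono hAB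
  have hAc : (0 : ℝ) < A.card := by exact_mod_cast hA.card_pos
  have hBc : (0 : ℝ) < B.card := by exact_mod_cast hBne.card_pos
  have ha0 : 0 < a := by rw [ha]; positivity
  have haA : 0 < a * A.card := by positivity
  have haB : a ^ 2 * B.card = a * A.card := by
    rw [sq, mul_assoc]
    congr 1
    rw [ha]
    field_simp
  -- expansion
  have hexp : ∑ y, bal A P a (y + c) * bal A P a (y + c') =
      (corr A (c - c') : ℝ) - 2 * (a * A.card) +
        a ^ 2 * ∑ y, ind P (y + c) * ind P (y + c') := by
    have h3 : ∀ y, bal A P a (y + c) * bal A P a (y + c') =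
        ind A (y + c) * ind A (y + c') - a * ind A (y + c) - a * ind A (y + c') +
          a ^ 2 * (ind P (y + c) * ind P (y + c')) := by
      intro y
      rw [bal_eq, bal_eq]
      have e1 : ind A (y + c) * ind P (y + c') = ind A (y + c) := by
        refine ind_mul_of_imp fun hy => ?_
        have := h2 _ (hAB hy)
        rwa [show y + c + (c' - c) = y + c' by abel] at this
      have e2 : ind A (y + c') * ind P (y + c) = ind A (y + c') := by
        refine ind_mul_of_imp fun hy => ?_
        have := h1 _ (hAB hy)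
        rwa [show y + c' + (c - c') = y + c by abel] at this
      calc (ind A (y + c) - a * ind P (y + c)) * (ind A (y + c') - a * ind P (y + c'))
          = ind A (y + c) * ind A (y + c') - a * (ind A (y + c) * ind P (y + c')) -
            a * (ind A (y + c') * ind P (y + c)) + a ^ 2 * (ind P (y + c) * ind P (y + c')) := by
            ring
        _ = _ := by rw [e1, e2]
    simp_rw [h3]
    rw [Finset.sum_add_distrib, Finset.sum_sub_distrib, Finset.sum_sub_distrib, sum_corr,
      ← Finset.mul_sum, ← Finset.mul_sum, ← Finset.mul_sum, sum_ind_add, sum_ind_add]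
    ring
  have hlow : (B.card : ℝ) ≤ ∑ y, ind P (y + c) * ind P (y + c') := by
    rw [← sum_ind_add B c']
    refine Finset.sum_le_sum fun y _ => ?_
    by_cases hy : y + c' ∈ B
    · have h4 : y + c ∈ P := by
        have := h1 _ hy
        rwa [show y + c' + (c - c') = y + c by abel] at this
      simp [ind, hy, h4, hBP0 hy]
    · rw [show ind B (y + c') = 0 by simp [ind, hy]]
      exact mul_nonneg (ind_nonneg _ _) (ind_nonneg _ _)
  have hup : ∑ y, ind P (y + c) * ind P (y + c') ≤ (1 + ε) * B.card := by
    refine le_trans ?_ hP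
    rw [← sum_ind_add P c]
    refine Finset.sum_le_sum fun y _ => ?_
    exact mul_le_of_le_one_right (ind_nonneg _ _) (ind_le_one _ _)
  rw [hexp]
  have e3 : (corr A (c - c') : ℝ) / (a * A.card) - 1 =
      ((corr A (c - c') : ℝ) - a * A.card) / (a * A.card) := by
    field_simp
  have e4 : (corr A (c - c') : ℝ) / (a * A.card) - 1 + ε =
      ((corr A (c - c') : ℝ) - a * A.card + ε * (a * A.card)) / (a * A.card) := by
    field_simp
  constructor
  · rw [e3]
    apply div_le_div_of_nonneg_right _ haA.le
    have : a ^ 2 * (B.card : ℝ) ≤ a ^ 2 * ∑ y, ind P (y + c) * ind P (y + c') := by gcongr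
    rw [haB] at this
    linarith
  · rw [e4]
    apply div_le_div_of_nonneg_right _ haA.le
    have : a ^ 2 * ∑ y, ind P (y + c) * ind P (y + c') ≤ a ^ 2 * ((1 + ε) * B.card) := by gcongr
    have h5 : a ^ 2 * ((1 + ε) * B.card) = (1 + ε) * (a * A.card) := by
      rw [← haB]; ring
    linarith

/-- `∑_y f(y) f(w-y) = #{y ∈ A : w - y ∈ A} - 2 a |A| + a² #{y ∈ P : w - y ∈ P}`
`≤ 1 - 2 a |A| + a² (1+ε) |B| = 1 - (1-ε) a |A| ≤ -(1 - 2ε) a |A|`, using `w - b ∈ P` for all
`b ∈ B` (for the middle terms; the second one after `y ↦ w - y`) and `1 ≤ ε a |A|`. -/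
theorem bal_conv (A B P : Finset G) (a ε : ℝ) (hAB : A ⊆ B) (hA : A.Nonempty)
    (ha : a = (A.card : ℝ) / (B.card : ℝ)) (hP : (P.card : ℝ) ≤ (1 + ε) * B.card)
    (w : G) (h1 : ∀ b ∈ B, w - b ∈ P) (hw : (A.filter (fun y => w - y ∈ A)).card ≤ 1)
    (hbig : 1 ≤ ε * (a * A.card)) :
    (∑ y, bal A P a y * bal A P a (w - y)) / (a * A.card) ≤ -(1 - 2 * ε) := by
  have hBne : B.Nonempty := hA.mono hAB
  have hAc : (0 : ℝ) < A.card := by exact_mod_cast hA.card_pos
  have hBc : (0 : ℝ) < B.card := by exact_mod_cast hBne.card_pos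
  have ha0 : 0 < a := by rw [ha]; positivity
  have haA : 0 < a * A.card := by positivity
  have haB : a ^ 2 * B.card = a * A.card := by
    rw [sq, mul_assoc]
    congr 1
    rw [ha]
    field_simp
  have hexp : ∑ y, bal A P a y * bal A P a (w - y) =
      (∑ y, ind A y * ind A (w - y)) - 2 * (a * A.card) +
        a ^ 2 * ∑ y, ind P y * ind P (w - y) := by
    have h3 : ∀ y, bal A P a y * bal A P a (w - y) =
        ind A y * ind A (w - y) - a * ind A y - a * ind A (w - y) +
          a ^ 2 * (ind P y * ind P (w - y)) := by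
      intro y
      rw [bal_eq, bal_eq]
      have e1 : ind A y * ind P (w - y) = ind A y :=
        ind_mul_of_imp fun hy => h1 _ (hAB hy)
      have e2 : ind A (w - y) * ind P y = ind A (w - y) := by
        refine ind_mul_of_imp fun hy => ?_
        have := h1 _ (hAB hy)
        rwa [sub_sub_cancel] at this
      calc (ind A y - a * ind P y) * (ind A (w - y) - a * ind P (w - y))
          = ind A y * ind A (w - y) - a * (ind A y * ind P (w - y)) -
            a * (ind A (w - y) * ind P y) + a ^ 2 * (ind P y * ind P (w - y)) := by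
            ring
        _ = _ := by rw [e1, e2]
    simp_rw [h3]
    rw [Finset.sum_add_distrib, Finset.sum_sub_distrib, Finset.sum_sub_distrib,
      ← Finset.mul_sum, ← Finset.mul_sum, ← Finset.mul_sum, sum_ind, sum_ind_sub]
    ring
  have hfirst : ∑ y, ind A y * ind A (w - y) ≤ 1 := by
    have h4 : ∑ y, ind A y * ind A (w - y) = ((A.filter (fun y => w - y ∈ A)).card : ℝ) := by
      rw [Finset.card_filter, Nat.cast_sum]
      have h5 : ∀ y : G, ind A y * ind A (w - y) =
          if y ∈ A then (if w - y ∈ A then (1 : ℝ) else 0) else 0 := by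
        intro y
        unfold ind
        by_cases hy : y ∈ A <;> by_cases hy' : w - y ∈ A <;> simp [hy, hy']
      simp_rw [h5]
      rw [Finset.sum_ite_mem, Finset.univ_inter]
      refine Finset.sum_congr rfl fun y _ => ?_
      split_ifs <;> simp
    rw [h4]
    exact_mod_cast hw
  have hup : ∑ y, ind P y * ind P (w - y) ≤ (1 + ε) * B.card := by
    refine le_trans ?_ hP
    rw [← sum_ind P]
    refine Finset.sum_le_sum fun y _ => ?_
    exact mul_le_of_le_one_right (ind_nonneg _ _) (ind_le_one _ _)
  rw [div_le_iff₀ haA, hexp]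
  have h6 : a ^ 2 * ∑ y, ind P y * ind P (w - y) ≤ a ^ 2 * ((1 + ε) * B.card) := by gcongr
  have h5 : a ^ 2 * ((1 + ε) * B.card) = (1 + ε) * (a * A.card) := by
    rw [← haB]; ring
  nlinarith

end P057
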