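import Vale.Agent.Lib.P057.R.BohrSize

/-!
P057 module BohrReg: regular radii.
-/

set_option autoImplicit false

namespace P057

open Finset

variable {q : ℕ} [NeZero q]

namespace BohrReg

theorem exp_half_lt {ε : ℝ} (hε : 0 < ε) (hε1 : ε ≤ 1) : Real.exp (ε / 2) < 1 + ε := by
  have h := Real.abs_exp_sub_one_sub_id_le (x := ε / 2) (by
    rw [abs_of_pos (by linarith)]
    linarith)
  have h1 := (abs_le.1 h).2
  nlinarith

theorem five_le_exp_two : (5 : ℝ) ≤ Real.exp 2 := by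
  have h1 : (2.7 : ℝ) ≤ Real.exp 1 := by
    have := Real.exp_one_gt_d9
    linarith
  have h2 : Real.exp 2 = Real.exp 1 * Real.exp 1 := by
    rw [← Real.exp_add]
    norm_num
  rw [h2]
  nlinarith

theorem five_pow_le (n : ℕ) (d : ℝ) (h : (n : ℝ) ≤ d) : (5 : ℝ) ^ n ≤ Real.exp (2 * d) := by
  calc (5 : ℝ) ^ n ≤ Real.exp 2 ^ n := pow_le_pow_left₀ (by norm_num) five_le_exp_two n
    _ = Real.exp (n * 2) := (Real.exp_nat_mul 2 n).symm
    _ ≤ Real.exp (2 * d) := Real.exp_le_exp.2 (by linarith)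

theorem pow_gt {ε d : ℝ} (hε : 0 < ε) (hε1 : ε ≤ 1) {J : ℕ} (hJ0 : J ≠ 0)
    (hJ : 4 * d / ε ≤ J) : Real.exp (2 * d) < (1 + ε) ^ J := by
  have h1 : Real.exp (2 * d) ≤ Real.exp (ε / 2) ^ J := by
    rw [← Real.exp_nat_mul]
    apply Real.exp_le_exp.2
    rw [div_le_iff₀ hε] at hJ
    linarith
  exact h1.trans_lt (pow_lt_pow_left₀ (exp_half_lt hε hε1) (Real.exp_pos _).le hJ0)

end BohrReg

/-- Regular radii. Proof: let `J = ⌈4 d / ε⌉₊` (so `J ≥ 1`, `4d/ε ≤ J ≤ 5 d / ε`, using `1 ≤ d`,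
`ε ≤ 1`) and `r_j = r0/2 + j r0 / (2 J)` for `0 ≤ j ≤ J`. The step is
`r0 / (2J) ≥ ε r0 / (10 d) ≥ ε r0 / (16 d)`.
If the conclusion failed for all `r_j`, `0 ≤ j < J`, then (monotonicity `bohr_mono`)
`|bohr Γ r_{j+1}| ≥ |bohr Γ (r_j + ε r0/(16 d))| > (1+ε) |bohr Γ r_j|` for all `j < J`, so
`|bohr Γ r0| > (1+ε)^J |bohr Γ (r0/2)|`, while `|bohr Γ r0| ≤ 5^|Γ| |bohr Γ (r0/2)|` by
`bohr_doubling`. But `(1+ε)^J ≥ (1 + J' ...)`: `(1+ε)^J ≥ 2^(J ε) ≥ 2^(4d) = 16^d ≥ 5^|Γ|`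
(`1 + ε ≥ 2^ε` for `0 ≤ ε ≤ 1` by concavity, e.g. via `Real.rpow_one_add_le_one_add_mul_self`,
`one_add_mul_self_le_rpow_one_add`; or use `log (1+ε) ≥ ε/(1+ε) ≥ ε/2`, so
`(1+ε)^J ≥ exp (J ε / 2) ≥ exp (2 d) ≥ 5^d` as `e^2 > 7`). Contradiction, since
`|bohr Γ (r0/2)| ≥ 1 > 0`. -/
theorem bohr_regular (Γ : Finset (ZMod q)) (d : ℝ) (hd : 1 ≤ d) (hΓ : (Γ.card : ℝ) ≤ d)
    (r0 : ℝ) (h0 : 0 < r0) (ε : ℝ) (hε : 0 < ε) (hε1 : ε ≤ 1) :
    ∃ r : ℝ, r0 / 2 ≤ r ∧ r ≤ r0 ∧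
      ((bohr Γ (r + ε * r0 / (16 * d))).card : ℝ) ≤ (1 + ε) * ((bohr Γ r).card : ℝ) := by
  by_contra hcon
  push Not at hcon
  set J : ℕ := ⌈4 * d / ε⌉₊ with hJdef
  have hd0 : 0 < d := by linarith
  have hJ1 : 4 * d / ε ≤ J := Nat.le_ceil _
  have hJpos : (0 : ℝ) < J := lt_of_lt_of_le (by positivity) hJ1
  have hJ0 : J ≠ 0 := by
    intro h
    rw [h] at hJpos
    simp at hJpos
  have hJ2 : (J : ℝ) ≤ 5 * d / ε := by
    have h1 : (J : ℝ) < 4 * d / ε + 1 := Nat.ceil_lt_add_one (by positivity)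
    have h2 : 1 ≤ d / ε := by
      rw [one_le_div hε]
      linarith
    have h3 : 5 * d / ε = 4 * d / ε + d / ε := by ring
    linarith
  -- the step
  have hstep : ε * r0 / (16 * d) ≤ r0 / (2 * J) := by
    rw [div_le_div_iff₀ (by positivity) (by positivity)]
    have h1 : J * ε ≤ 5 * d := by
      rw [le_div_iff₀ hε] at hJ2
      exact hJ2
    calc ε * r0 * (2 * J) = 2 * r0 * (J * ε) := by ring
      _ ≤ 2 * r0 * (5 * d) := by
          apply mul_le_mul_of_nonneg_left h1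
          positivity
      _ ≤ r0 * (16 * d) := by nlinarith [mul_pos h0 hd0]
  have key : ∀ j : ℕ, j ≤ J → (1 + ε) ^ j * ((bohr Γ (r0 / 2)).card : ℝ) ≤
      ((bohr Γ (r0 / 2 + j * (r0 / (2 * J)))).card : ℝ) := by
    intro j
    induction j with
    | zero =>
      intro _
      simp
    | succ j ih =>
      intro hj
      have ih' := ih (by omega)
      have hjJ : (j : ℝ) ≤ J := by
        exact_mod_cast (by omega : j ≤ J)
      have hr2 : r0 / 2 + j * (r0 / (2 * J)) ≤ r0 := by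
        have h1 : (j : ℝ) * (r0 / (2 * J)) ≤ J * (r0 / (2 * J)) := by
          apply mul_le_mul_of_nonneg_right hjJ
          positivity
        have h2 : (J : ℝ) * (r0 / (2 * J)) = r0 / 2 := by
          field_simp
        linarith
      have hr1 : r0 / 2 ≤ r0 / 2 + j * (r0 / (2 * J)) := by
        have : 0 ≤ (j : ℝ) * (r0 / (2 * J)) := by positivity
        linarith
      have h3 := hcon _ hr1 hr2
      have h4 : ((bohr Γ (r0 / 2 + j * (r0 / (2 * J)) + ε * r0 / (16 * d))).card : ℝ) ≤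
          ((bohr Γ (r0 / 2 + ((j + 1 : ℕ) : ℝ) * (r0 / (2 * J)))).card : ℝ) := by
        have h5 := card_le_card (bohr_mono Γ (r0 / 2 + j * (r0 / (2 * J)) + ε * r0 / (16 * d))
          (r0 / 2 + ((j + 1 : ℕ) : ℝ) * (r0 / (2 * J))) (by
            push_cast
            linarith))
        exact_mod_cast h5
      calc (1 + ε) ^ (j + 1) * ((bohr Γ (r0 / 2)).card : ℝ)
          = (1 + ε) * ((1 + ε) ^ j * ((bohr Γ (r0 / 2)).card : ℝ)) := by ring
        _ ≤ (1 + ε) * ((bohr Γ (r0 / 2 + j * (r0 / (2 * J)))).card : ℝ) := by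
            apply mul_le_mul_of_nonneg_left ih'
            positivity
        _ ≤ _ := h3.le.trans h4
  have hlast := key J le_rfl
  have hr : r0 / 2 + J * (r0 / (2 * J)) = 2 * (r0 / 2) := by
    have h2 : (J : ℝ) * (r0 / (2 * J)) = r0 / 2 := by
      field_simp
    rw [h2]
    ring
  rw [hr] at hlast
  have hdoub := bohr_doubling Γ (r0 / 2) (by positivity)
  have hpos : (0 : ℝ) < ((bohr Γ (r0 / 2)).card : ℝ) := by
    exact_mod_cast card_bohr_pos Γ (r0 / 2) (by positivity)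
  have h1 : (1 + ε) ^ J ≤ (5 : ℝ) ^ Γ.card := le_of_mul_le_mul_right (hlast.trans hdoub) hpos
  have h2 := BohrReg.five_pow_le Γ.card d hΓ
  have h3 := BohrReg.pow_gt hε hε1 hJ0 hJ1
  linarith

end P057
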