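import Vale.Agent.Lib.P057.R.BohrBasic

/-!
P057 module BohrSize: size and doubling of Bohr sets, by pigeonhole.
-/

set_option autoImplicit false

namespace P057

open Finset

variable {q : ℕ} [NeZero q]

namespace BohrSize

/-- Pigeonhole: if the floors `⌊(γ x).valMinAbs / (q r)⌋` of the elements `x ∈ X` lie in `V`, then
`X` is covered by `|V|^|Γ|` translates of `bohr Γ r`. -/
theorem card_le_of_floor (Γ X : Finset (ZMod q)) (r : ℝ) (hr : 0 < r) (V : Finset ℤ)
    (hV : ∀ x ∈ X, ∀ γ ∈ Γ, ⌊((γ * x).valMinAbs : ℝ) / (q * r)⌋ ∈ V) :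
    X.card ≤ (bohr Γ r).card * V.card ^ Γ.card := by
  classical
  have hq : (0 : ℝ) < q := by exact_mod_cast NeZero.pos q
  have hqr : (0 : ℝ) < q * r := mul_pos hq hr
  let f : ZMod q → (Γ → ℤ) := fun x γ => ⌊(((γ : ZMod q) * x).valMinAbs : ℝ) / (q * r)⌋
  have hcard : (Fintype.piFinset (fun _ : Γ => V)).card = V.card ^ Γ.card := by
    rw [Fintype.card_piFinset]; simp
  rw [← hcard]
  refine Finset.card_le_mul_card_image_of_maps_to (f := f) ?_ _ ?_
  · intro x hx
    rw [Fintype.mem_piFinset]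
    intro γ
    exact hV x hx γ γ.2
  · intro c _
    rcases (X.filter (fun x => f x = c)).eq_empty_or_nonempty with h | ⟨x0, hx0⟩
    · rw [h]; simp
    · refine Finset.card_le_card_of_injOn (fun x => x - x0) ?_ ?_
      · intro x hx
        rw [Finset.mem_coe, Finset.mem_filter] at hx
        rw [Finset.mem_filter] at hx0
        rw [Finset.mem_coe, mem_bohr]
        intro γ hγ
        have hfl : ⌊((γ * x).valMinAbs : ℝ) / (q * r)⌋ = ⌊((γ * x0).valMinAbs : ℝ) / (q * r)⌋ :=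
          congrFun (hx.2.trans hx0.2.symm) ⟨γ, hγ⟩
        have h1 := Int.abs_sub_lt_one_of_floor_eq_floor hfl
        rw [← sub_div, abs_div, abs_of_pos hqr, div_lt_one hqr] at h1
        have h2 : (((γ * x).valMinAbs - (γ * x0).valMinAbs : ℤ) : ZMod q) = γ * (x - x0) := by
          push_cast
          rw [mul_sub]
        refine (nu_le_of_int _ _ h2).trans ?_
        rw [div_le_iff₀ hq]
        push_cast
        rw [mul_comm r (q : ℝ)]
        exact h1.le
      · intro x _ y _ h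
        simpa using h

end BohrSize

/-- Doubling. Proof: map `x ∈ bohr Γ (2r)` to the function
`γ ↦ ⌊(γ x).valMinAbs / (q r)⌋` (a real floor) for `γ ∈ Γ`. Since `|(γ x).valMinAbs| / q ≤ 2r`,
the floor takes one of the 5 values `-2, -1, 0, 1, 2`, so there are at most `5^|Γ|` classes. -/
theorem bohr_doubling (Γ : Finset (ZMod q)) (r : ℝ) (hr : 0 < r) :
    ((bohr Γ (2 * r)).card : ℝ) ≤ 5 ^ Γ.card * ((bohr Γ r).card : ℝ) := by
  have hq : (0 : ℝ) < q := by exact_mod_cast NeZero.pos q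
  have hqr : (0 : ℝ) < q * r := mul_pos hq hr
  have h := BohrSize.card_le_of_floor Γ (bohr Γ (2 * r)) r hr (Finset.Icc (-2) 2) (by
    intro x hx γ hγ
    have h1 := (mem_bohr Γ (2 * r) x).mp hx γ hγ
    unfold nu at h1
    rw [div_le_iff₀ hq, Nat.cast_natAbs, Int.cast_abs, abs_le] at h1
    rw [Finset.mem_Icc]
    constructor
    · rw [Int.le_floor, le_div_iff₀ hqr]
      push_cast
      linarith [h1.1]
    · have h2 : ((γ * x).valMinAbs : ℝ) / (q * r) ≤ 2 := by
        rw [div_le_iff₀ hqr]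
        linarith [h1.2]
      have h3 : ⌊((γ * x).valMinAbs : ℝ) / (q * r)⌋ < 3 := by
        rw [Int.floor_lt]
        push_cast
        linarith
      omega)
  have h4 : (Finset.Icc (-2 : ℤ) 2).card = 5 := by decide
  rw [h4] at h
  have h5 : ((bohr Γ (2 * r)).card : ℝ) ≤ ((bohr Γ r).card * 5 ^ Γ.card : ℕ) := by
    exact_mod_cast h
  push_cast at h5
  linarith

/-- Size. Same proof with all `x : ZMod q`: `(γ x).valMinAbs / q ∈ (-1/2, 1/2]`, so
`⌊(γ x).valMinAbs / (q r)⌋` takes at most `1/r + 2 ≤ 4 / r` integer values (as `r ≤ 1`), so there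
are at most `(4/r)^|Γ|` classes, each of size at most `|bohr Γ r|`. -/
theorem bohr_size (Γ : Finset (ZMod q)) (r : ℝ) (hr : 0 < r) (hr1 : r ≤ 1) :
    (r / 4) ^ Γ.card * (q : ℝ) ≤ ((bohr Γ r).card : ℝ) := by
  have hq : (0 : ℝ) < q := by exact_mod_cast NeZero.pos q
  have hqr : (0 : ℝ) < q * r := mul_pos hq hr
  set V : Finset ℤ := Finset.Icc ⌊-(1 / (2 * r))⌋ ⌊1 / (2 * r)⌋ with hVdef
  have h := BohrSize.card_le_of_floor Γ Finset.univ r hr V (by
    intro x _ γ _
    have h1 := nu_le_half (γ * x)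
    unfold nu at h1
    rw [div_le_iff₀ hq, Nat.cast_natAbs, Int.cast_abs, abs_le] at h1
    have e : 1 / (2 * r) * (q * r) = 1 / 2 * q := by field_simp
    rw [hVdef, Finset.mem_Icc]
    constructor
    · apply Int.floor_le_floor
      rw [le_div_iff₀ hqr, neg_mul, e]
      exact h1.1
    · apply Int.floor_le_floor
      rw [div_le_iff₀ hqr, e]
      exact h1.2)
  rw [Finset.card_univ, ZMod.card] at h
  have hV : (V.card : ℝ) ≤ 4 / r := by
    have h1 : (⌊1 / (2 * r)⌋ : ℝ) ≤ 1 / (2 * r) := Int.floor_le _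
    have h2 : -(1 / (2 * r)) < (⌊-(1 / (2 * r))⌋ : ℝ) + 1 := Int.lt_floor_add_one _
    have h3 : (0 : ℤ) ≤ ⌊1 / (2 * r)⌋ + 1 - ⌊-(1 / (2 * r))⌋ := by
      have h4 : (0 : ℤ) ≤ ⌊1 / (2 * r)⌋ := Int.floor_nonneg.mpr (by positivity)
      have h5 : ⌊-(1 / (2 * r))⌋ ≤ 0 := by
        apply Int.floor_nonpos
        rw [Left.neg_nonpos_iff]
        positivity
      omega
    have h6 : (V.card : ℝ) = (⌊1 / (2 * r)⌋ : ℝ) + 1 - (⌊-(1 / (2 * r))⌋ : ℝ) := by
      rw [hVdef, Int.card_Icc]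
      have h7 : (((⌊1 / (2 * r)⌋ + 1 - ⌊-(1 / (2 * r))⌋).toNat : ℤ) : ℝ) =
          ((⌊1 / (2 * r)⌋ + 1 - ⌊-(1 / (2 * r))⌋ : ℤ) : ℝ) := by
        rw [Int.toNat_of_nonneg h3]
      rw [Int.cast_natCast] at h7
      rw [h7]
      push_cast
      ring
    rw [h6]
    have h8 : 1 / (2 * r) + 1 / (2 * r) = 1 / r := by field_simp; norm_num
    have h9 : (1 : ℝ) ≤ 1 / r := by rw [le_div_iff₀ hr]; linarith
    have h10 : 4 / r = 4 * (1 / r) := by ring
    rw [h10]
    linarith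
  have hq2 : (q : ℝ) ≤ ((bohr Γ r).card : ℝ) * (4 / r) ^ Γ.card := by
    have h1 : (q : ℝ) ≤ ((bohr Γ r).card : ℝ) * (V.card : ℝ) ^ Γ.card := by exact_mod_cast h
    refine h1.trans ?_
    gcongr
  calc (r / 4) ^ Γ.card * (q : ℝ) ≤
        (r / 4) ^ Γ.card * (((bohr Γ r).card : ℝ) * (4 / r) ^ Γ.card) := by gcongr
    _ = ((bohr Γ r).card : ℝ) * ((r / 4) * (4 / r)) ^ Γ.card := by rw [mul_pow]; ring
    _ = ((bohr Γ r).card : ℝ) := by
        have : r / 4 * (4 / r) = 1 := by field_simp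
        rw [this, one_pow, mul_one]

end P057
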