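import Vale.Agent.Lib.P057.R.Defs

/-!
P057 module CSM: Cauchy-Schwarz and positivity for moments of convolutions.
-/

set_option autoImplicit false

namespace P057

open Finset

variable {G : Type*} [AddCommGroup G] [Fintype G] [DecidableEq G]

omit [AddCommGroup G] [DecidableEq G] in
private theorem csm_expand {ι : Type*} (C : Finset ι) (g h : ι → G → ℝ) (p : ℕ) :
    ∑ c ∈ C, ∑ c' ∈ C, (∑ y, g c y * h c' y) ^ p =
      ∑ z : Fin p → G, (∑ c ∈ C, ∏ i, g c (z i)) * (∑ c' ∈ C, ∏ i, h c' (z i)) := by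
  have h1 : ∀ c c', (∑ y, g c y * h c' y) ^ p
      = ∑ z : Fin p → G, (∏ i, g c (z i)) * (∏ i, h c' (z i)) := by
    intro c c'
    rw [Fintype.sum_pow]
    refine Finset.sum_congr rfl fun z _ => ?_
    rw [Finset.prod_mul_distrib]
  calc ∑ c ∈ C, ∑ c' ∈ C, (∑ y, g c y * h c' y) ^ p
      = ∑ c ∈ C, ∑ c' ∈ C, ∑ z : Fin p → G, (∏ i, g c (z i)) * (∏ i, h c' (z i)) := by
        refine Finset.sum_congr rfl fun c _ => Finset.sum_congr rfl fun c' _ => h1 c c'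
    _ = ∑ c ∈ C, ∑ z : Fin p → G, ∑ c' ∈ C, (∏ i, g c (z i)) * (∏ i, h c' (z i)) := by
        refine Finset.sum_congr rfl fun c _ => Finset.sum_comm
    _ = ∑ z : Fin p → G, ∑ c ∈ C, ∑ c' ∈ C, (∏ i, g c (z i)) * (∏ i, h c' (z i)) :=
        Finset.sum_comm
    _ = _ := by
        refine Finset.sum_congr rfl fun z _ => ?_
        rw [Finset.sum_mul_sum]

/-- `∑_{c,c'} (∑_y f(y+c) f(y+c'))^p = ∑_{z : Fin p → G} (∑_{c ∈ C} ∏_i f(z_i + c))² ≥ 0`.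
(Expand the power: `(∑_y F y)^p = ∑_{z : Fin p → G} ∏_i F (z i)`, e.g. `Finset.sum_pow'`,
`Fintype.sum_pow`, or `Finset.prod_univ_sum` + `Fintype.piFinset_univ`.) -/
theorem moment_eq (f : G → ℝ) (C : Finset G) (p : ℕ) :
    ∑ c ∈ C, ∑ c' ∈ C, (∑ y, f (y + c) * f (y + c')) ^ p =
      ∑ z : Fin p → G, (∑ c ∈ C, ∏ i, f (z i + c)) ^ 2 := by
  rw [csm_expand C (fun c y => f (y + c)) (fun c y => f (y + c)) p]
  refine Finset.sum_congr rfl fun z _ => ?_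
  rw [sq]

theorem moment_nonneg (f : G → ℝ) (C : Finset G) (p : ℕ) :
    0 ≤ ∑ c ∈ C, ∑ c' ∈ C, (∑ y, f (y + c) * f (y + c')) ^ p := by
  rw [moment_eq]
  exact Finset.sum_nonneg fun z _ => sq_nonneg _

/-- Cauchy-Schwarz. For each `c`: `∑_y f(y) f(t + c - c' - y) = ∑_y f(y + c) f(t - c' - y)`
(substitute `y → y + c`). Expanding the `p`-th power, the left side is
`∑_{z : Fin p → G} (∑_{c ∈ C} ∏_i f(z_i + c)) * (∑_{c' ∈ C} ∏_i f(t - c' - z_i))`, at most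
`(∑_z U_z²)^{1/2} (∑_z V_z²)^{1/2} ≤ (∑ U_z² + ∑ V_z²)/2` (just use `u v ≤ (u² + v²)/2`), and
`∑_z U_z²` is the right side by `moment_eq`, while the substitution `z_i → t - z_i` (a bijection
of `Fin p → G`) followed by ... gives `V`: with `z_i = t - w_i`, `t - c' - z_i = w_i - c'`, so
`∑_z V_z² = ∑_w (∑_{c'} ∏_i f(w_i - c'))²
 = ∑_{c,c'} (∑_y f(y - c) f(y - c'))^p = ∑_{c,c'} (∑_y f(y + c') f(y + c))^p`
(substitute `y → y + c + c'`), again the right side. -/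
theorem cs_moment (f : G → ℝ) (C : Finset G) (t : G) (p : ℕ) :
    ∑ c ∈ C, ∑ c' ∈ C, (∑ y, f y * f (t + c - c' - y)) ^ p ≤
      ∑ c ∈ C, ∑ c' ∈ C, (∑ y, f (y + c) * f (y + c')) ^ p := by
  have h1 : ∀ c c' : G, (∑ y, f y * f (t + c - c' - y)) = ∑ y, f (y + c) * f (t - c' - y) := by
    intro c c'
    rw [← Equiv.sum_comp (Equiv.addRight c) (fun y => f y * f (t + c - c' - y))]
    refine Finset.sum_congr rfl fun y _ => ?_
    simp only [Equiv.coe_addRight]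
    congr 2
    abel
  have h2 : ∀ c c' : G, (∑ y, f (t - c - y) * f (t - c' - y)) = ∑ y, f (y + c') * f (y + c) := by
    intro c c'
    rw [← Equiv.sum_comp (Equiv.subLeft (t - c - c')) (fun y => f (t - c - y) * f (t - c' - y))]
    refine Finset.sum_congr rfl fun y _ => ?_
    rw [Equiv.subLeft_apply]
    congr 2 <;> abel
  have hM : ∑ c ∈ C, ∑ c' ∈ C, (∑ y, f (y + c) * f (y + c')) ^ p =
      ∑ z : Fin p → G, (∑ c ∈ C, ∏ i, f (z i + c)) ^ 2 := moment_eq f C p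
  have hV : ∑ c ∈ C, ∑ c' ∈ C, (∑ y, f (y + c) * f (y + c')) ^ p =
      ∑ z : Fin p → G, (∑ c ∈ C, ∏ i, f (t - c - z i)) ^ 2 := by
    have e := csm_expand C (fun c y => f (t - c - y)) (fun c y => f (t - c - y)) p
    rw [show (∑ z : Fin p → G, (∑ c ∈ C, ∏ i, f (t - c - z i)) ^ 2) =
      ∑ z : Fin p → G, (∑ c ∈ C, ∏ i, f (t - c - z i)) * (∑ c ∈ C, ∏ i, f (t - c - z i)) from
      Finset.sum_congr rfl fun z _ => sq _, ← e, Finset.sum_comm]
    refine Finset.sum_congr rfl fun c _ => Finset.sum_congr rfl fun c' _ => ?_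
    rw [h2 c c']
  have hL : ∑ c ∈ C, ∑ c' ∈ C, (∑ y, f y * f (t + c - c' - y)) ^ p =
      ∑ z : Fin p → G, (∑ c ∈ C, ∏ i, f (z i + c)) * (∑ c ∈ C, ∏ i, f (t - c - z i)) := by
    rw [← csm_expand C (fun c y => f (y + c)) (fun c y => f (t - c - y)) p]
    refine Finset.sum_congr rfl fun c _ => Finset.sum_congr rfl fun c' _ => ?_
    rw [h1]
  have h3 : (∑ z : Fin p → G, (∑ c ∈ C, ∏ i, f (z i + c)) * (∑ c ∈ C, ∏ i, f (t - c - z i)))
      ≤ ∑ z : Fin p → G, ((∑ c ∈ C, ∏ i, f (z i + c)) ^ 2 / 2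
        + (∑ c ∈ C, ∏ i, f (t - c - z i)) ^ 2 / 2) := by
    refine Finset.sum_le_sum fun z _ => ?_
    nlinarith [sq_nonneg ((∑ c ∈ C, ∏ i, f (z i + c)) - (∑ c ∈ C, ∏ i, f (t - c - z i)))]
  rw [Finset.sum_add_distrib, ← Finset.sum_div, ← Finset.sum_div, ← hM, ← hV] at h3
  rw [hL]
  linarith

end P057
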