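import Vale.Agent.Lib.P057.R.Riesz

/-!
P057 module Chang: size of dissociated subsets of the large spectrum of a dense subset of `Z`.
-/

set_option autoImplicit false

namespace P057

open Finset

variable {q : ℕ} [NeZero q]

namespace Chang

/-- a unimodular number that rotates `z` to its absolute value -/
theorem exists_rot (z : ℂ) : ∃ w : ℂ, ‖w‖ = 1 ∧ w * z = (‖z‖ : ℂ) := by
  by_cases hz : z = 0
  · exact ⟨1, norm_one, by simp [hz]⟩
  · have hz' : ‖z‖ ≠ 0 := norm_ne_zero_iff.2 hz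
    have hzc : (‖z‖ : ℂ) ≠ 0 := by exact_mod_cast hz'
    refine ⟨(starRingEnd ℂ) z / ‖z‖, ?_, ?_⟩
    · rw [norm_div, Complex.norm_conj, Complex.norm_real, norm_norm, div_self hz']
    · rw [div_mul_eq_mul_div, mul_comm, Complex.mul_conj, Complex.normSq_eq_norm_sq]
      push_cast
      field_simp

theorem exp_half_lt_two : Real.exp (1 / 2) ≤ 2 := by
  have h1 : Real.exp (1 / 2) ^ 2 = Real.exp 1 := by
    rw [← Real.exp_nat_mul]; norm_num
  have h2 := Real.exp_one_lt_d9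
  have h3 := Real.exp_pos (1 / 2)
  nlinarith

end Chang

open Chang in
/-- Let `k = |Λ|`, `χ = ZMod.stdAddChar`. For `λ ∈ Λ` choose `ω_λ`, `|ω_λ| = 1`, with
`ω_λ mh T λ = ‖mh T λ‖ ≥ 7/10` (as `‖mh T λ‖² > 1/2`). Let `X(x) = ∑_{λ∈Λ} Re (ω_λ χ(λ x))`.
The average of `X` over `T` is at least `(7/10) k`. By Jensen (convexity of exp), with `s = 1/2`,
`exp(0.35 k) ≤ (1/|T|) ∑_{x∈T} exp(X(x)/2)`. For real `y ∈ [-1,1]`,
`exp(y/2) ≤ cosh(1/2) + y sinh(1/2)`, so `exp(X(x)/2) ≤ Π(x) := ∏_λ (cosh(1/2) + sinh(1/2) Re(...))`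
and `Π ≥ 0` everywhere. Each `x ∈ Z` can be written for every `w ∈ W^l` as `x = z + ∑ w_i` with
`z = x - ∑ w_i ∈ P`, so `∑_{x∈T} Π(x) |W|^l ≤ ∑_{z∈P} ∑_{w∈W^l} Π(z + ∑ w_i)` and `riesz` gives
`∑_{x∈T} Π(x) ≤ |P| (cosh(1/2)^k + 2^{-l} exp(k/2)) ≤ 2|Z| · 2 exp(k/8)`
(`cosh(1/2) ≤ exp(1/8)`; `2^{-l} exp(k/2) ≤ 1` as `k ≤ l` and `exp(1/2) < 2`).
With `|T| ≥ τ |Z|`: `exp(0.35 k) ≤ (4/τ) exp(k/8)`, so `0.225 k ≤ log(4/τ)`. -/
theorem chang (T Z P W Λ : Finset (ZMod q)) (l : ℕ) (τ : ℝ) (hτ : 0 < τ) (hτ1 : τ ≤ 1)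
    (hT : T.Nonempty) (hTZ : T ⊆ Z) (hTcard : τ * (Z.card : ℝ) ≤ (T.card : ℝ))
    (hP : (P.card : ℝ) ≤ 2 * Z.card) (hW : W.Nonempty)
    (hZ : ∀ z ∈ Z, ∀ w : Fin l → ZMod q, (∀ i, w i ∈ W) → z - ∑ i, w i ∈ P)
    (hΛ : Dissoc W Λ) (hcard : Λ.card ≤ l) (hspec : ∀ t ∈ Λ, 1 / 2 < ‖mh T t‖ ^ 2) :
    (Λ.card : ℝ) ≤ 5 * Real.log (4 / τ) := by
  classical
  -- the rotations
  choose ω hω1 hω2 using fun t : ZMod q => exists_rot (mh T t)
  set k : ℝ := (Λ.card : ℝ) with hk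
  have hk0 : 0 ≤ k := Nat.cast_nonneg _
  set c : ZMod q → ZMod q → ℝ := fun t x => (ω t * (ZMod.stdAddChar (t * x) : ℂ)).re with hc
  have hc1 : ∀ t x, |c t x| ≤ 1 := by
    intro t x
    simp only [hc]
    refine (Complex.abs_re_le_norm _).trans ?_
    rw [norm_mul, hω1, one_mul, AddChar.norm_apply]
  set Pi : ZMod q → ℝ := fun x => ∏ t ∈ Λ, (Real.cosh (1 / 2) + Real.sinh (1 / 2) * c t x) with hPi
  have hTc : (0 : ℝ) < T.card := by exact_mod_cast hT.card_pos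
  -- lower bound of the average of `X`
  have hsumT : ∀ t, ∑ x ∈ T, c t x = (T.card : ℝ) * ‖mh T t‖ := by
    intro t
    have h1 : (∑ x ∈ T, (ZMod.stdAddChar (t * x) : ℂ)) = (T.card : ℂ) * mh T t := by
      unfold mh
      rw [mul_div_cancel₀]
      exact_mod_cast hTc.ne'
    have h2 : ∑ x ∈ T, c t x = (ω t * ∑ x ∈ T, (ZMod.stdAddChar (t * x) : ℂ)).re := by
      rw [Finset.mul_sum, Complex.re_sum]
    rw [h2, h1, mul_left_comm, hω2, ← Complex.ofReal_natCast, ← Complex.ofReal_mul,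
      Complex.ofReal_re]
  have hsum : (T.card : ℝ) * (7 / 10 * k) ≤ ∑ x ∈ T, ∑ t ∈ Λ, c t x := by
    rw [Finset.sum_comm]
    simp_rw [hsumT]
    rw [← Finset.mul_sum]
    apply mul_le_mul_of_nonneg_left _ hTc.le
    have h3 : ∀ t ∈ Λ, (7 / 10 : ℝ) ≤ ‖mh T t‖ := by
      intro t ht
      have := hspec t ht
      by_contra hcon
      push Not at hcon
      have h0 := norm_nonneg (mh T t)
      nlinarith
    calc 7 / 10 * k = ∑ _t ∈ Λ, (7 / 10 : ℝ) := by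
          rw [Finset.sum_const, nsmul_eq_mul, hk]; ring
      _ ≤ _ := Finset.sum_le_sum h3
  -- Jensen
  have hexp : Real.exp (35 / 100 * k) * (T.card : ℝ) ≤ ∑ x ∈ T, Real.exp ((∑ t ∈ Λ, c t x) / 2) := by
    have h1 : ∀ x ∈ T, Real.exp (35 / 100 * k) * (1 + ((∑ t ∈ Λ, c t x) / 2 - 35 / 100 * k)) ≤
        Real.exp ((∑ t ∈ Λ, c t x) / 2) := by
      intro x _
      have h2 := Real.add_one_le_exp ((∑ t ∈ Λ, c t x) / 2 - 35 / 100 * k)
      have h3 : Real.exp ((∑ t ∈ Λ, c t x) / 2) =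
          Real.exp (35 / 100 * k) * Real.exp ((∑ t ∈ Λ, c t x) / 2 - 35 / 100 * k) := by
        rw [← Real.exp_add]; congr 1; ring
      rw [h3]
      apply mul_le_mul_of_nonneg_left _ (Real.exp_pos _).le
      linarith
    refine le_trans ?_ (Finset.sum_le_sum h1)
    rw [← Finset.mul_sum]
    apply mul_le_mul_of_nonneg_left _ (Real.exp_pos _).le
    rw [Finset.sum_add_distrib, Finset.sum_sub_distrib, ← Finset.sum_div, Finset.sum_const,
      Finset.sum_const, nsmul_eq_mul, nsmul_eq_mul]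
    linarith
  have hPle : ∀ x, Real.exp ((∑ t ∈ Λ, c t x) / 2) ≤ Pi x := by
    intro x
    have h1 : Real.exp ((∑ t ∈ Λ, c t x) / 2) = ∏ t ∈ Λ, Real.exp (c t x * (1 / 2)) := by
      rw [← Real.exp_sum, ← Finset.sum_mul]
      congr 1; ring
    rw [h1]
    refine Finset.prod_le_prod (fun t _ => (Real.exp_pos _).le) fun t _ => ?_
    have := Real.exp_mul_le_cosh_add_mul_sinh (hc1 t x) (1 / 2)
    linarith
  have hP0 : ∀ x, 0 ≤ Pi x := fun x => (Real.exp_pos _).le.trans (hPle x)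
  -- spreading over `P` and `W^l`
  obtain ⟨x0, hx0⟩ := hT
  obtain ⟨w0, hw0⟩ := hW
  have hPne : P.Nonempty := ⟨_, hZ x0 (hTZ hx0) (fun _ => w0) (fun _ => hw0)⟩
  have hWne : W.Nonempty := ⟨w0, hw0⟩
  have hWc : (0 : ℝ) < (W.card : ℝ) ^ l := by
    have : (0 : ℝ) < W.card := by exact_mod_cast hWne.card_pos
    positivity
  have hshift : ∀ w ∈ Fintype.piFinset (fun _ : Fin l => W),
      ∑ x ∈ T, Pi x ≤ ∑ z ∈ P, Pi (z + ∑ i, w i) := by
    intro w hw
    rw [Fintype.mem_piFinset] at hw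
    have h1 : ∑ x ∈ T, Pi x = ∑ z ∈ T.image (fun x => x - ∑ i, w i), Pi (z + ∑ i, w i) := by
      rw [Finset.sum_image (fun a _ b _ hab => by simpa using hab)]
      refine Finset.sum_congr rfl fun x _ => ?_
      rw [sub_add_cancel]
    rw [h1]
    apply Finset.sum_le_sum_of_subset_of_nonneg
    · intro z hz
      rw [Finset.mem_image] at hz
      obtain ⟨x, hx, rfl⟩ := hz
      exact hZ x (hTZ hx) w hw
    · intro z _ _
      exact hP0 _
  have hspread : (W.card : ℝ) ^ l * ∑ x ∈ T, Pi x ≤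
      ∑ z ∈ P, ∑ w ∈ Fintype.piFinset (fun _ : Fin l => W), Pi (z + ∑ i, w i) := by
    rw [Finset.sum_comm]
    have h1 := Finset.sum_le_sum hshift
    rw [Finset.sum_const, Fintype.card_piFinset, Finset.prod_const, Finset.card_univ,
      Fintype.card_fin, nsmul_eq_mul] at h1
    push_cast at h1
    exact h1
  have hriesz := riesz P W Λ hPne hWne l hΛ ω hω1 (1 / 2) (by norm_num)
  have h2 : ∑ x ∈ T, Pi x ≤ (P.card : ℝ) *
      (Real.cosh (1 / 2) ^ Λ.card + (1 / 2) ^ l * Real.exp (1 / 2 * Λ.card)) := by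
    have h3 := hspread.trans hriesz
    have h4 : (W.card : ℝ) ^ l * ∑ x ∈ T, Pi x ≤ (W.card : ℝ) ^ l * ((P.card : ℝ) *
      (Real.cosh (1 / 2) ^ Λ.card + (1 / 2) ^ l * Real.exp (1 / 2 * Λ.card))) := by
      refine h3.trans (le_of_eq ?_)
      ring
    exact le_of_mul_le_mul_left h4 hWc
  have h5 : Real.cosh (1 / 2) ^ Λ.card ≤ Real.exp (k / 8) := by
    have h6 : Real.cosh (1 / 2) ≤ Real.exp (1 / 8) := by
      have := Real.cosh_le_exp_half_sq (1 / 2)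
      norm_num at this ⊢
      exact this
    calc Real.cosh (1 / 2) ^ Λ.card ≤ Real.exp (1 / 8) ^ Λ.card :=
          pow_le_pow_left₀ (Real.cosh_pos _).le h6 _
      _ = Real.exp (k / 8) := by rw [← Real.exp_nat_mul]; congr 1; rw [hk]; ring
  have h7 : (1 / 2 : ℝ) ^ l * Real.exp (1 / 2 * Λ.card) ≤ Real.exp (k / 8) := by
    have h8 : Real.exp (1 / 2 * Λ.card) ≤ 2 ^ l := by
      calc Real.exp (1 / 2 * Λ.card) = Real.exp (1 / 2) ^ Λ.card := by
            rw [← Real.exp_nat_mul]; congr 1; ring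
        _ ≤ 2 ^ Λ.card := pow_le_pow_left₀ (Real.exp_pos _).le exp_half_lt_two _
        _ ≤ 2 ^ l := pow_le_pow_right₀ (by norm_num) hcard
    have h9 : (1 / 2 : ℝ) ^ l * 2 ^ l = 1 := by rw [← mul_pow]; norm_num
    calc (1 / 2 : ℝ) ^ l * Real.exp (1 / 2 * Λ.card) ≤ (1 / 2 : ℝ) ^ l * 2 ^ l :=
          mul_le_mul_of_nonneg_left h8 (by positivity)
      _ = 1 := h9
      _ ≤ Real.exp (k / 8) := Real.one_le_exp (by positivity)
  have hZ0 : (0 : ℝ) ≤ Z.card := Nat.cast_nonneg _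
  have h10 : ∑ x ∈ T, Pi x ≤ 4 * (Z.card : ℝ) * Real.exp (k / 8) := by
    refine h2.trans ?_
    have hE := Real.exp_pos (k / 8)
    calc (P.card : ℝ) * (Real.cosh (1 / 2) ^ Λ.card + (1 / 2) ^ l * Real.exp (1 / 2 * Λ.card))
        ≤ (2 * Z.card) * (Real.exp (k / 8) + Real.exp (k / 8)) := by
          apply mul_le_mul hP (add_le_add h5 h7) _ (by positivity)
          have := Real.cosh_pos (1 / 2)
          positivity
      _ = _ := by ring
  have h11 : Real.exp (35 / 100 * k) * (T.card : ℝ) ≤ 4 * (Z.card : ℝ) * Real.exp (k / 8) :=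
    (hexp.trans (Finset.sum_le_sum fun x _ => hPle x)).trans h10
  have h12 : (Z.card : ℝ) ≤ (T.card : ℝ) / τ := by
    rw [le_div_iff₀ hτ]; linarith
  have h13 : Real.exp (35 / 100 * k) ≤ 4 / τ * Real.exp (k / 8) := by
    have hE := Real.exp_pos (k / 8)
    have h14 : Real.exp (35 / 100 * k) * (T.card : ℝ) ≤ (4 / τ * Real.exp (k / 8)) * T.card := by
      calc Real.exp (35 / 100 * k) * (T.card : ℝ) ≤ 4 * (Z.card : ℝ) * Real.exp (k / 8) := h11
        _ ≤ 4 * ((T.card : ℝ) / τ) * Real.exp (k / 8) := by gcongr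
        _ = _ := by ring
    exact le_of_mul_le_mul_right h14 hTc
  have h15 : Real.exp (35 / 100 * k - k / 8) ≤ 4 / τ := by
    rw [Real.exp_sub, div_le_iff₀ (Real.exp_pos _)]
    exact h13
  have h16 : 35 / 100 * k - k / 8 ≤ Real.log (4 / τ) := by
    rw [← Real.exp_le_exp, Real.exp_log (by positivity)]
    exact h15
  have h17 : 0 ≤ Real.log (4 / τ) := by
    apply Real.log_nonneg
    rw [le_div_iff₀ hτ]
    linarith
  linarith

end P057
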