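import Vale.Agent.Lib.P057.R.Defs

/-!
P057 module Dens: from a large correlation average over `V - V` to a density increment on a
translate of `V`.
-/

set_option autoImplicit false

namespace P057

open Finset

variable {G : Type*} [AddCommGroup G] [Fintype G] [DecidableEq G]

namespace Dens

theorem corr_eq (A : Finset G) (w t : G) :
    corr A w = ∑ z : G, (if z + t ∈ A then 1 else 0) * (if z + t + w ∈ A then 1 else 0) := by
  have h1 : corr A w = ∑ y : G, (if y ∈ A then 1 else 0) * (if y + w ∈ A then 1 else 0) := by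
    unfold corr
    rw [Finset.card_filter]
    simp only [ite_mul, one_mul, zero_mul]
    rw [Finset.sum_ite_mem, Finset.univ_inter]
  rw [h1]
  exact (Fintype.sum_equiv (Equiv.addRight t) _ _ fun z => rfl).symm

omit [Fintype G] in
theorem cnt_eq (A V : Finset G) (z : G) :
    cnt A V z = ∑ u ∈ V, (if z + u ∈ A then 1 else 0) := by
  unfold cnt
  rw [Finset.card_filter]

theorem sum_cnt (A V : Finset G) : ∑ z : G, cnt A V z = A.card * V.card := by
  simp only [cnt_eq]
  rw [Finset.sum_comm]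
  have h1 : ∀ u ∈ V, ∑ z : G, (if z + u ∈ A then 1 else 0) = A.card := by
    intro u _
    have h2 : ∑ z : G, (if z + u ∈ A then 1 else 0) = ∑ y : G, (if y ∈ A then 1 else 0) :=
      Fintype.sum_equiv (Equiv.addRight u) _ _ fun z => rfl
    rw [h2, Finset.sum_boole]
    simp
  rw [Finset.sum_congr rfl h1, Finset.sum_const, smul_eq_mul, mul_comm]

theorem sum_corr (A V : Finset G) (g : G) :
    ∑ u ∈ V, ∑ u' ∈ V, corr A (g + u - u') = ∑ z : G, cnt A V z * cnt A V (z + g) := by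
  have h1 : ∀ u ∈ V, ∀ u' ∈ V, corr A (g + u - u') =
      ∑ z : G, (if z + u' ∈ A then 1 else 0) * (if z + g + u ∈ A then 1 else 0) := by
    intro u _ u' _
    rw [corr_eq A _ u']
    refine Finset.sum_congr rfl fun z _ => ?_
    have e : z + u' + (g + u - u') = z + g + u := by abel
    rw [e]
  rw [Finset.sum_congr rfl fun u hu => Finset.sum_congr rfl fun u' hu' => h1 u hu u' hu']
  simp only [cnt_eq]
  have h2 : ∀ u ∈ V, ∑ u' ∈ V, ∑ z : G,
      (if z + u' ∈ A then 1 else 0) * (if z + g + u ∈ A then 1 else 0) =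
      ∑ z : G, (∑ u' ∈ V, (if z + u' ∈ A then 1 else 0)) * (if z + g + u ∈ A then 1 else 0) := by
    intro u _
    rw [Finset.sum_comm]
    refine Finset.sum_congr rfl fun z _ => ?_
    rw [Finset.sum_mul]
  rw [Finset.sum_congr rfl h2, Finset.sum_comm]
  refine Finset.sum_congr rfl fun z _ => ?_
  rw [Finset.mul_sum]

end Dens

/-- For fixed `g = a - b`: `∑_{u,u'∈V} corr A (g + u - u')
 = ∑_{u,u'} #{y : y ∈ A, y + g + u - u' ∈ A} = ∑_{u,u'} #{z : z + u' ∈ A, z + g + u ∈ A}`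
(substitute `y = z + u'`) `= ∑_z cnt A V z * cnt A V (z + g)
 ≤ (max_z cnt A V z) ∑_z cnt A V z = (max_z cnt A V z) |A| |V|`. So the hypothesis (`v a |A|` is
a lower bound for the average of `corr A`) gives
`v a |A| |X|² |V|² ≤ |X|² (max cnt) |A| |V|`, i.e. `max cnt ≥ v a |V|`. -/
theorem dens_incr (A X V : Finset G) (hA : A.Nonempty) (hX : X.Nonempty) (hV : V.Nonempty)
    (v a : ℝ)
    (h : v * (a * A.card) ≤
      (∑ x ∈ X, ∑ y ∈ X, ∑ u ∈ V, ∑ u' ∈ V, (corr A (x - y + u - u') : ℝ)) /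
        ((X.card : ℝ) ^ 2 * (V.card : ℝ) ^ 2)) :
    ∃ z : G, v * a * (V.card : ℝ) ≤ (cnt A V z : ℝ) := by
  obtain ⟨a₀, ha₀⟩ := hA
  have hA' : A.Nonempty := ⟨a₀, ha₀⟩
  obtain ⟨z₀, -, hz₀⟩ := Finset.exists_max_image (Finset.univ : Finset G) (fun z => cnt A V z)
    ⟨a₀, Finset.mem_univ _⟩
  refine ⟨z₀, ?_⟩
  have hA0 : (0 : ℝ) < A.card := by exact_mod_cast hA'.card_pos
  have hX0 : (0 : ℝ) < X.card := by exact_mod_cast hX.card_pos
  have hV0 : (0 : ℝ) < V.card := by exact_mod_cast hV.card_pos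
  have key : ∀ g : G, ∑ u ∈ V, ∑ u' ∈ V, corr A (g + u - u') ≤
      cnt A V z₀ * (A.card * V.card) := by
    intro g
    rw [Dens.sum_corr, ← Dens.sum_cnt, Finset.mul_sum]
    refine Finset.sum_le_sum fun z _ => ?_
    rw [mul_comm]
    exact Nat.mul_le_mul_right _ (hz₀ _ (Finset.mem_univ _))
  have key2 : (∑ x ∈ X, ∑ y ∈ X, ∑ u ∈ V, ∑ u' ∈ V, (corr A (x - y + u - u') : ℝ)) ≤
      (X.card : ℝ) ^ 2 * ((cnt A V z₀ : ℝ) * (A.card * V.card)) := by
    have h1 : ∑ x ∈ X, ∑ y ∈ X, ∑ u ∈ V, ∑ u' ∈ V, corr A (x - y + u - u') ≤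
        X.card * (X.card * (cnt A V z₀ * (A.card * V.card))) := by
      refine (Finset.sum_le_card_nsmul _ _ _ fun x _ => ?_).trans (by rw [smul_eq_mul])
      refine (Finset.sum_le_card_nsmul _ _ _ fun y _ => ?_).trans (by rw [smul_eq_mul])
      exact key (x - y)
    have h2 : (∑ x ∈ X, ∑ y ∈ X, ∑ u ∈ V, ∑ u' ∈ V, (corr A (x - y + u - u') : ℝ)) ≤
        X.card * (X.card * (cnt A V z₀ * (A.card * V.card))) := by exact_mod_cast h1
    calc _ ≤ _ := h2
      _ = _ := by ring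
  have h3 : v * (a * A.card) ≤ (cnt A V z₀ : ℝ) * A.card / V.card := by
    refine h.trans ?_
    rw [div_le_div_iff₀ (by positivity) hV0]
    calc _ ≤ ((X.card : ℝ) ^ 2 * ((cnt A V z₀ : ℝ) * (A.card * V.card))) * V.card :=
        mul_le_mul_of_nonneg_right key2 hV0.le
      _ = _ := by ring
  rw [le_div_iff₀ hV0] at h3
  have h4 : (v * a * V.card) * A.card ≤ (cnt A V z₀ : ℝ) * A.card := by
    calc _ = v * (a * A.card) * V.card := by ring
      _ ≤ _ := h3
  exact le_of_mul_le_mul_right h4 hA0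

end P057
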