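import Vale.Agent.Lib.P057.R.Defs

/-!
P057 module Fourier: positivity of the Fourier weights.
-/

set_option autoImplicit false

namespace P057

open Finset

variable {q : ℕ} [NeZero q]

namespace FourierAux

/-- unnormalised exponential sum -/
noncomputable def es (Y : Finset (ZMod q)) (γ : ZMod q) : ℂ :=
  ∑ y ∈ Y, (ZMod.stdAddChar (γ * y) : ℂ)

lemma es_norm_sq (Y : Finset (ZMod q)) (γ : ZMod q) :
    ((‖es Y γ‖ ^ 2 : ℝ) : ℂ) =
      ∑ y ∈ Y, ∑ y' ∈ Y, (ZMod.stdAddChar (γ * (y - y')) : ℂ) := by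
  have h1 : ((‖es Y γ‖ ^ 2 : ℝ) : ℂ) = es Y γ * (starRingEnd ℂ) (es Y γ) := by
    rw [Complex.mul_conj, Complex.normSq_eq_norm_sq]
  rw [h1]
  unfold es
  rw [map_sum, Finset.sum_mul_sum]
  refine Finset.sum_congr rfl (fun y _ => Finset.sum_congr rfl (fun y' _ => ?_))
  rw [← AddChar.map_neg_eq_conj, ← AddChar.map_add_eq_mul]
  congr 1
  ring

lemma sum_char (z : ZMod q) :
    ∑ γ : ZMod q, (ZMod.stdAddChar (γ * z) : ℂ) = if z = 0 then (q : ℂ) else 0 := by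
  have h := AddChar.sum_mulShift z (ZMod.isPrimitive_stdAddChar q)
  simpa [ZMod.card] using h

lemma corr_sum (A : Finset (ZMod q)) (u : ZMod q) :
    ∑ γ : ZMod q, ∑ y ∈ A, ∑ y' ∈ A, (ZMod.stdAddChar (γ * (y - y' + u)) : ℂ)
      = (q : ℂ) * (corr A u : ℂ) := by
  rw [Finset.sum_comm]
  have h1 : ∀ y ∈ A, ∑ γ : ZMod q, ∑ y' ∈ A, (ZMod.stdAddChar (γ * (y - y' + u)) : ℂ)
      = if y + u ∈ A then (q : ℂ) else 0 := by
    intro y _
    rw [Finset.sum_comm]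
    have h2 : ∀ y' ∈ A, ∑ γ : ZMod q, (ZMod.stdAddChar (γ * (y - y' + u)) : ℂ)
        = if y + u = y' then (q : ℂ) else 0 := by
      intro y' _
      rw [sum_char]
      congr 1
      apply propext
      constructor
      · intro h
        linear_combination h
      · intro h
        linear_combination h
    rw [Finset.sum_congr rfl h2, Finset.sum_ite_eq]
  rw [Finset.sum_congr rfl h1, ← Finset.sum_filter, Finset.sum_const, nsmul_eq_mul]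
  unfold corr
  ring

lemma sum_comm4 {R : Type*} [AddCommMonoid R] (X T : Finset (ZMod q))
    (f : ZMod q → ZMod q → ZMod q → ZMod q → ZMod q → R) :
    ∑ γ : ZMod q, ∑ a ∈ X, ∑ b ∈ X, ∑ t ∈ T, ∑ t' ∈ T, f γ a b t t' =
      ∑ a ∈ X, ∑ b ∈ X, ∑ t ∈ T, ∑ t' ∈ T, ∑ γ : ZMod q, f γ a b t t' := by
  refine Finset.sum_comm.trans (Finset.sum_congr rfl (fun a _ => ?_))
  refine Finset.sum_comm.trans (Finset.sum_congr rfl (fun b _ => ?_))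
  refine Finset.sum_comm.trans (Finset.sum_congr rfl (fun t _ => ?_))
  exact Finset.sum_comm

lemma key (A X T : Finset (ZMod q)) :
    ∑ γ : ZMod q, ((‖es A γ‖ ^ 2 : ℝ) : ℂ) * ((‖es X γ‖ ^ 2 : ℝ) : ℂ) *
        ((‖es T γ‖ ^ 2 : ℝ) : ℂ) =
      (q : ℂ) * ∑ a ∈ X, ∑ b ∈ X, ∑ t ∈ T, ∑ t' ∈ T, (corr A (a - b + t - t') : ℂ) := by
  have h1 : ∀ γ : ZMod q, ((‖es A γ‖ ^ 2 : ℝ) : ℂ) * ((‖es X γ‖ ^ 2 : ℝ) : ℂ) *
        ((‖es T γ‖ ^ 2 : ℝ) : ℂ) =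
        ∑ a ∈ X, ∑ b ∈ X, ∑ t ∈ T, ∑ t' ∈ T,
          ∑ y ∈ A, ∑ y' ∈ A, (ZMod.stdAddChar (γ * (y - y' + (a - b + t - t'))) : ℂ) := by
    intro γ
    rw [es_norm_sq A, es_norm_sq X]
    refine (congrArg (· * _) (Finset.mul_sum X _ _)).trans ?_
    refine (Finset.sum_mul X _ _).trans (Finset.sum_congr rfl (fun a _ => ?_))
    refine (congrArg (· * _) (Finset.mul_sum X _ _)).trans ?_
    refine (Finset.sum_mul X _ _).trans (Finset.sum_congr rfl (fun b _ => ?_))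
    rw [es_norm_sq T]
    refine (Finset.mul_sum T _ _).trans (Finset.sum_congr rfl (fun t _ => ?_))
    refine (Finset.mul_sum T _ _).trans (Finset.sum_congr rfl (fun t' _ => ?_))
    rw [Finset.sum_mul, Finset.sum_mul]
    refine Finset.sum_congr rfl (fun y _ => ?_)
    rw [Finset.sum_mul, Finset.sum_mul]
    refine Finset.sum_congr rfl (fun y' _ => ?_)
    rw [← AddChar.map_add_eq_mul, ← AddChar.map_add_eq_mul]
    congr 1
    ring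
  rw [Finset.sum_congr rfl (fun γ _ => h1 γ), sum_comm4, Finset.mul_sum]
  refine Finset.sum_congr rfl (fun a _ => ?_)
  rw [Finset.mul_sum]
  refine Finset.sum_congr rfl (fun b _ => ?_)
  rw [Finset.mul_sum]
  refine Finset.sum_congr rfl (fun t _ => ?_)
  rw [Finset.mul_sum]
  refine Finset.sum_congr rfl (fun t' _ => ?_)
  exact corr_sum A (a - b + t - t')

lemma key_real (A X T : Finset (ZMod q)) :
    ∑ γ : ZMod q, ‖es A γ‖ ^ 2 * ‖es X γ‖ ^ 2 * ‖es T γ‖ ^ 2 =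
      (q : ℝ) * ∑ a ∈ X, ∑ b ∈ X, ∑ t ∈ T, ∑ t' ∈ T, (corr A (a - b + t - t') : ℝ) := by
  have h := key A X T
  have h2 : ((∑ γ : ZMod q, ‖es A γ‖ ^ 2 * ‖es X γ‖ ^ 2 * ‖es T γ‖ ^ 2 : ℝ) : ℂ) =
      (((q : ℝ) * ∑ a ∈ X, ∑ b ∈ X, ∑ t ∈ T, ∑ t' ∈ T,
        (corr A (a - b + t - t') : ℝ) : ℝ) : ℂ) := by
    push_cast
    push_cast at h
    exact h
  exact_mod_cast h2

end FourierAux

/-- Let `χ = ZMod.stdAddChar`, `Â(γ) = ∑_{a∈A} χ(γ a)`. By orthogonality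
(`AddChar.sum_mulShift` with `ZMod.isPrimitive_stdAddChar`)
`corr A u = (1/q) ∑_γ |Â(γ)|² χ(γ u)` (up to the sign of `u`, note `corr A (-u) = corr A u`), hence
`∑_{a,b∈X} ∑_{t,t'∈T} corr A (a - b + t - t')
   = (1/q) ∑_γ |Â(γ)|² |∑_{a∈X} χ(γ a)|² |∑_{t∈T} χ(γ t)|²`.
So `c γ = (1/q) |Â(γ)|² |mh X γ|²` works. -/
theorem fourier_weights (A X : Finset (ZMod q)) (hX : X.Nonempty) :
    ∃ c : ZMod q → ℝ, (∀ γ, 0 ≤ c γ) ∧ ∀ T : Finset (ZMod q), T.Nonempty →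
      ∑ γ, c γ * ‖mh T γ‖ ^ 2 =
        (∑ a ∈ X, ∑ b ∈ X, ∑ t ∈ T, ∑ t' ∈ T, (corr A (a - b + t - t') : ℝ)) /
          ((X.card : ℝ) ^ 2 * (T.card : ℝ) ^ 2) := by
  have hq : (q : ℝ) ≠ 0 := by exact_mod_cast NeZero.ne q
  have hXc : (X.card : ℝ) ≠ 0 := by exact_mod_cast (Finset.card_pos.mpr hX).ne'
  refine ⟨fun γ => ‖FourierAux.es A γ‖ ^ 2 * ‖FourierAux.es X γ‖ ^ 2 / (q * (X.card : ℝ) ^ 2),
    fun γ => by positivity, fun T hT => ?_⟩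
  have hTc : (T.card : ℝ) ≠ 0 := by exact_mod_cast (Finset.card_pos.mpr hT).ne'
  have h1 : ∀ γ : ZMod q, ‖mh T γ‖ = ‖FourierAux.es T γ‖ / (T.card : ℝ) := by
    intro γ
    unfold mh FourierAux.es
    rw [norm_div, Complex.norm_natCast]
  have h2 := FourierAux.key_real A X T
  have h3 : ∑ γ : ZMod q, ‖FourierAux.es A γ‖ ^ 2 * ‖FourierAux.es X γ‖ ^ 2 /
      (q * (X.card : ℝ) ^ 2) * ‖mh T γ‖ ^ 2 =
      (∑ γ : ZMod q, ‖FourierAux.es A γ‖ ^ 2 * ‖FourierAux.es X γ‖ ^ 2 *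
        ‖FourierAux.es T γ‖ ^ 2) / (q * (X.card : ℝ) ^ 2 * (T.card : ℝ) ^ 2) := by
    rw [Finset.sum_div]
    refine Finset.sum_congr rfl (fun γ _ => ?_)
    rw [h1]
    field_simp
  rw [h3, h2]
  field_simp

end P057
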