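import Vale.Agent.Lib.P057.R.Defs

/-!
P057 module Sift: sifting.
-/

set_option autoImplicit false

namespace P057

open Finset

variable {G : Type*} [AddCommGroup G] [Fintype G] [DecidableEq G]

namespace Sift

/-- the sifted set -/
def Cs (A C : Finset G) {p : ℕ} (s : Fin p → G) : Finset G :=
  C.filter (fun c => ∀ i, s i + c ∈ A)

theorem corr_eq (A : Finset G) (c c' : G) :
    corr A (c - c') = (Finset.univ.filter (fun y : G => y + c ∈ A ∧ y + c' ∈ A)).card := by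
  unfold corr
  refine Finset.card_bij (fun y _ => y - c') ?_ ?_ ?_
  · intro y hy
    rw [Finset.mem_filter] at hy
    rw [Finset.mem_filter]
    refine ⟨Finset.mem_univ _, ?_, ?_⟩
    · have h : y - c' + c = y + (c - c') := by abel
      rw [h]
      exact hy.2
    · rw [sub_add_cancel]
      exact hy.1
  · intro y _ z _ h
    exact sub_left_injective h
  · intro y hy
    rw [Finset.mem_filter] at hy
    refine ⟨y + c', ?_, by rw [add_sub_cancel_right]⟩
    rw [Finset.mem_filter]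
    refine ⟨hy.2.2, ?_⟩
    have h : y + c' + (c - c') = y + c := by abel
    rw [h]
    exact hy.2.1

theorem sum_s (A C : Finset G) (p : ℕ) (h : G → ℝ) :
    ∑ s : Fin p → G, ∑ c ∈ Cs A C s, ∑ c' ∈ Cs A C s, h (c - c') =
      ∑ c ∈ C, ∑ c' ∈ C, (corr A (c - c') : ℝ) ^ p * h (c - c') := by
  have h1 : ∀ s : Fin p → G, ∑ c ∈ Cs A C s, ∑ c' ∈ Cs A C s, h (c - c') =
      ∑ c ∈ C, ∑ c' ∈ C, (if (∀ i, s i + c ∈ A ∧ s i + c' ∈ A) then h (c - c') else 0) := by
    intro s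
    unfold Cs
    rw [Finset.sum_filter]
    refine Finset.sum_congr rfl fun c _ => ?_
    by_cases hc : ∀ i, s i + c ∈ A
    · rw [if_pos hc, Finset.sum_filter]
      refine Finset.sum_congr rfl fun c' _ => ?_
      by_cases hc' : ∀ i, s i + c' ∈ A
      · rw [if_pos hc', if_pos (fun i => ⟨hc i, hc' i⟩)]
      · rw [if_neg hc', if_neg (fun hh => hc' (fun i => (hh i).2))]
    · rw [if_neg hc]
      symm
      refine Finset.sum_eq_zero fun c' _ => ?_
      rw [if_neg (fun hh => hc (fun i => (hh i).1))]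
  rw [Finset.sum_congr rfl fun s _ => h1 s, Finset.sum_comm]
  refine Finset.sum_congr rfl fun c _ => ?_
  rw [Finset.sum_comm]
  refine Finset.sum_congr rfl fun c' _ => ?_
  rw [← Finset.sum_filter, Finset.sum_const, nsmul_eq_mul]
  congr 1
  have h2 : (Finset.univ.filter (fun s : Fin p → G => ∀ i, s i + c ∈ A ∧ s i + c' ∈ A)) =
      Fintype.piFinset (fun _ : Fin p =>
        (Finset.univ.filter (fun y : G => y + c ∈ A ∧ y + c' ∈ A))) := by
    ext s
    simp [Fintype.mem_piFinset]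
  rw [h2, Fintype.card_piFinset, Finset.prod_const, Finset.card_univ, Fintype.card_fin,
    corr_eq, Nat.cast_pow]

theorem sum_card (A C : Finset G) (p : ℕ) :
    ∑ s : Fin p → G, ((Cs A C s).card : ℝ) = (C.card : ℝ) * (A.card : ℝ) ^ p := by
  have h1 : ∀ s : Fin p → G, ((Cs A C s).card : ℝ) =
      ∑ c ∈ C, (if (∀ i, s i + c ∈ A) then (1 : ℝ) else 0) := by
    intro s
    unfold Cs
    rw [Finset.card_filter, Nat.cast_sum]
    refine Finset.sum_congr rfl fun c _ => ?_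
    split_ifs <;> simp
  rw [Finset.sum_congr rfl fun s _ => h1 s, Finset.sum_comm]
  have h2 : ∀ c ∈ C, (∑ s : Fin p → G, (if (∀ i, s i + c ∈ A) then (1 : ℝ) else 0)) =
      (A.card : ℝ) ^ p := by
    intro c _
    rw [← Finset.sum_filter, Finset.sum_const, nsmul_eq_mul, mul_one]
    have h3 : (Finset.univ.filter (fun s : Fin p → G => ∀ i, s i + c ∈ A)) =
        Fintype.piFinset (fun _ : Fin p =>
          (Finset.univ.filter (fun y : G => y + c ∈ A))) := by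
      ext s
      simp [Fintype.mem_piFinset]
    have h4 : (Finset.univ.filter (fun y : G => y + c ∈ A)).card = A.card := by
      refine Finset.card_bij (fun y _ => y + c) ?_ ?_ ?_
      · intro y hy
        exact (Finset.mem_filter.mp hy).2
      · intro y _ z _ h
        exact add_left_injective c h
      · intro y hy
        refine ⟨y - c, ?_, sub_add_cancel y c⟩
        rw [Finset.mem_filter, sub_add_cancel]
        exact ⟨Finset.mem_univ _, hy⟩
    rw [h3, Fintype.card_piFinset, Finset.prod_const, Finset.card_univ, Fintype.card_fin, h4,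
      Nat.cast_pow]
  rw [Finset.sum_congr rfl h2, Finset.sum_const, nsmul_eq_mul]

end Sift

/-- Sifting. Let `F u = corr A u / (a |A|)`. For `s : Fin p → G` put
`C_s = {c ∈ C : ∀ i, s i + c ∈ A}`. For any `h`,
`∑_{c,c' ∈ C} (corr A (c - c'))^p h(c - c') = ∑_{s : Fin p → G} ∑_{c,c' ∈ C_s} h(c - c')`,
since `corr A (c - c') = #{y : y ∈ A, y + (c - c') ∈ A} = #{s ∈ G : s + c' ∈ A, s + c ∈ A}`
(substitute `y = s + c'`).
So with `w_s = |C_s|²`, `W = ∑_s w_s = (a|A|)^p ∑_{c,c'} F^p ≥ (a|A|)^p |C|²`, and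
`∑_s ∑_{c,c'∈C_s} (F(c-c')-R)² ≤ ε R² W`.
The `s` with `|C_s| ≤ (a^p/2) |C|` have `∑ w_s ≤ (a^p/2)|C| ∑_s |C_s| = (a^p/2) |C|² |A|^p ≤ W/2`
(`∑_s |C_s| = ∑_{c∈C} |A|^p`). So the other `s` have `∑ w_s ≥ W/2 > 0`, and one of them has
`∑_{c,c'∈C_s} (F(c-c')-R)² ≤ 2 ε R² w_s` (otherwise summing over these `s` contradicts the bound
`ε R² W`; if `ε R² = 0` everything is zero and it is also fine). Take `X = C_s`. -/
theorem sift (A C : Finset G) (a : ℝ) (ha : 0 < a) (ha1 : a ≤ 1) (hA : A.Nonempty)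
    (hC : C.Nonempty) (p : ℕ) (R ε : ℝ) (hε : 0 ≤ ε)
    (h1 : (C.card : ℝ) ^ 2 ≤ ∑ c ∈ C, ∑ c' ∈ C, ((corr A (c - c') : ℝ) / (a * A.card)) ^ p)
    (h2 : ∑ c ∈ C, ∑ c' ∈ C, ((corr A (c - c') : ℝ) / (a * A.card)) ^ p *
        ((corr A (c - c') : ℝ) / (a * A.card) - R) ^ 2 ≤
      ε * R ^ 2 * ∑ c ∈ C, ∑ c' ∈ C, ((corr A (c - c') : ℝ) / (a * A.card)) ^ p) :
    ∃ X : Finset G, X ⊆ C ∧ X.Nonempty ∧ (a ^ p / 2) * (C.card : ℝ) ≤ (X.card : ℝ) ∧
      ∑ c ∈ X, ∑ c' ∈ X, ((corr A (c - c') : ℝ) / (a * A.card) - R) ^ 2 ≤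
        2 * ε * R ^ 2 * (X.card : ℝ) ^ 2 := by
  classical
  have hAc : (0 : ℝ) < A.card := by exact_mod_cast hA.card_pos
  have hCc : (0 : ℝ) < C.card := by exact_mod_cast hC.card_pos
  have hM : 0 < a * (A.card : ℝ) := mul_pos ha hAc
  set M : ℝ := a * (A.card : ℝ) with hMdef
  -- the two main identities
  have hW : ∑ s : Fin p → G, ((Sift.Cs A C s).card : ℝ) ^ 2 =
      M ^ p * ∑ c ∈ C, ∑ c' ∈ C, ((corr A (c - c') : ℝ) / M) ^ p := by
    have h3 := Sift.sum_s A C p (fun _ => (1 : ℝ))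
    have h4 : ∑ s : Fin p → G, ((Sift.Cs A C s).card : ℝ) ^ 2 =
        ∑ s : Fin p → G, ∑ c ∈ Sift.Cs A C s, ∑ c' ∈ Sift.Cs A C s, (1 : ℝ) := by
      refine Finset.sum_congr rfl fun s _ => ?_
      rw [Finset.sum_const, Finset.sum_const, nsmul_eq_mul, nsmul_eq_mul, mul_one, sq]
    rw [h4, h3, Finset.mul_sum]
    refine Finset.sum_congr rfl fun c _ => ?_
    rw [Finset.mul_sum]
    refine Finset.sum_congr rfl fun c' _ => ?_
    rw [mul_one, ← mul_pow, mul_div_cancel₀ _ hM.ne']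
  have hV : ∑ s : Fin p → G, ∑ c ∈ Sift.Cs A C s, ∑ c' ∈ Sift.Cs A C s,
      ((corr A (c - c') : ℝ) / M - R) ^ 2 =
      M ^ p * ∑ c ∈ C, ∑ c' ∈ C, ((corr A (c - c') : ℝ) / M) ^ p *
        ((corr A (c - c') : ℝ) / M - R) ^ 2 := by
    rw [Sift.sum_s A C p (fun u => ((corr A u : ℝ) / M - R) ^ 2), Finset.mul_sum]
    refine Finset.sum_congr rfl fun c _ => ?_
    rw [Finset.mul_sum]
    refine Finset.sum_congr rfl fun c' _ => ?_
    rw [← mul_assoc, ← mul_pow, mul_div_cancel₀ _ hM.ne']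
  set W : ℝ := ∑ s : Fin p → G, ((Sift.Cs A C s).card : ℝ) ^ 2 with hWdef
  have hMp : 0 < M ^ p := pow_pos hM p
  have hWlow : M ^ p * (C.card : ℝ) ^ 2 ≤ W := by
    rw [hW]
    exact mul_le_mul_of_nonneg_left h1 hMp.le
  have hWpos : 0 < W := lt_of_lt_of_le (by positivity) hWlow
  have hVle : ∑ s : Fin p → G, ∑ c ∈ Sift.Cs A C s, ∑ c' ∈ Sift.Cs A C s,
      ((corr A (c - c') : ℝ) / M - R) ^ 2 ≤ ε * R ^ 2 * W := by
    rw [hV, hW]
    calc M ^ p * ∑ c ∈ C, ∑ c' ∈ C, ((corr A (c - c') : ℝ) / M) ^ p *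
          ((corr A (c - c') : ℝ) / M - R) ^ 2
        ≤ M ^ p * (ε * R ^ 2 * ∑ c ∈ C, ∑ c' ∈ C, ((corr A (c - c') : ℝ) / M) ^ p) :=
          mul_le_mul_of_nonneg_left h2 hMp.le
      _ = _ := by ring
  -- good and bad tuples
  set thr : ℝ := (a ^ p / 2) * (C.card : ℝ) with hthr
  have hthrpos : 0 < thr := by positivity
  set good : Finset (Fin p → G) :=
    Finset.univ.filter (fun s : Fin p → G => thr ≤ ((Sift.Cs A C s).card : ℝ)) with hgood
  have hsplit : ∑ s ∈ good, ((Sift.Cs A C s).card : ℝ) ^ 2 +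
      ∑ s ∈ Finset.univ.filter (fun s : Fin p → G => ¬ thr ≤ ((Sift.Cs A C s).card : ℝ)),
        ((Sift.Cs A C s).card : ℝ) ^ 2 = W :=
    Finset.sum_filter_add_sum_filter_not Finset.univ _ _
  have hbad : ∑ s ∈ Finset.univ.filter (fun s : Fin p → G => ¬ thr ≤ ((Sift.Cs A C s).card : ℝ)),
        ((Sift.Cs A C s).card : ℝ) ^ 2 ≤ W / 2 := by
    calc ∑ s ∈ Finset.univ.filter (fun s : Fin p → G => ¬ thr ≤ ((Sift.Cs A C s).card : ℝ)),
        ((Sift.Cs A C s).card : ℝ) ^ 2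
        ≤ ∑ s ∈ Finset.univ.filter (fun s : Fin p → G => ¬ thr ≤ ((Sift.Cs A C s).card : ℝ)),
          thr * ((Sift.Cs A C s).card : ℝ) := by
          refine Finset.sum_le_sum fun s hs => ?_
          have hs' := (Finset.mem_filter.mp hs).2
          rw [sq]
          exact mul_le_mul_of_nonneg_right (not_le.mp hs').le (Nat.cast_nonneg _)
      _ ≤ ∑ s : Fin p → G, thr * ((Sift.Cs A C s).card : ℝ) := by
          refine Finset.sum_le_sum_of_subset_of_nonneg (Finset.filter_subset _ _) ?_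
          intro s _ _
          positivity
      _ = thr * ((C.card : ℝ) * (A.card : ℝ) ^ p) := by
          rw [← Finset.mul_sum, Sift.sum_card]
      _ = (M ^ p * (C.card : ℝ) ^ 2) / 2 := by
          rw [hthr, hMdef, mul_pow]
          ring
      _ ≤ W / 2 := by linarith
  have hgoodW : W / 2 ≤ ∑ s ∈ good, ((Sift.Cs A C s).card : ℝ) ^ 2 := by linarith
  by_contra hcon
  push Not at hcon
  have hne : good.Nonempty := by
    rw [Finset.nonempty_iff_ne_empty]
    intro he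
    rw [he, Finset.sum_empty] at hgoodW
    linarith
  have hlt : ∑ s ∈ good, 2 * ε * R ^ 2 * ((Sift.Cs A C s).card : ℝ) ^ 2 <
      ∑ s ∈ good, ∑ c ∈ Sift.Cs A C s, ∑ c' ∈ Sift.Cs A C s,
        ((corr A (c - c') : ℝ) / M - R) ^ 2 := by
    refine Finset.sum_lt_sum_of_nonempty hne fun s hs => ?_
    have hs' : thr ≤ ((Sift.Cs A C s).card : ℝ) := (Finset.mem_filter.mp hs).2
    refine hcon (Sift.Cs A C s) (Finset.filter_subset _ _) ?_ hs'
    have h5 : (0 : ℝ) < ((Sift.Cs A C s).card : ℝ) := lt_of_lt_of_le hthrpos hs'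
    exact Finset.card_pos.mp (by exact_mod_cast h5)
  have hle : ∑ s ∈ good, ∑ c ∈ Sift.Cs A C s, ∑ c' ∈ Sift.Cs A C s,
        ((corr A (c - c') : ℝ) / M - R) ^ 2 ≤
      ∑ s : Fin p → G, ∑ c ∈ Sift.Cs A C s, ∑ c' ∈ Sift.Cs A C s,
        ((corr A (c - c') : ℝ) / M - R) ^ 2 := by
    refine Finset.sum_le_sum_of_subset_of_nonneg (Finset.filter_subset _ _) ?_
    intro s _ _
    exact Finset.sum_nonneg fun c _ => Finset.sum_nonneg fun c' _ => sq_nonneg _
  rw [← Finset.mul_sum] at hlt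
  have hεR : 0 ≤ ε * R ^ 2 := mul_nonneg hε (sq_nonneg R)
  nlinarith [mul_le_mul_of_nonneg_left hgoodW hεR]

end P057
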