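import Vale.Agent.Lib.P057.R.SpecMass
import Vale.Agent.Lib.P057.R.Sift
import Vale.Agent.Lib.P057.R.AlmostPer
import Vale.Agent.Lib.P057.R.Fourier
import Vale.Agent.Lib.P057.R.Annih
import Vale.Agent.Lib.P057.R.BohrReg
import Vale.Agent.Lib.P057.R.Dens

/-!
P057 module Core: from a stable large moment to a density increment.
-/

set_option autoImplicit false

namespace P057

open Finset

variable {q : ℕ} [NeZero q]

/-- Numerical choice of `m`. With `σ = a^p/2`, `exp(-L) ≤ a ≤ 1`, `p ≤ 10^6 L`, `L ≥ 1`: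
`log (1/σ) = log 2 + p log (1/a) ≤ log 2 + 10^6 L²`. Take `m = ⌈1.9·10^11 L²⌉₊ ≤ 2·10^11 L²`. With
`δ = 1/300`: `m δ²/2 = m/180000 ≥ 1.05·10^6 L² ≥ log (4800) + log (1/σ)`, giving
`16 exp(-mδ²/2) ≤ δ σ`; and with `τ = (1/2)(σ/2)^m`:
`log (4/τ) = log 8 + m log (2/σ) ≤ 3 + 2·10^11 L² (2 + 10^6 L²) ≤ 10^18 L^4`. -/
theorem choose_m (L a : ℝ) (hL : 1 ≤ L) (ha : Real.exp (-L) ≤ a) (ha1 : a ≤ 1) (p : ℕ)
    (hp : (p : ℝ) ≤ 10 ^ 6 * L) :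
    ∃ m : ℕ, 0 < m ∧ 16 * Real.exp (-(m * (1 / 300 : ℝ) ^ 2 / 2)) ≤ (1 / 300) * (a ^ p / 2) ∧
      Real.log (4 / ((1 / 2) * ((a ^ p / 2) / 2) ^ m)) ≤ 10 ^ 18 * L ^ 4 := by
  have ha0 : 0 < a := lt_of_lt_of_le (Real.exp_pos _) ha
  have hL2 : 1 ≤ L ^ 2 := one_le_pow₀ hL
  have hlog : -L ≤ Real.log a := by
    rw [← Real.log_exp (-L)]
    exact Real.log_le_log (Real.exp_pos _) ha
  have hp0 : (0 : ℝ) ≤ p := Nat.cast_nonneg p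
  have hpL : -(10 ^ 6 * L ^ 2) ≤ (p : ℝ) * Real.log a := by
    have h1 := mul_le_mul_of_nonneg_left hlog hp0
    have h2 := mul_le_mul_of_nonneg_right hp (by linarith : (0 : ℝ) ≤ L)
    nlinarith
  have hap : Real.exp (-(10 ^ 6 * L ^ 2)) ≤ a ^ p := by
    rw [← Real.exp_log (pow_pos ha0 p), Real.log_pow]
    exact Real.exp_le_exp.2 hpL
  refine ⟨⌈1.9 * 10 ^ 11 * L ^ 2⌉₊, ?_, ?_, ?_⟩
  · rw [Nat.ceil_pos]
    positivity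
  · have hm := Nat.le_ceil (1.9 * 10 ^ 11 * L ^ 2 : ℝ)
    have h1 : Real.exp (-((⌈1.9 * 10 ^ 11 * L ^ 2⌉₊ : ℝ) * (1 / 300 : ℝ) ^ 2 / 2)) ≤
        Real.exp (-(10 ^ 6 * L ^ 2)) * Real.exp (-(55000 * L ^ 2)) := by
      rw [← Real.exp_add]
      refine Real.exp_le_exp.2 ?_
      nlinarith
    have h2 : Real.exp (-(55000 * L ^ 2)) ≤ 1 / 9600 := by
      rw [Real.exp_neg, ← one_div]
      refine one_div_le_one_div_of_le (by norm_num) ?_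
      have := Real.add_one_le_exp (55000 * L ^ 2)
      nlinarith
    have h3 : Real.exp (-(10 ^ 6 * L ^ 2)) * Real.exp (-(55000 * L ^ 2)) ≤ a ^ p * (1 / 9600) :=
      mul_le_mul hap h2 (Real.exp_pos _).le (pow_pos ha0 p).le
    linarith
  · have hm := (Nat.ceil_lt_add_one (show 0 ≤ (1.9 * 10 ^ 11 * L ^ 2 : ℝ) by positivity)).le
    obtain ⟨m, hmd⟩ : ∃ m : ℕ, m = ⌈1.9 * 10 ^ 11 * L ^ 2⌉₊ := ⟨_, rfl⟩
    rw [← hmd] at hm ⊢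
    have hm2 : (m : ℝ) ≤ 2 * 10 ^ 11 * L ^ 2 := by nlinarith
    have hap0 : 0 < a ^ p := pow_pos ha0 p
    have e1 : Real.log (4 / ((1 / 2) * ((a ^ p / 2) / 2) ^ m)) =
        Real.log 8 + m * (Real.log 4 - p * Real.log a) := by
      have e2 : 4 / ((1 / 2) * ((a ^ p / 2) / 2) ^ m) = 8 * (4 / a ^ p) ^ m := by
        have h3 : (a ^ p / 2 / 2) ^ m * (4 / a ^ p) ^ m = 1 := by
          rw [← mul_pow]
          have : a ^ p / 2 / 2 * (4 / a ^ p) = 1 := by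
            field_simp
            norm_num
          rw [this, one_pow]
        have h4 : (a ^ p / 2 / 2) ^ m ≠ 0 := by positivity
        rw [div_eq_iff (by positivity)]
        calc (4 : ℝ) = 4 * ((a ^ p / 2 / 2) ^ m * (4 / a ^ p) ^ m) := by rw [h3, mul_one]
          _ = 8 * (4 / a ^ p) ^ m * ((1 / 2) * (a ^ p / 2 / 2) ^ m) := by ring
      rw [e2, Real.log_mul (by norm_num) (by positivity), Real.log_pow,
        Real.log_div (by norm_num) hap0.ne', Real.log_pow]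
    have h8 : Real.log 8 ≤ 7 := by
      have := Real.log_le_sub_one_of_pos (show (0 : ℝ) < 8 by norm_num)
      linarith
    have h4 : Real.log 4 ≤ 3 := by
      have := Real.log_le_sub_one_of_pos (show (0 : ℝ) < 4 by norm_num)
      linarith
    rw [e1]
    have h5 : Real.log 4 - p * Real.log a ≤ 3 + 10 ^ 6 * L ^ 2 := by linarith
    have h6 : (m : ℝ) * (Real.log 4 - p * Real.log a) ≤
        (2 * 10 ^ 11 * L ^ 2) * (3 + 10 ^ 6 * L ^ 2) := by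
      refine le_trans (mul_le_mul_of_nonneg_left h5 (Nat.cast_nonneg m)) ?_
      exact mul_le_mul_of_nonneg_right hm2 (by positivity)
    have h7 : L ^ 4 = L ^ 2 * L ^ 2 := by ring
    rw [h7]
    nlinarith

/-- For `γ` with `‖1 - χ(γ x)‖ ≤ e ≤ 1` for all `x ∈ V`, `‖mh V γ‖² ≥ 1 - 2 e`. -/
theorem mh_ge (V : Finset (ZMod q)) (hV : V.Nonempty) (γ : ZMod q) (e : ℝ) (he : 0 ≤ e)
    (he1 : e ≤ 1) (h : ∀ x ∈ V, ‖(1 : ℂ) - ZMod.stdAddChar (γ * x)‖ ≤ e) :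
    1 - 2 * e ≤ ‖mh V γ‖ ^ 2 := by
  have hc : (0 : ℝ) < V.card := by exact_mod_cast hV.card_pos
  have hc' : (V.card : ℂ) ≠ 0 := by exact_mod_cast hV.card_pos.ne'
  have e1 : 1 - mh V γ = (∑ x ∈ V, ((1 : ℂ) - ZMod.stdAddChar (γ * x))) / V.card := by
    unfold mh
    rw [Finset.sum_sub_distrib, sub_div]
    congr 1
    rw [Finset.sum_const, nsmul_eq_mul, mul_one, div_self hc']
  have e2 : ‖1 - mh V γ‖ ≤ e := by
    rw [e1, norm_div, Complex.norm_natCast, div_le_iff₀ hc]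
    calc ‖∑ x ∈ V, ((1 : ℂ) - ZMod.stdAddChar (γ * x))‖
        ≤ ∑ x ∈ V, ‖(1 : ℂ) - ZMod.stdAddChar (γ * x)‖ := norm_sum_le _ _
      _ ≤ ∑ _x ∈ V, e := Finset.sum_le_sum h
      _ = e * V.card := by rw [Finset.sum_const, nsmul_eq_mul, mul_comm]
  have e3 : 1 - e ≤ ‖mh V γ‖ := by
    have h1 : ‖(1 : ℂ)‖ ≤ ‖1 - mh V γ‖ + ‖mh V γ‖ := by
      have := norm_add_le (1 - mh V γ) (mh V γ)
      simpa using this
    rw [norm_one] at h1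
    linarith
  have e4 : (1 - e) ^ 2 ≤ ‖mh V γ‖ ^ 2 := pow_le_pow_left₀ (by linarith) e3 2
  nlinarith [sq_nonneg e]

namespace Core

theorem num1 (M η : ℝ) (hM0 : 0 < M) : 2 * M * (η / (64 * M ^ 2)) = 1 * (η / 2) / (16 * M) := by
  field_simp
  ring

theorem num2 (M η r : ℝ) (hM0 : 0 < M) (hη : 0 < η) (hr2 : r ≤ η / (10 ^ 6 * M ^ 3)) :
    r ≤ 1 / 200 * (η / (64 * M ^ 2)) / (16 * M) := by
  refine hr2.trans ?_
  have h3 : 1 / 200 * (η / (64 * M ^ 2)) / (16 * M) = η / (204800 * M ^ 3) := by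
    field_simp
    norm_num
  rw [h3]
  refine div_le_div_of_nonneg_left hη.le (by positivity) ?_
  have : 0 ≤ M ^ 3 := by positivity
  linarith

theorem num3 (M η r k : ℝ) (hM1 : 1 ≤ M) (hη : 0 < η) (hη1 : η ≤ 1) (hr : 0 ≤ r)
    (hk0 : 0 ≤ k) (hk : k ≤ M) (hr2 : r ≤ η / (10 ^ 6 * M ^ 3)) :
    2 * Real.pi * k * r ≤ 1 / 200 := by
  have hM0 : 0 < M := by linarith
  have h3 : 2 * Real.pi * k * r ≤ 2 * 4 * M * (η / (10 ^ 6 * M ^ 3)) := by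
    have hpi := Real.pi_le_four
    have hpi0 := Real.pi_pos
    gcongr
  refine h3.trans ?_
  have h4 : 2 * 4 * M * (η / (10 ^ 6 * M ^ 3)) = 8 * η / (10 ^ 6 * M ^ 2) := by
    field_simp
    norm_num
  rw [h4, div_le_iff₀ (by positivity)]
  have h5 : 1 ≤ M ^ 2 := one_le_pow₀ hM1
  linarith

theorem hsum (A T V : Finset (ZMod q)) (a R : ℝ) (hR : 7 / 5 ≤ R) (hN : 0 < a * A.card)
    (c : ZMod q → ℝ) (hc0 : ∀ γ, 0 ≤ c γ)
    (hmass : (17 / 20) * R * (a * A.card) ≤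
      ∑ γ ∈ (Finset.univ : Finset (ZMod q)), (if 1 / 2 < ‖mh T γ‖ ^ 2 then c γ else 0))
    (hmh : ∀ γ : ZMod q, 1 / 2 < ‖mh T γ‖ ^ 2 → 19 / 20 ≤ ‖mh V γ‖ ^ 2) :
    (11 / 10) * (a * A.card) ≤ ∑ γ, c γ * ‖mh V γ‖ ^ 2 := by
  have h3 : ∑ γ ∈ (Finset.univ : Finset (ZMod q)),
      (19 / 20) * (if 1 / 2 < ‖mh T γ‖ ^ 2 then c γ else 0) ≤
      ∑ γ, c γ * ‖mh V γ‖ ^ 2 := by
    refine Finset.sum_le_sum fun γ _ => ?_
    split_ifs with hγ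
    · have h4 := mul_le_mul_of_nonneg_left (hmh γ hγ) (hc0 γ)
      linarith
    · rw [mul_zero]
      exact mul_nonneg (hc0 γ) (sq_nonneg _)
  rw [← Finset.mul_sum] at h3
  have h6 : (7 / 5) * (a * A.card) ≤ R * (a * A.card) := mul_le_mul_of_nonneg_right hR hN.le
  have h7 := mul_le_mul_of_nonneg_left hmass (show (0 : ℝ) ≤ 19 / 20 by norm_num)
  have h8 : (19 / 20) * ((17 / 20) * R * (a * A.card)) = (323 / 400) * (R * (a * A.card)) := by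
    ring
  rw [h8] at h7
  linarith

end Core

/-- Core step. `C = bohr Γ ρ`.
1. `sift` (with `ε = 10^{-5}`) gives `X ⊆ C`, `|X| ≥ σ|C|`, `σ = a^p/2`, with
   `∑_{x,y∈X}(F(x-y) - R)² ≤ 2·10^{-5} R² |X|²`.
2. `S = univ.filter (19/20 R ≤ corr A u/(a|A|))`; `hs_lower`.
3. `almost_periodic` with `δ = 1/300`, `m` from `choose_m`, `D = bohr Γ (ρ+η)`,
   `Z = bohr Γ ρ4`, where `ρ4 ∈ [η/4, η/2]` is from `bohr_regular` (`d = M`, `r0 = η/2`, `ε = 1`):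
   `|bohr Γ (ρ4+η4)| ≤ 2|Z|`, `η4 = (η/2)/(16 M) = η/(32M)`. Get `T ⊆ Z`, `|T| ≥ τ|Z|`,
   `τ = (1/2)(σ/2)^m`, with `|hS(t-t') - hS 0| ≤ 1/100` for `t,t' ∈ T`.
4. `fourier_weights A X` gives `c`, `spec_mass` gives `∑_{γ∈Δ} c γ ≥ (17/20) R a|A|`.
5. `annihilate` with `P = bohr Γ (ρ4+η4)`, `l = ⌊M⌋₊ + 1` (`5 log(4/τ) ≤ 5·10^18 L^4 ≤ M < l ≤ 2M`),
   `r6 ∈ [η/(128M²), η/(64M²)]` from `bohr_regular` (`r0 = η/(64 M²)`, `ε = 1/200`), so that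
   `l r6 ≤ 2M·η/(64M²) = η4`, `η6 = (1/200)·(η/(64M²))/(16M) = η/(204800 M³)`, and `ε = 1/200`.
   It gives `Λ` with `|Λ| ≤ 5 log(4/τ) ≤ 10^20 L^4`.
6. For `0 ≤ r ≤ η/(10^6 M³) ≤ η6` (and `2π|Λ| r ≤ 2π M η/(10^6 M³) ≤ 1/200`), `V = bohr (Γ∪Λ) r`:
   for `γ ∈ Δ`, `‖mh V γ‖² ≥ 1 - 10/200 = 19/20` (`mh_ge`), so
   `∑ c γ ‖mh V γ‖² ≥ (19/20)(17/20) R a|A| ≥ (19/20)(17/20)(7/5) a|A| ≥ (11/10) a |A|`.
   `dens_incr` with `v = 11/10` gives `z`. -/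
theorem core (L M a ρ η : ℝ) (hL : 1 ≤ L) (ha : Real.exp (-L) ≤ a) (ha1 : a ≤ 1)
    (hLM : 10 ^ 20 * L ^ 4 ≤ M) (Γ : Finset (ZMod q)) (hΓ : (Γ.card : ℝ) ≤ M)
    (hρ : 0 ≤ ρ) (hη : 0 < η) (hη1 : η ≤ 1)
    (hreg : ((bohr Γ (ρ + η)).card : ℝ) ≤ 2 * ((bohr Γ ρ).card : ℝ))
    (A : Finset (ZMod q)) (hA : A.Nonempty) (p : ℕ) (R : ℝ) (hp : (p : ℝ) ≤ 10 ^ 6 * L)
    (hR : 7 / 5 ≤ R)
    (h1 : ((bohr Γ ρ).card : ℝ) ^ 2 ≤
      ∑ c ∈ bohr Γ ρ, ∑ c' ∈ bohr Γ ρ, ((corr A (c - c') : ℝ) / (a * A.card)) ^ p)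
    (h2 : ∑ c ∈ bohr Γ ρ, ∑ c' ∈ bohr Γ ρ, ((corr A (c - c') : ℝ) / (a * A.card)) ^ p *
        ((corr A (c - c') : ℝ) / (a * A.card) - R) ^ 2 ≤
      (1 / 10 ^ 5) * R ^ 2 *
        ∑ c ∈ bohr Γ ρ, ∑ c' ∈ bohr Γ ρ, ((corr A (c - c') : ℝ) / (a * A.card)) ^ p) :
    ∃ Λ : Finset (ZMod q), (Λ.card : ℝ) ≤ 10 ^ 20 * L ^ 4 ∧
      ∀ r : ℝ, 0 ≤ r → r ≤ η / (10 ^ 6 * M ^ 3) →
        ∃ z : ZMod q, (11 / 10) * a * ((bohr (Γ ∪ Λ) r).card : ℝ) ≤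
          (cnt A (bohr (Γ ∪ Λ) r) z : ℝ) := by
  classical
  have ha0 : 0 < a := lt_of_lt_of_le (Real.exp_pos _) ha
  have hR0 : 0 < R := by linarith
  have hL4 : 1 ≤ L ^ 4 := one_le_pow₀ hL
  have hM : 10 ^ 20 ≤ M := by nlinarith
  have hM1 : 1 ≤ M := by linarith
  have hM0 : 0 < M := by linarith
  have hAc : (0 : ℝ) < A.card := by exact_mod_cast hA.card_pos
  have hCne : (bohr Γ ρ).Nonempty := ⟨0, zero_mem_bohr Γ ρ hρ⟩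
  -- 1. sifting
  obtain ⟨X, hXC, hX, hXcard, hvar⟩ := sift A (bohr Γ ρ) a ha0 ha1 hA hCne p R (1 / 10 ^ 5)
    (by norm_num) h1 h2
  -- 2. the level set
  set S : Finset (ZMod q) := Finset.univ.filter (fun u => (19 / 20) * R ≤
    (corr A u : ℝ) / (a * A.card)) with hSdef
  have hS' : ∀ u, u ∈ S ↔ (19 / 20) * R ≤ (corr A u : ℝ) / (a * A.card) := by
    intro u
    rw [hSdef]
    simp
  -- 3. almost periodicity
  obtain ⟨m, hm0, hm1, hm2⟩ := choose_m L a hL ha ha1 p hp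
  obtain ⟨ρ4, hρ4a, hρ4b, hρ4c⟩ := bohr_regular Γ M hM1 hΓ (η / 2) (by linarith) 1 (by norm_num)
    le_rfl
  have hσ : 0 < a ^ p / 2 := by positivity
  have hσ1 : a ^ p / 2 ≤ 1 := by
    have := pow_le_one₀ ha0.le ha1 (n := p)
    linarith
  have hXD : X ⊆ bohr Γ (ρ + η) := hXC.trans (bohr_mono Γ _ _ (by linarith))
  have hρ40 : 0 ≤ ρ4 := by linarith
  obtain ⟨T, hTZ, hTcard, hap⟩ := almost_periodic S X (bohr Γ ρ) (bohr Γ (ρ + η)) (bohr Γ ρ4)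
    (a ^ p / 2) (1 / 300) hσ hσ1 (by norm_num) m hm0 hX hXcard hreg hXD
    (fun x hx t ht => bohr_mono Γ _ _ (by linarith) (add_mem_bohr Γ ρ ρ4 x t (hXC hx) ht))
    (fun x hx t ht t' ht' => bohr_mono Γ _ _ (by linarith)
      (sub_mem_bohr Γ (ρ + ρ4) ρ4 (x + t) t' (add_mem_bohr Γ ρ ρ4 x t (hXC hx) ht) ht'))
    hm1
  have hap' : ∀ t ∈ T, ∀ t' ∈ T, |hS S X (t - t') - hS S X 0| ≤ 1 / 100 := by
    intro t ht t' ht'
    have := hap t ht t' ht'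
    norm_num at this ⊢
    exact this
  obtain ⟨τ, hτd⟩ : ∃ τ : ℝ, τ = (1 / 2) * ((a ^ p / 2) / 2) ^ m := ⟨_, rfl⟩
  rw [← hτd] at hm2 hTcard
  have hτ : 0 < τ := by
    rw [hτd]
    positivity
  have hτ1 : τ ≤ 1 := by
    have : ((a ^ p / 2) / 2) ^ m ≤ 1 := pow_le_one₀ (by positivity) (by linarith)
    rw [hτd]
    linarith
  have hZpos : (0 : ℝ) < (bohr Γ ρ4).card := by exact_mod_cast card_bohr_pos Γ ρ4 hρ40
  have hT : T.Nonempty := by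
    rw [← Finset.card_pos]
    have h3 : (0 : ℝ) < T.card := lt_of_lt_of_le (mul_pos hτ hZpos) hTcard
    exact_mod_cast h3
  -- 4. Fourier weights
  obtain ⟨c, hc0, hc⟩ := fourier_weights A X hX
  have hmass := spec_mass A X T S a R ha0 hA hR0 hX hT hS' hvar hap' c hc0 hc
  -- 5. annihilation
  obtain ⟨r6, hr6a, hr6b, hr6c⟩ := bohr_regular Γ M hM1 hΓ (η / (64 * M ^ 2)) (by positivity)
    (1 / 200) (by norm_num) (by norm_num)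
  have hr60 : 0 ≤ r6 := by
    have : 0 ≤ η / (64 * M ^ 2) / 2 := by positivity
    linarith
  have hfl := Nat.lt_floor_add_one M
  have hfl2 := Nat.floor_le hM0.le
  have hl : 5 * Real.log (4 / τ) < ((⌊M⌋₊ + 1 : ℕ) : ℝ) := by
    push_cast
    linarith
  have hl2 : ((⌊M⌋₊ + 1 : ℕ) : ℝ) ≤ 2 * M := by
    push_cast
    linarith
  obtain ⟨Λ, hΛ, hann⟩ := annihilate T (bohr Γ ρ4) (bohr Γ (ρ4 + 1 * (η / 2) / (16 * M))) Γ
    (⌊M⌋₊ + 1) τ hτ hτ1 hT hTZ hTcard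
    (by
      refine hρ4c.trans (le_of_eq ?_)
      ring)
    r6 (1 / 200 * (η / (64 * M ^ 2)) / (16 * M)) (1 / 200) hr60 (by positivity) (by norm_num)
    hr6c
    (fun z hz w hw => by
      have h3 := sub_mem_bohr Γ ρ4 (((⌊M⌋₊ + 1 : ℕ) : ℝ) * r6) z (∑ i, w i) hz
        (sum_mem_bohr Γ r6 (⌊M⌋₊ + 1) w hw hr60)
      refine bohr_mono Γ _ _ ?_ h3
      have h4 : ((⌊M⌋₊ + 1 : ℕ) : ℝ) * r6 ≤ 2 * M * (η / (64 * M ^ 2)) :=
        mul_le_mul hl2 hr6b hr60 (by positivity)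
      have h5 := Core.num1 M η hM0
      linarith)
    hl
  have hΛ2 : (Λ.card : ℝ) ≤ 10 ^ 20 * L ^ 4 := by linarith
  refine ⟨Λ, hΛ2, fun r hr hr2 => ?_⟩
  -- 6. density increment
  have hΛM : (Λ.card : ℝ) ≤ M := hΛ2.trans hLM
  have hra : r ≤ 1 / 200 * (η / (64 * M ^ 2)) / (16 * M) := Core.num2 M η r hM0 hη hr2
  have hrb : 2 * Real.pi * Λ.card * r ≤ 1 / 200 :=
    Core.num3 M η r Λ.card hM1 hη hη1 hr (Nat.cast_nonneg _) hΛM hr2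
  set V := bohr (Γ ∪ Λ) r with hV
  have hVne : V.Nonempty := ⟨0, zero_mem_bohr _ r hr⟩
  have hmh : ∀ γ : ZMod q, 1 / 2 < ‖mh T γ‖ ^ 2 → 19 / 20 ≤ ‖mh V γ‖ ^ 2 := by
    intro γ hγ
    have h3 := mh_ge V hVne γ (5 * (1 / 200)) (by norm_num) (by norm_num)
      (fun x hx => hann r hr hra hrb x hx γ hγ)
    norm_num at h3 ⊢
    exact h3
  have hsum : (11 / 10) * (a * A.card) ≤ ∑ γ, c γ * ‖mh V γ‖ ^ 2 :=
    Core.hsum A T V a R hR (mul_pos ha0 hAc) c hc0 hmass hmh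
  rw [hc V hVne] at hsum
  exact dens_incr A X V hA hX hVne (11 / 10) a hsum

end P057
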