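import Mathlib

/-!
P057 (r_3 upper bound), shared definitions.
-/

set_option autoImplicit false

namespace P057

open Finset

section general

variable {G : Type*} [AddCommGroup G] [DecidableEq G]

/-- `|(A - x) ∩ B|`, the number of `b ∈ B` with `x + b ∈ A`. -/
def cnt (A B : Finset G) (x : G) : ℕ := (B.filter (fun b => x + b ∈ A)).card

/-- `corr A u` is the number of `y ∈ A` with `y + u ∈ A`
(the autocorrelation of the indicator function of `A`). -/
def corr (A : Finset G) (u : G) : ℕ := (A.filter (fun y => y + u ∈ A)).card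

/-- The function `1_A - a 1_P`. -/
noncomputable def bal (A P : Finset G) (a : ℝ) (y : G) : ℝ :=
  (if y ∈ A then 1 else 0) - a * (if y ∈ P then 1 else 0)

/-- `A` has no nontrivial three term progression in the group `G`
(`a + b = 2c` with `a, b, c ∈ A` forces `a = c`). -/
def AP3Free (A : Finset G) : Prop :=
  ∀ a ∈ A, ∀ b ∈ A, ∀ c ∈ A, a + b = c + c → a = c

/-- proportion of pairs `(a, b) ∈ X × X` with `b - a + u ∈ S`. -/
noncomputable def hS (S X : Finset G) (u : G) : ℝ :=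
  (∑ a ∈ X, ∑ b ∈ X, (if b - a + u ∈ S then (1 : ℝ) else 0)) / (X.card : ℝ) ^ 2

end general

/-- distance of `t / q` to the nearest integer. -/
noncomputable def nu {q : ℕ} (t : ZMod q) : ℝ := (t.valMinAbs.natAbs : ℝ) / (q : ℝ)

open Classical in
/-- The Bohr set `{x : ‖γ x / q‖ ≤ r for all γ ∈ Γ}`. -/
noncomputable def bohr {q : ℕ} [NeZero q] (Γ : Finset (ZMod q)) (r : ℝ) : Finset (ZMod q) :=
  Finset.univ.filter (fun x => ∀ γ ∈ Γ, nu (γ * x) ≤ r)

/-- `{γ / 2 : γ ∈ Γ}` (used for odd `q`). -/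
def half {q : ℕ} (Γ : Finset (ZMod q)) : Finset (ZMod q) :=
  Γ.image (fun γ => (2 : ZMod q)⁻¹ * γ)

/-- normalised exponential sum over `X` at frequency `γ`. -/
noncomputable def mh {q : ℕ} [NeZero q] (X : Finset (ZMod q)) (γ : ZMod q) : ℂ :=
  (∑ x ∈ X, (ZMod.stdAddChar (γ * x) : ℂ)) / (X.card : ℂ)

/-- `Λ` is dissociated with respect to the set `W`: no nonzero combination with
coefficients in `{-1, 0, 1}` of the elements of `Λ` is a large frequency of `W`. -/
def Dissoc {q : ℕ} [NeZero q] (W Λ : Finset (ZMod q)) : Prop :=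
  ∀ θ : ZMod q → ℤ, (∀ l ∈ Λ, θ l = -1 ∨ θ l = 0 ∨ θ l = 1) → (∃ l ∈ Λ, θ l ≠ 0) →
    ‖mh W (∑ l ∈ Λ, (θ l : ZMod q) * l)‖ ≤ 1 / 2

end P057
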