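import Vale.Agent.Lib.P057.R.Iterate

/-!
P057 module Final: the bound for three term progressions in `{1, …, N}`.
-/

set_option autoImplicit false

namespace P057

open Finset

/-- Transfer to `ZMod (2N+1)`: the image `A'` of `A` under the cast has the same size and is
`AP3Free` (`a + b ≡ 2c mod 2N+1` with `1 ≤ a,b,c ≤ N` forces `a + b = 2c` as `|a+b-2c| ≤ 2N-2`; if
`a < b` then `a, c, b` is a progression with difference `c - a = b - c > 0`, contradiction, same for
`b < a`; so `a = b = c`). With `L ≥ 1` and `|A| ≥ 6 exp(-L) N ≥ 2 exp(-L)(2N+1)`, `main_bound`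
gives `log N ≤ log (2N+1) ≤ 10^28 L^6 (1 + log L)`. -/
theorem bound_interval (N : ℕ) (hN : 1 ≤ N) (A : Finset ℕ) (hA : A ⊆ Finset.Icc 1 N)
    (h3 : ∀ a d : ℕ, 0 < d → ¬(a ∈ A ∧ a + d ∈ A ∧ a + 2 * d ∈ A)) (L : ℝ) (hL : 1 ≤ L)
    (hc : 6 * Real.exp (-L) * (N : ℝ) ≤ (A.card : ℝ)) :
    Real.log N ≤ 10 ^ 28 * L ^ 6 * (1 + Real.log L) := by
  have hcast : ∀ a b : ℕ, a < 2 * N + 1 → b < 2 * N + 1 →
      ((a : ℕ) : ZMod (2 * N + 1)) = (b : ℕ) → a = b := by
    intro a b ha hb hab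
    have h := (ZMod.natCast_eq_natCast_iff' a b (2 * N + 1)).1 hab
    rwa [Nat.mod_eq_of_lt ha, Nat.mod_eq_of_lt hb] at h
  have hmem : ∀ a ∈ A, 1 ≤ a ∧ a ≤ N := fun a ha => Finset.mem_Icc.1 (hA ha)
  have hcard : (A.image (fun a : ℕ => (a : ZMod (2 * N + 1)))).card = A.card := by
    apply Finset.card_image_of_injOn
    intro a ha b hb hab
    have h1 := hmem a (Finset.mem_coe.1 ha)
    have h2 := hmem b (Finset.mem_coe.1 hb)
    exact hcast a b (by omega) (by omega) hab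
  have hfree : AP3Free (A.image (fun a : ℕ => (a : ZMod (2 * N + 1)))) := by
    intro a' ha' b' hb' c' hc' habc
    obtain ⟨a, ha, rfl⟩ := Finset.mem_image.1 ha'
    obtain ⟨b, hb, rfl⟩ := Finset.mem_image.1 hb'
    obtain ⟨c, hc, rfl⟩ := Finset.mem_image.1 hc'
    have h1 := hmem a ha
    have h2 := hmem b hb
    have h4 := hmem c hc
    have h5 : a + b = c + c := by
      apply hcast (a + b) (c + c) (by omega) (by omega)
      push_cast
      exact habc
    have h6 : a = c := by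
      rcases lt_trichotomy a b with h | h | h
      · exfalso
        apply h3 a (c - a) (by omega)
        have e1 : a + (c - a) = c := by omega
        have e2 : a + 2 * (c - a) = b := by omega
        rw [e1, e2]
        exact ⟨ha, hc, hb⟩
      · omega
      · exfalso
        apply h3 b (c - b) (by omega)
        have e1 : b + (c - b) = c := by omega
        have e2 : b + 2 * (c - b) = a := by omega
        rw [e1, e2]
        exact ⟨hb, hc, ha⟩
    rw [h6]
  have hN1 : (1 : ℝ) ≤ N := by exact_mod_cast hN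
  have hmain := main_bound (q := 2 * N + 1) ⟨N, rfl⟩ _ hfree L hL (by
    rw [hcard]
    refine le_trans ?_ hc
    have he : 0 < Real.exp (-L) := Real.exp_pos _
    push_cast
    nlinarith [mul_le_mul_of_nonneg_left hN1 he.le])
  refine le_trans ?_ hmain
  apply Real.log_le_log (by linarith)
  push_cast
  linarith

/-- Let `x = log N`, `y = (x / log x)^(1/6)`. Suppose `|A| > N exp(-c y)`. Take
`L = c y + 2`: `6 exp(-L) ≤ exp(-c y)` (`6 < e²`), so `x ≤ 10^28 L^6 (1 + log L)`. For `N` large,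
`c y ≥ 2`, so `L ≤ 2 c y`, `L^6 ≤ 64 c^6 x / log x`, and (with `c ≤ 1/2`)
`1 + log L ≤ 1 + log y ≤ 1 + log x ≤ 2 log x`, so `x ≤ 10^28·128 c^6 x`, a contradiction if
`c = 10^{-6}` (`128·10^28·10^{-36} < 1`). -/
theorem r3_upper : ∃ c : ℝ, 0 < c ∧ ∃ N0 : ℕ, ∀ N : ℕ, N0 ≤ N → ∀ A : Finset ℕ,
    A ⊆ Finset.Icc 1 N →
    (∀ a d : ℕ, 0 < d → ¬(a ∈ A ∧ a + d ∈ A ∧ a + 2 * d ∈ A)) →
    (A.card : ℝ) ≤
      N * Real.exp (-c * (Real.log N / Real.log (Real.log N)) ^ ((1 : ℝ) / 6)) := by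
  refine ⟨1 / 10 ^ 6, by norm_num, ⌈Real.exp ((128 * 10 ^ 36) ^ 2)⌉₊, fun N hN A hA h3 => ?_⟩
  by_contra hcon
  rw [not_le] at hcon
  have hNexp : Real.exp ((128 * 10 ^ 36) ^ 2) ≤ (N : ℝ) := Nat.ceil_le.1 hN
  have hNpos : (0 : ℝ) < N := (Real.exp_pos _).trans_le hNexp
  have hN1 : 1 ≤ N := by
    have : 0 < N := by exact_mod_cast hNpos
    omega
  have hx : (128 * 10 ^ 36) ^ 2 ≤ Real.log N := (Real.le_log_iff_exp_le hNpos).2 hNexp
  set x : ℝ := Real.log N with hxdef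
  have hx3 : (3 : ℝ) ≤ x := le_trans (by norm_num) hx
  have hxpos : 0 < x := by linarith
  have hlog1 : 1 ≤ Real.log x := by
    rw [Real.le_log_iff_exp_le hxpos]
    have := Real.exp_one_lt_d9
    linarith
  have hlogpos : 0 < Real.log x := by linarith
  have hsq : Real.log x ≤ 2 * Real.sqrt x := by
    have h := Real.log_le_rpow_div hxpos.le (ε := 1 / 2) (by norm_num)
    rw [← Real.sqrt_eq_rpow] at h
    linarith
  have hsqrt : 128 * 10 ^ 36 ≤ Real.sqrt x := Real.le_sqrt_of_sq_le hx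
  have hsqrtpos : 0 < Real.sqrt x := lt_of_lt_of_le (by norm_num) hsqrt
  set u : ℝ := x / Real.log x with hu
  have hu1 : 64 * 10 ^ 36 ≤ u := by
    rw [hu, le_div_iff₀ hlogpos]
    have h1 : Real.sqrt x * Real.sqrt x = x := Real.mul_self_sqrt hxpos.le
    nlinarith
  have hu0 : 0 ≤ u := le_trans (by norm_num) hu1
  have hu2 : 1 ≤ u := le_trans (by norm_num) hu1
  have hux : u ≤ x := div_le_self hxpos.le hlog1
  set y : ℝ := u ^ ((1 : ℝ) / 6) with hy
  have hy0 : 0 ≤ y := Real.rpow_nonneg hu0 _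
  have hy6 : y ^ 6 = u := by
    rw [hy, ← Real.rpow_natCast, ← Real.rpow_mul hu0]
    norm_num
  have hyu : y ≤ u := by
    have h := Real.rpow_le_rpow_of_exponent_le hu2 (show (1 : ℝ) / 6 ≤ 1 by norm_num)
    rwa [Real.rpow_one] at h
  have hyx : y ≤ x := hyu.trans hux
  have hy1 : 2 * 10 ^ 6 ≤ y := by
    by_contra hlt
    rw [not_le] at hlt
    have h := pow_lt_pow_left₀ hlt hy0 (n := 6) (by norm_num)
    rw [hy6] at h
    norm_num at h hu1
    linarith
  have hL1 : (1 : ℝ) ≤ 1 / 10 ^ 6 * y + 2 := by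
    have : 0 ≤ 1 / 10 ^ 6 * y := by positivity
    linarith
  have hb := bound_interval N hN1 A hA h3 (1 / 10 ^ 6 * y + 2) hL1 (by
    refine le_trans ?_ hcon.le
    have he : Real.exp (-(1 / 10 ^ 6 * y + 2)) = Real.exp (-(1 / 10 ^ 6) * y) * Real.exp (-2) := by
      rw [← Real.exp_add]
      congr 1
      ring
    have h2 : 6 * Real.exp (-2) ≤ 1 := by
      have h7 : Real.exp 2 = Real.exp 1 * Real.exp 1 := by
        rw [← Real.exp_add]
        norm_num
      have h8 := Real.exp_one_gt_d9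
      have h9 : 6 ≤ Real.exp 2 := by
        rw [h7]
        nlinarith
      rw [Real.exp_neg]
      rw [← div_eq_mul_inv, div_le_one (Real.exp_pos _)]
      exact h9
    rw [he]
    have h3 : 0 < Real.exp (-(1 / 10 ^ 6) * y) := Real.exp_pos _
    calc 6 * (Real.exp (-(1 / 10 ^ 6) * y) * Real.exp (-2)) * (N : ℝ)
        = (6 * Real.exp (-2)) * ((N : ℝ) * Real.exp (-(1 / 10 ^ 6) * y)) := by ring
      _ ≤ 1 * ((N : ℝ) * Real.exp (-(1 / 10 ^ 6) * y)) :=
        mul_le_mul_of_nonneg_right h2 (by positivity)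
      _ = _ := one_mul _)
  set L : ℝ := 1 / 10 ^ 6 * y + 2 with hL
  have hL2 : L ≤ 2 * (1 / 10 ^ 6 * y) := by
    rw [hL]
    linarith
  have hL0 : 0 ≤ L := by linarith
  have hLy : L ≤ y := by
    linarith
  have hL6 : L ^ 6 ≤ 64 / 10 ^ 36 * u := by
    calc L ^ 6 ≤ (2 * (1 / 10 ^ 6 * y)) ^ 6 := pow_le_pow_left₀ hL0 hL2 6
      _ = 64 / 10 ^ 36 * y ^ 6 := by ring
      _ = _ := by rw [hy6]
  have hlogL : 1 + Real.log L ≤ 2 * Real.log x := by
    have h1 : Real.log L ≤ Real.log x := Real.log_le_log (by linarith) (hLy.trans hyx)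
    linarith
  have hlogL0 : 0 ≤ 1 + Real.log L := by
    have := Real.log_nonneg hL1
    linarith
  have hfin : 10 ^ 28 * L ^ 6 * (1 + Real.log L) ≤ 128 / 10 ^ 8 * x := by
    calc 10 ^ 28 * L ^ 6 * (1 + Real.log L)
        ≤ 10 ^ 28 * (64 / 10 ^ 36 * u) * (2 * Real.log x) := by
          apply mul_le_mul _ hlogL hlogL0 (by positivity)
          exact mul_le_mul_of_nonneg_left hL6 (by norm_num)
      _ = 128 / 10 ^ 8 * (u * Real.log x) := by ring
      _ = 128 / 10 ^ 8 * x := by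
          rw [hu, div_mul_cancel₀ _ hlogpos.ne']
  have hcontra := hb.trans hfin
  linarith

end P057
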