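import Vale.Agent.Lib.P057.R.Defs

/-!
P057 module HsLower: Chebyshev.
-/

set_option autoImplicit false

namespace P057

open Finset

variable {G : Type*} [AddCommGroup G] [DecidableEq G]

/-- A pair `(a', b)` in `X × X` with `b - a' + 0 ∉ S` has `F(b - a') < (19/20) R`, hence
`(F(b-a') - R)² ≥ R²/400`. So the number of such pairs times `R²/400` is at most
`2·10^{-5} R² |X|²` (rename `c = b`, `c' = a'` and swap the sums, `Finset.sum_comm`), i.e. the
number is at most `0.008 |X|²`, and `hS S X 0 ≥ 0.992 = 124/125`. -/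
theorem hs_lower (A X S : Finset G) (a R : ℝ) (hR : 0 < R) (hX : X.Nonempty)
    (hS' : ∀ u, u ∈ S ↔ (19 / 20) * R ≤ (corr A u : ℝ) / (a * A.card))
    (hvar : ∑ c ∈ X, ∑ c' ∈ X, ((corr A (c - c') : ℝ) / (a * A.card) - R) ^ 2 ≤
      2 * (1 / 10 ^ 5) * R ^ 2 * (X.card : ℝ) ^ 2) :
    124 / 125 ≤ hS S X 0 := by
  have hXc : (0 : ℝ) < X.card := by exact_mod_cast hX.card_pos
  have hR2 : 0 < R ^ 2 := by positivity
  have hpt : ∀ x ∈ X, ∀ y ∈ X, (1 : ℝ) - 400 / R ^ 2 *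
      ((corr A (y - x) : ℝ) / (a * A.card) - R) ^ 2 ≤
      (if y - x + 0 ∈ S then (1 : ℝ) else 0) := by
    intro x _ y _
    rw [add_zero]
    have h0 : 0 ≤ 400 / R ^ 2 * ((corr A (y - x) : ℝ) / (a * A.card) - R) ^ 2 := by positivity
    by_cases h : y - x ∈ S
    · rw [if_pos h]; linarith
    · rw [if_neg h]
      have h1 : (corr A (y - x) : ℝ) / (a * A.card) < (19 / 20) * R := by
        by_contra h2
        exact h ((hS' _).mpr (not_lt.mp h2))
      have h2 : R ^ 2 / 400 ≤ ((corr A (y - x) : ℝ) / (a * A.card) - R) ^ 2 := by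
        generalize (corr A (y - x) : ℝ) / (a * A.card) = F at h1
        have h3 : R / 20 ≤ R - F := by linarith
        have h4 : (R / 20) ^ 2 ≤ (R - F) ^ 2 := pow_le_pow_left₀ (by positivity) h3 2
        nlinarith
      have h5 : (1 : ℝ) = 400 / R ^ 2 * (R ^ 2 / 400) := by field_simp
      have h6 : 400 / R ^ 2 * (R ^ 2 / 400) ≤
          400 / R ^ 2 * ((corr A (y - x) : ℝ) / (a * A.card) - R) ^ 2 := by gcongr
      linarith
  have hsum : ∑ x ∈ X, ∑ y ∈ X, ((1 : ℝ) - 400 / R ^ 2 *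
      ((corr A (y - x) : ℝ) / (a * A.card) - R) ^ 2) ≤
      ∑ x ∈ X, ∑ y ∈ X, (if y - x + 0 ∈ S then (1 : ℝ) else 0) :=
    Finset.sum_le_sum fun x hx => Finset.sum_le_sum fun y hy => hpt x hx y hy
  have hleft : ∑ x ∈ X, ∑ y ∈ X, ((1 : ℝ) - 400 / R ^ 2 *
      ((corr A (y - x) : ℝ) / (a * A.card) - R) ^ 2) =
      (X.card : ℝ) ^ 2 - 400 / R ^ 2 *
        ∑ c ∈ X, ∑ c' ∈ X, ((corr A (c - c') : ℝ) / (a * A.card) - R) ^ 2 := by
    simp only [Finset.sum_sub_distrib, Finset.sum_const, ← Finset.mul_sum, nsmul_eq_mul, mul_one]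
    rw [Finset.sum_comm]
    ring
  rw [hleft] at hsum
  have h7 : 400 / R ^ 2 * ∑ c ∈ X, ∑ c' ∈ X, ((corr A (c - c') : ℝ) / (a * A.card) - R) ^ 2 ≤
      400 / R ^ 2 * (2 * (1 / 10 ^ 5) * R ^ 2 * (X.card : ℝ) ^ 2) := by gcongr
  have h8 : 400 / R ^ 2 * (2 * (1 / 10 ^ 5) * R ^ 2 * (X.card : ℝ) ^ 2) =
      1 / 125 * (X.card : ℝ) ^ 2 := by
    field_simp
    norm_num
  unfold hS
  rw [le_div_iff₀ (by positivity)]
  linarith

end P057
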