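import Vale.Agent.Lib.P057.R.Bal
import Vale.Agent.Lib.P057.R.CSM

set_option autoImplicit false

namespace P057

open Finset

variable {G : Type*} [AddCommGroup G] [Fintype G] [DecidableEq G]

theorem moment_lower (A B P Y Q C : Finset G) (a ε : ℝ) (hε0 : 0 ≤ ε) (hε : ε ≤ 1 / 2)
    (hAB : A ⊆ B) (hA : A.Nonempty)
    (ha : a = (A.card : ℝ) / (B.card : ℝ)) (hP : (P.card : ℝ) ≤ (1 + ε) * B.card)
    (h1 : ∀ w ∈ Y, ∀ b ∈ B, w - b ∈ P)
    (hw : ∀ w ∈ Y, (A.filter (fun y => w - y ∈ A)).card ≤ 1)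
    (hbig : 1 ≤ ε * (a * A.card))
    (hYQ : ∀ w ∈ Y, ∀ c ∈ C, ∀ c' ∈ C, w - c + c' ∈ Q)
    (p : ℕ) (hp : Even p) :
    (C.card : ℝ) ^ 2 * Y.card * (1 - 2 * ε) ^ p ≤
      Q.card * ∑ c ∈ C, ∑ c' ∈ C,
        ((∑ y, bal A P a (y + c) * bal A P a (y + c')) / (a * A.card)) ^ p := by
  obtain ⟨N, hN⟩ : ∃ N : ℝ, N = a * A.card := ⟨_, rfl⟩
  rw [← hN] at hbig ⊢
  obtain ⟨ψ, hψ⟩ : ∃ ψ : G → ℝ, ψ = fun w => (∑ y, bal A P a y * bal A P a (w - y)) / N :=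
    ⟨_, rfl⟩
  obtain ⟨S, hS⟩ : ∃ S : ℝ, S = ∑ c ∈ C, ∑ c' ∈ C,
        ((∑ y, bal A P a (y + c) * bal A P a (y + c')) / N) ^ p := ⟨_, rfl⟩
  rw [← hS]
  -- pointwise bound
  have hψY : ∀ w ∈ Y, (1 - 2 * ε) ^ p ≤ ψ w ^ p := by
    intro w hwY
    have h2 := bal_conv A B P a ε hAB hA ha hP w (h1 w hwY) (hw w hwY) (by rw [← hN]; exact hbig)
    rw [← hN] at h2
    have h3 : ψ w ≤ -(1 - 2 * ε) := by rw [hψ]; exact h2
    rw [← Even.neg_pow hp (ψ w)]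
    apply pow_le_pow_left₀ (by linarith)
    linarith
  -- for each t
  have ht : ∀ t : G, ∑ c ∈ C, ∑ c' ∈ C, ψ (t + c - c') ^ p ≤ S := by
    intro t
    have h4 := cs_moment (bal A P a) C t p
    have e1 : ∑ c ∈ C, ∑ c' ∈ C, ψ (t + c - c') ^ p =
        (∑ c ∈ C, ∑ c' ∈ C, (∑ y, bal A P a y * bal A P a (t + c - c' - y)) ^ p) / N ^ p := by
      rw [hψ, Finset.sum_div]
      refine Finset.sum_congr rfl (fun c _ => ?_)
      rw [Finset.sum_div]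
      refine Finset.sum_congr rfl (fun c' _ => ?_)
      exact div_pow _ _ _
    have e2 : S = (∑ c ∈ C, ∑ c' ∈ C, (∑ y, bal A P a (y + c) * bal A P a (y + c')) ^ p) / N ^ p := by
      rw [hS, Finset.sum_div]
      refine Finset.sum_congr rfl (fun c _ => ?_)
      rw [Finset.sum_div]
      refine Finset.sum_congr rfl (fun c' _ => ?_)
      exact div_pow _ _ _
    rw [e1, e2]
    apply div_le_div_of_nonneg_right h4 (hp.pow_nonneg N)
  have hsum : ∑ t ∈ Q, ∑ c ∈ C, ∑ c' ∈ C, ψ (t + c - c') ^ p ≤ Q.card * S := by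
    calc ∑ t ∈ Q, ∑ c ∈ C, ∑ c' ∈ C, ψ (t + c - c') ^ p ≤ ∑ t ∈ Q, S :=
          Finset.sum_le_sum (fun t _ => ht t)
      _ = Q.card * S := by rw [Finset.sum_const, nsmul_eq_mul]
  refine le_trans ?_ hsum
  have hswap : ∑ t ∈ Q, ∑ c ∈ C, ∑ c' ∈ C, ψ (t + c - c') ^ p =
      ∑ c ∈ C, ∑ c' ∈ C, ∑ t ∈ Q, ψ (t + c - c') ^ p := by
    rw [Finset.sum_comm]
    apply Finset.sum_congr rfl
    intro c _
    rw [Finset.sum_comm]
  rw [hswap]
  have hin : ∀ c ∈ C, ∀ c' ∈ C, (Y.card : ℝ) * (1 - 2 * ε) ^ p ≤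
      ∑ t ∈ Q, ψ (t + c - c') ^ p := by
    intro c hc c' hc'
    have h5 : ∑ w ∈ Y, ψ w ^ p ≤ ∑ t ∈ Q, ψ (t + c - c') ^ p := by
      have h6 : ∑ w ∈ Y, ψ w ^ p = ∑ t ∈ Y.image (fun w => w - c + c'), ψ (t + c - c') ^ p := by
        rw [Finset.sum_image]
        · apply Finset.sum_congr rfl
          intro w _
          congr 2
          abel
        · intro u _ v _ huv
          have : u - c + c' = v - c + c' := huv
          have h7 := add_right_cancel this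
          exact sub_left_injective h7
      rw [h6]
      apply Finset.sum_le_sum_of_subset_of_nonneg
      · intro t ht
        obtain ⟨w, hwY, rfl⟩ := Finset.mem_image.mp ht
        exact hYQ w hwY c hc c' hc'
      · intro t _ _
        exact hp.pow_nonneg _
    refine le_trans ?_ h5
    calc (Y.card : ℝ) * (1 - 2 * ε) ^ p = ∑ w ∈ Y, (1 - 2 * ε) ^ p := by
          rw [Finset.sum_const, nsmul_eq_mul]
      _ ≤ _ := Finset.sum_le_sum hψY
  calc (C.card : ℝ) ^ 2 * Y.card * (1 - 2 * ε) ^ p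
      = ∑ c ∈ C, ∑ c' ∈ C, (Y.card : ℝ) * (1 - 2 * ε) ^ p := by
        simp only [Finset.sum_const, nsmul_eq_mul]
        ring
    _ ≤ _ := Finset.sum_le_sum (fun c hc => Finset.sum_le_sum (fun c' hc' => hin c hc c' hc'))

end P057
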