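import Mathlib

set_option autoImplicit false

namespace P057

open Finset

namespace MomentsAux

theorem num_aux (p : ℕ) (hp : 8 ≤ p) : 4 * (p : ℝ) ≤ (168 / 100 : ℝ) ^ p := by
  induction p, hp using Nat.le_induction with
  | base => norm_num
  | succ n hn ih =>
    rw [pow_succ]
    push_cast
    have : (8:ℝ) ≤ n := by exact_mod_cast hn
    nlinarith

theorem exp_aux : (7 / 8 : ℝ) ≤ Real.exp (-(1 / 8)) := by
  have := Real.add_one_le_exp (-(1 / 8 : ℝ))
  linarith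

/-- numerical inequality of step A -/
theorem num_main (p : ℕ) (hp : 8 ≤ p) (L : ℝ) (hL : 8 * L ≤ p) :
    (2 ^ p + 1) * (2 * (p : ℝ)) * (101 / 100) ^ (2 * p) ≤
      4 ^ p * (Real.exp (-L) * (98 / 100) ^ p) := by
  have h1 : (7 / 8 : ℝ) ^ p ≤ Real.exp (-L) := by
    calc (7 / 8 : ℝ) ^ p ≤ (Real.exp (-(1 / 8))) ^ p :=
          pow_le_pow_left₀ (by norm_num) exp_aux _
      _ = Real.exp (p * (-(1 / 8))) := by rw [Real.exp_nat_mul]
      _ ≤ Real.exp (-L) := by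
          apply Real.exp_le_exp.mpr
          linarith
  have h2 := num_aux p hp
  have h3 : (2:ℝ) ^ p + 1 ≤ 2 * 2 ^ p := by
    have : (1:ℝ) ≤ 2 ^ p := one_le_pow₀ (by norm_num)
    linarith
  calc (2 ^ p + 1) * (2 * (p : ℝ)) * (101 / 100) ^ (2 * p)
      ≤ (2 * 2 ^ p) * (2 * (p : ℝ)) * (101 / 100) ^ (2 * p) := by gcongr
    _ = (4 * (p : ℝ)) * (2 ^ p * ((101 / 100) ^ 2) ^ p) := by rw [pow_mul]; ring
    _ ≤ (168 / 100 : ℝ) ^ p * (2 ^ p * ((101 / 100) ^ 2) ^ p) := by gcongr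
    _ = (168 / 100 * (2 * (101 / 100) ^ 2) : ℝ) ^ p := by rw [mul_pow, mul_pow]
    _ ≤ (4 * ((7 / 8) * (98 / 100)) : ℝ) ^ p := by
        apply pow_le_pow_left₀ (by norm_num)
        norm_num
    _ = 4 ^ p * ((7 / 8) ^ p * (98 / 100) ^ p) := by rw [mul_pow, mul_pow]
    _ ≤ 4 ^ p * (Real.exp (-L) * (98 / 100) ^ p) := by gcongr

theorem stepA {ι : Type*} (I : Finset ι) (F φ : ι → ℝ) (L : ℝ)
    (hF0 : ∀ i ∈ I, 0 ≤ F i)
    (h1 : ∀ i ∈ I, F i - 1 ≤ φ i) (h2 : ∀ i ∈ I, φ i ≤ F i - 1 + 1 / 100)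
    (hmom : ∀ j : ℕ, 0 ≤ ∑ i ∈ I, φ i ^ j) (p : ℕ) (hp8 : 8 ≤ p) (hpL : 8 * L ≤ p)
    (hp : Real.exp (-L) * (98 / 100) ^ p * (I.card : ℝ) ≤ ∑ i ∈ I, φ i ^ p) :
    2 ^ p * (I.card : ℝ) ≤ ∑ i ∈ I, F i ^ (2 * p) := by
  have hp0 : 0 < p := by omega
  have hpR : (0:ℝ) < p := by exact_mod_cast hp0
  -- binomial
  have hbin : ((Nat.centralBinom p : ℕ) : ℝ) * ∑ i ∈ I, φ i ^ p ≤ ∑ i ∈ I, (φ i + 1) ^ (2 * p) := by
    have e : ∑ i ∈ I, (φ i + 1) ^ (2 * p) =
        ∑ m ∈ Finset.range (2 * p + 1), ((2 * p).choose m : ℝ) * ∑ i ∈ I, φ i ^ m := by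
      simp_rw [Finset.mul_sum]
      rw [Finset.sum_comm]
      apply Finset.sum_congr rfl
      intro i _
      rw [add_pow]
      apply Finset.sum_congr rfl
      intro m _
      rw [one_pow, mul_one, mul_comm]
    rw [e]
    have := Finset.single_le_sum (f := fun m => ((2 * p).choose m : ℝ) * ∑ i ∈ I, φ i ^ m)
      (s := Finset.range (2 * p + 1)) (fun m _ => mul_nonneg (by positivity) (hmom m))
      (Finset.mem_range.mpr (by omega : p < 2 * p + 1))
    rw [Nat.centralBinom_eq_two_mul_choose]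
    exact this
  have hcb : (4:ℝ) ^ p ≤ (2 * p) * (Nat.centralBinom p : ℝ) := by
    have := Nat.four_pow_le_two_mul_self_mul_centralBinom p hp0
    exact_mod_cast this
  -- upper bound
  have hup : ∑ i ∈ I, (φ i + 1) ^ (2 * p) ≤
      (101 / 100) ^ (2 * p) * ((I.card : ℝ) + ∑ i ∈ I, F i ^ (2 * p)) := by
    have e : (101 / 100 : ℝ) ^ (2 * p) * ((I.card : ℝ) + ∑ i ∈ I, F i ^ (2 * p)) =
        ∑ i ∈ I, (101 / 100 : ℝ) ^ (2 * p) * (1 + F i ^ (2 * p)) := by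
      rw [← Finset.mul_sum, Finset.sum_add_distrib]
      simp
    rw [e]
    apply Finset.sum_le_sum
    intro i hi
    have hf0 := hF0 i hi
    have hf1 := h1 i hi
    have hf2 := h2 i hi
    rcases le_total (F i) 1 with h | h
    · calc (φ i + 1) ^ (2 * p) ≤ (101 / 100) ^ (2 * p) :=
            pow_le_pow_left₀ (by linarith) (by linarith) _
        _ ≤ (101 / 100) ^ (2 * p) * (1 + F i ^ (2 * p)) := by
            have : 0 ≤ F i ^ (2 * p) := by positivity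
            have h101 : (0:ℝ) ≤ (101 / 100) ^ (2 * p) := by positivity
            nlinarith [mul_nonneg h101 this]
    · calc (φ i + 1) ^ (2 * p) ≤ (101 / 100 * F i) ^ (2 * p) :=
            pow_le_pow_left₀ (by linarith) (by linarith) _
        _ = (101 / 100) ^ (2 * p) * F i ^ (2 * p) := mul_pow _ _ _
        _ ≤ (101 / 100) ^ (2 * p) * (1 + F i ^ (2 * p)) := by
            apply mul_le_mul_of_nonneg_left _ (by positivity)
            linarith
  have hnum := num_main p hp8 L hpL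
  have hn : (0:ℝ) ≤ I.card := by positivity
  set n : ℝ := (I.card : ℝ) with hndef
  set M := ∑ i ∈ I, F i ^ (2 * p) with hM
  set Φ := ∑ i ∈ I, φ i ^ p with hΦ
  set t : ℝ := (101 / 100) ^ (2 * p) with ht
  have htpos : 0 < t := by positivity
  -- combine
  have c1 : 4 ^ p * (Real.exp (-L) * (98 / 100) ^ p) * n ≤ (2 * p) * (t * (n + M)) := by
    calc 4 ^ p * (Real.exp (-L) * (98 / 100) ^ p) * n
        = 4 ^ p * (Real.exp (-L) * (98 / 100) ^ p * n) := by ring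
      _ ≤ 4 ^ p * Φ := by
          apply mul_le_mul_of_nonneg_left hp (by positivity)
      _ ≤ (2 * p) * (Nat.centralBinom p : ℝ) * Φ := by
          apply mul_le_mul_of_nonneg_right hcb (hmom p)
      _ = (2 * p) * ((Nat.centralBinom p : ℝ) * Φ) := by ring
      _ ≤ (2 * p) * (t * (n + M)) := by
          apply mul_le_mul_of_nonneg_left (hbin.trans hup) (by positivity)
  have c2 : (2 ^ p + 1) * (2 * (p : ℝ)) * t * n ≤ (2 * p) * (t * (n + M)) :=
    le_trans (mul_le_mul_of_nonneg_right hnum hn) c1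
  have c3 : (2 * (p:ℝ) * t) * ((2 ^ p + 1) * n) ≤ (2 * (p:ℝ) * t) * (n + M) := by
    calc (2 * (p:ℝ) * t) * ((2 ^ p + 1) * n) = (2 ^ p + 1) * (2 * (p : ℝ)) * t * n := by ring
      _ ≤ _ := c2
      _ = _ := by ring
  have c4 := le_of_mul_le_mul_left c3 (by positivity)
  linarith

theorem logconvex {ι : Type*} (I : Finset ι) (F : ι → ℝ) (hF0 : ∀ i ∈ I, 0 ≤ F i) (j : ℕ) :
    (∑ i ∈ I, F i ^ (j + 1)) ^ 2 ≤ (∑ i ∈ I, F i ^ j) * (∑ i ∈ I, F i ^ (j + 2)) := by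
  apply Finset.sum_sq_le_sum_mul_sum_of_sq_le_mul
  · intro i hi
    exact pow_nonneg (hF0 i hi) _
  · intro i hi
    exact pow_nonneg (hF0 i hi) _
  · intro i _
    exact le_of_eq (by ring)

theorem exp_le_pow (L : ℝ) (J : ℕ) (hJ : 2 * 10 ^ 5 * L ≤ J) :
    Real.exp L ≤ (1 + 1 / 10 ^ 5 : ℝ) ^ J := by
  have hlog : (1 / 10 ^ 5 : ℝ) / 2 ≤ Real.log (1 + 1 / 10 ^ 5) := by
    have := Real.one_sub_inv_le_log_of_pos (show (0:ℝ) < 1 + 1 / 10 ^ 5 by positivity)
    refine le_trans ?_ this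
    norm_num
  have e : (1 + 1 / 10 ^ 5 : ℝ) ^ J = Real.exp (J * Real.log (1 + 1 / 10 ^ 5)) := by
    rw [Real.exp_nat_mul, Real.exp_log (by positivity)]
  rw [e]
  apply Real.exp_le_exp.mpr
  calc L = (2 * 10 ^ 5 * L) * ((1 / 10 ^ 5 : ℝ) / 2) := by ring
    _ ≤ J * ((1 / 10 ^ 5 : ℝ) / 2) := by
        apply mul_le_mul_of_nonneg_right hJ (by positivity)
    _ ≤ J * Real.log (1 + 1 / 10 ^ 5) := by
        apply mul_le_mul_of_nonneg_left hlog (by positivity)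

end MomentsAux

open MomentsAux in
theorem moments {ι : Type*} (I : Finset ι) (hI : I.Nonempty) (F φ : ι → ℝ) (L : ℝ) (hL : 1 ≤ L)
    (hF0 : ∀ i ∈ I, 0 ≤ F i) (hF1 : ∀ i ∈ I, F i ≤ Real.exp L)
    (h1 : ∀ i ∈ I, F i - 1 ≤ φ i) (h2 : ∀ i ∈ I, φ i ≤ F i - 1 + 1 / 100)
    (hmom : ∀ j : ℕ, 0 ≤ ∑ i ∈ I, φ i ^ j)
    (hp : ∀ p : ℕ, Even p →
      Real.exp (-L) * (98 / 100) ^ p * (I.card : ℝ) ≤ ∑ i ∈ I, φ i ^ p) :
    ∃ (p : ℕ) (R : ℝ), (p : ℝ) ≤ 10 ^ 6 * L ∧ 7 / 5 ≤ R ∧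
      (I.card : ℝ) ≤ ∑ i ∈ I, F i ^ p ∧
      ∑ i ∈ I, F i ^ p * (F i - R) ^ 2 ≤ (1 / 10 ^ 5) * R ^ 2 * ∑ i ∈ I, F i ^ p := by
  have hn : (0:ℝ) < I.card := by exact_mod_cast hI.card_pos
  obtain ⟨k, hk⟩ : ∃ k : ℕ, k = ⌈4 * L⌉₊ := ⟨_, rfl⟩
  have hk1 : 4 * L ≤ k := by rw [hk]; exact Nat.le_ceil _
  have hk2 : (k:ℝ) < 4 * L + 1 := by rw [hk]; exact Nat.ceil_lt_add_one (by linarith)
  have hk4 : 4 ≤ k := by
    have : (4:ℝ) ≤ k := by linarith
    exact_mod_cast this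
  have hA := stepA I F φ L hF0 h1 h2 hmom (2 * k) (by omega) (by push_cast; linarith)
    (hp (2 * k) (even_two_mul k))
  obtain ⟨M, hM⟩ : ∃ M : ℕ → ℝ, M = fun j => ∑ i ∈ I, F i ^ j := ⟨_, rfl⟩
  have hMj : ∀ j, M j = ∑ i ∈ I, F i ^ j := fun j => by rw [hM]
  -- positivity
  have hMpos : ∀ j, 0 < M j := by
    have hbig : 0 < M (2 * (2 * k)) := by
      rw [hMj]
      exact lt_of_lt_of_le (by positivity) hA
    have hex : ∃ i ∈ I, 0 < F i := by
      by_contra hcon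
      push Not at hcon
      have : M (2 * (2 * k)) ≤ 0 := by
        rw [hMj]
        apply Finset.sum_nonpos
        intro i hi
        have h0 : F i = 0 := le_antisymm (hcon i hi) (hF0 i hi)
        rw [h0, zero_pow (by omega)]
      linarith
    obtain ⟨i, hi, hpos⟩ := hex
    intro j
    rw [hMj]
    exact Finset.sum_pos' (fun i hi => pow_nonneg (hF0 i hi) _) ⟨i, hi, pow_pos hpos _⟩
  obtain ⟨r, hr⟩ : ∃ r : ℕ → ℝ, r = fun j => M (j + 1) / M j := ⟨_, rfl⟩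
  have hrj : ∀ j, M (j + 1) = r j * M j := by
    intro j
    rw [hr]
    field_simp [(hMpos j).ne']
  have hrpos : ∀ j, 0 < r j := fun j => by
    rw [hr]
    exact div_pos (hMpos _) (hMpos _)
  have hrmono : Monotone r := by
    apply monotone_nat_of_le_succ
    intro j
    have hlc := logconvex I F hF0 j
    rw [← hMj, ← hMj, ← hMj] at hlc
    rw [hr]
    show M (j + 1) / M j ≤ M (j + 1 + 1) / M (j + 1)
    rw [div_le_div_iff₀ (hMpos _) (hMpos _)]
    nlinarith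
  have hrle : ∀ j, r j ≤ Real.exp L := by
    intro j
    rw [hr]
    show M (j + 1) / M j ≤ Real.exp L
    rw [div_le_iff₀ (hMpos _), hMj, hMj, Finset.mul_sum]
    apply Finset.sum_le_sum
    intro i hi
    rw [pow_succ, mul_comm]
    exact mul_le_mul_of_nonneg_right (hF1 i hi) (pow_nonneg (hF0 i hi) _)
  obtain ⟨P, hP⟩ : ∃ P : ℕ, P = 2 * (2 * k) := ⟨_, rfl⟩
  rw [← hP, ← hMj] at hA
  have hM0 : M 0 = I.card := by rw [hMj]; simp
  have hMle : ∀ j, j ≤ P → M j ≤ I.card * r P ^ j := by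
    intro j
    induction j with
    | zero => intro _; rw [hM0]; simp
    | succ j ih =>
      intro hj
      have h3 := ih (by omega)
      rw [hrj, pow_succ]
      calc r j * M j ≤ r P * (I.card * r P ^ j) :=
            mul_le_mul (hrmono (by omega)) h3 (hMpos _).le (hrpos _).le
        _ = _ := by ring
  have hr2 : 7 / 5 ≤ r P := by
    have h3 := hA.trans (hMle P le_rfl)
    have h4 : (2:ℝ) ^ (2 * k) ≤ (r P ^ 2) ^ (2 * k) := by
      rw [← pow_mul, ← hP]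
      have h5 : (I.card : ℝ) * 2 ^ (2 * k) ≤ I.card * r P ^ P := by linarith
      exact le_of_mul_le_mul_left h5 hn
    have h6 : (2:ℝ) ≤ r P ^ 2 := by
      by_contra hcon
      push Not at hcon
      have := pow_lt_pow_left₀ hcon (by positivity) (show 2 * k ≠ 0 by omega)
      linarith
    by_contra hcon
    push Not at hcon
    have := hrpos P
    nlinarith
  obtain ⟨J, hJ⟩ : ∃ J : ℕ, J = ⌈2 * 10 ^ 5 * L⌉₊ := ⟨_, rfl⟩
  have hJ1 : 2 * 10 ^ 5 * L ≤ J := by rw [hJ]; exact Nat.le_ceil _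
  have hJ2 : (J:ℝ) < 2 * 10 ^ 5 * L + 1 := by rw [hJ]; exact Nat.ceil_lt_add_one (by positivity)
  have hex : ∃ j, j ≤ J ∧ r (P + j + 1) ≤ (1 + 1 / 10 ^ 5) * r (P + j) := by
    by_contra hcon
    push Not at hcon
    have hgrow : ∀ j, j ≤ J → (1 + 1 / 10 ^ 5) ^ j * (7 / 5) ≤ r (P + j) := by
      intro j
      induction j with
      | zero => intro _; simpa using hr2
      | succ j ih =>
        intro hj
        have h3 := ih (by omega)
        have h4 := hcon j (by omega)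
        calc (1 + 1 / 10 ^ 5 : ℝ) ^ (j + 1) * (7 / 5)
            = (1 + 1 / 10 ^ 5) * ((1 + 1 / 10 ^ 5) ^ j * (7 / 5)) := by ring
          _ ≤ (1 + 1 / 10 ^ 5) * r (P + j) := by
              apply mul_le_mul_of_nonneg_left h3 (by positivity)
          _ ≤ r (P + (j + 1)) := h4.le
    have h5 := hgrow J le_rfl
    have h6 := exp_le_pow L J hJ1
    have h7 := hrle (P + J)
    have h8 := Real.exp_pos L
    nlinarith
  obtain ⟨j, hjJ, hj⟩ := hex
  have hge : M P ≤ M (P + j) := by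
    clear hj hjJ
    induction j with
    | zero => exact le_rfl
    | succ j ih =>
      have h3 : M (P + (j + 1)) = r (P + j) * M (P + j) := hrj (P + j)
      rw [h3]
      have h4 : 7 / 5 ≤ r (P + j) := hr2.trans (hrmono (by omega))
      have h5 := hMpos (P + j)
      nlinarith
  refine ⟨P + j, r (P + j), ?_, hr2.trans (hrmono (by omega)), ?_, ?_⟩
  · rw [hP]
    push_cast
    have : (j:ℝ) ≤ J := by exact_mod_cast hjJ
    linarith
  · rw [← hMj]
    refine le_trans ?_ hge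
    refine le_trans ?_ hA
    have : (1:ℝ) ≤ 2 ^ (2 * k) := one_le_pow₀ (by norm_num)
    nlinarith
  · have e : ∑ i ∈ I, F i ^ (P + j) * (F i - r (P + j)) ^ 2 =
        M (P + j + 2) - 2 * r (P + j) * M (P + j + 1) + r (P + j) ^ 2 * M (P + j) := by
      rw [hMj, hMj, hMj, Finset.mul_sum, Finset.mul_sum, ← Finset.sum_sub_distrib,
        ← Finset.sum_add_distrib]
      apply Finset.sum_congr rfl
      intro i _
      ring
    rw [e, ← hMj]
    have h3 : M (P + j + 2) = r (P + j + 1) * (r (P + j) * M (P + j)) := by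
      rw [← hrj]
      exact hrj (P + j + 1)
    rw [h3, hrj (P + j)]
    have h5 := hMpos (P + j)
    have h6 := hrpos (P + j)
    have h7 : r (P + j + 1) * (r (P + j) * M (P + j)) ≤
        ((1 + 1 / 10 ^ 5) * r (P + j)) * (r (P + j) * M (P + j)) :=
      mul_le_mul_of_nonneg_right hj (by positivity)
    nlinarith

end P057
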