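import Vale.Agent.Lib.P057.R.Defs

/-!
P057 module Step1: simultaneous localisation.
-/

set_option autoImplicit false

namespace P057

open Finset

variable {G : Type*} [AddCommGroup G] [DecidableEq G]

namespace Step1

/-- double counting -/
theorem sum_cnt_ge (A B P C : Finset G) (hs : ∀ b ∈ B, ∀ c ∈ C, b - c ∈ P) (x0 : G) :
    cnt A B x0 * C.card ≤ ∑ y ∈ P, cnt A C (x0 + y) := by
  have h1 : ∑ y ∈ P, cnt A C (x0 + y) =
      ∑ c ∈ C, (P.filter (fun y => x0 + y + c ∈ A)).card := by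
    simp only [cnt, Finset.card_filter]
    exact Finset.sum_comm
  rw [h1, mul_comm, ← smul_eq_mul, ← Finset.sum_const]
  refine Finset.sum_le_sum fun c hc => ?_
  refine Finset.card_le_card_of_injOn (fun b => b - c) ?_ ?_
  · intro b hb
    rw [Finset.mem_coe, Finset.mem_filter] at hb
    rw [Finset.mem_coe, Finset.mem_filter]
    refine ⟨hs b hb.1 c hc, ?_⟩
    have e : x0 + (b - c) + c = x0 + b := by abel
    rw [e]
    exact hb.2
  · intro b _ b' _ h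
    exact sub_left_injective h

end Step1

/-- Averaging. For every `a ∈ A` of the form `a = x0 + b` with `b ∈ B` and every `c ∈ B1`,
`x = a - c = x0 + (b - c)` lies in `x0 + P`. Hence
`∑_{x ∈ x0 + P} cnt A B1 x ≥ cnt A B x0 * |B1| ≥ α |B| |B1|` and likewise for `B2`; so
`∑_{x ∈ x0+P} (cnt A B1 x / |B1| + cnt A B2 x / |B2|) ≥ 2 α |B| ≥ 2 α |P| / 1.01`, and some
`x = x0 + y`, `y ∈ P`, has `cnt A B1 x / |B1| + cnt A B2 x / |B2| ≥ 2α/1.01 ≥ 1.9802 α`.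
Since each term is at most `1.02 α`, each term is at least `0.96 α`. -/
theorem step1 (A B P B1 B2 : Finset G) (α : ℝ) (hα : 0 < α)
    (hB : B.Nonempty) (hB1 : B1.Nonempty) (hB2 : B2.Nonempty)
    (hP : (P.card : ℝ) ≤ (101 / 100) * (B.card : ℝ))
    (hs1 : ∀ b ∈ B, ∀ c ∈ B1, b - c ∈ P) (hs2 : ∀ b ∈ B, ∀ c ∈ B2, b - c ∈ P)
    (x0 : G) (hA : α * (B.card : ℝ) ≤ (cnt A B x0 : ℝ))
    (h1 : ∀ x, (cnt A B1 x : ℝ) ≤ (51 / 50) * α * (B1.card : ℝ))
    (h2 : ∀ x, (cnt A B2 x : ℝ) ≤ (51 / 50) * α * (B2.card : ℝ)) :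
    ∃ x, (24 / 25) * α * (B1.card : ℝ) ≤ (cnt A B1 x : ℝ) ∧
      (24 / 25) * α * (B2.card : ℝ) ≤ (cnt A B2 x : ℝ) := by
  have hc0 : ∀ {C : Finset G}, C.Nonempty → (0 : ℝ) < C.card := fun h => by
    exact_mod_cast h.card_pos
  have hB0 := hc0 hB
  have hB10 := hc0 hB1
  have hB20 := hc0 hB2
  -- both averages
  have key : ∀ C : Finset G, C.Nonempty → (∀ b ∈ B, ∀ c ∈ C, b - c ∈ P) →
      (cnt A B x0 : ℝ) ≤ ∑ y ∈ P, (cnt A C (x0 + y) : ℝ) / (C.card : ℝ) := by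
    intro C hC hs
    rw [← Finset.sum_div, le_div_iff₀ (hc0 hC)]
    exact_mod_cast Step1.sum_cnt_ge A B P C hs x0
  have k1 := key B1 hB1 hs1
  have k2 := key B2 hB2 hs2
  have hPne : P.Nonempty := by
    obtain ⟨b, hb⟩ := hB
    obtain ⟨c, hc⟩ := hB1
    exact ⟨_, hs1 b hb c hc⟩
  have hP0 := hc0 hPne
  obtain ⟨y, -, hy⟩ : ∃ y ∈ P, (198 / 100) * α ≤
      (cnt A B1 (x0 + y) : ℝ) / (B1.card : ℝ) + (cnt A B2 (x0 + y) : ℝ) / (B2.card : ℝ) := by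
    by_contra hcon
    push Not at hcon
    have h3 := Finset.sum_lt_sum_of_nonempty hPne hcon
    rw [Finset.sum_add_distrib, Finset.sum_const, nsmul_eq_mul] at h3
    nlinarith [mul_le_mul_of_nonneg_left hP hα.le]
  have t1 : (cnt A B1 (x0 + y) : ℝ) / (B1.card : ℝ) ≤ (51 / 50) * α := by
    rw [div_le_iff₀ hB10]
    exact h1 _
  have t2 : (cnt A B2 (x0 + y) : ℝ) / (B2.card : ℝ) ≤ (51 / 50) * α := by
    rw [div_le_iff₀ hB20]
    exact h2 _
  refine ⟨x0 + y, ?_, ?_⟩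
  · rw [← le_div_iff₀ hB10]
    linarith
  · rw [← le_div_iff₀ hB20]
    linarith

end P057
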