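import Vale.Agent.Lib.P057.R.Core
import Vale.Agent.Lib.P057.R.Step1
import Vale.Agent.Lib.P057.R.MomLower
import Vale.Agent.Lib.P057.R.Moments

set_option autoImplicit false

namespace P057

open Finset

variable {q : ℕ} [NeZero q]

theorem moment_step (hq : Odd q) (L : ℝ) (hL : 1 ≤ L) (Γ : Finset (ZMod q))
    (ρ1 η1 ρ2 η2 ρ3 : ℝ) (hρ1 : 0 ≤ ρ1) (hη1 : 0 ≤ η1) (hρ2 : 0 ≤ ρ2) (hη2 : 0 ≤ η2)
    (hρ3 : 0 ≤ ρ3) (h21 : 2 * ρ2 ≤ η1) (h31 : 4 * ρ3 ≤ η1) (h32 : 2 * ρ3 ≤ η2)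
    (A Y : Finset (ZMod q)) (hAB : A ⊆ bohr Γ ρ1) (hA : A.Nonempty) (a : ℝ)
    (ha : a = (A.card : ℝ) / ((bohr Γ ρ1).card : ℝ)) (haL : Real.exp (-L) ≤ a)
    (hP : ((bohr Γ (ρ1 + η1)).card : ℝ) ≤ (101 / 100) * ((bohr Γ ρ1).card : ℝ))
    (hY : Y ⊆ bohr (half Γ) ρ2) (hw : ∀ w ∈ Y, (A.filter (fun y => w - y ∈ A)).card ≤ 1)
    (hQ : Real.exp (-L) * ((bohr (half Γ) (ρ2 + η2)).card : ℝ) ≤ (Y.card : ℝ))
    (hbig : 1 ≤ (1 / 100) * (a * A.card)) :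
    ∃ (p : ℕ) (R : ℝ), (p : ℝ) ≤ 10 ^ 6 * L ∧ 7 / 5 ≤ R ∧
      ((bohr (half Γ) ρ3).card : ℝ) ^ 2 ≤
        ∑ c ∈ bohr (half Γ) ρ3, ∑ c' ∈ bohr (half Γ) ρ3,
          ((corr A (c - c') : ℝ) / (a * A.card)) ^ p ∧
      ∑ c ∈ bohr (half Γ) ρ3, ∑ c' ∈ bohr (half Γ) ρ3,
          ((corr A (c - c') : ℝ) / (a * A.card)) ^ p *
            ((corr A (c - c') : ℝ) / (a * A.card) - R) ^ 2 ≤
        (1 / 10 ^ 5) * R ^ 2 *
          ∑ c ∈ bohr (half Γ) ρ3, ∑ c' ∈ bohr (half Γ) ρ3,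
            ((corr A (c - c') : ℝ) / (a * A.card)) ^ p := by
  have hCne : (bohr (half Γ) ρ3).Nonempty := Finset.card_pos.mp (card_bohr_pos _ _ hρ3)
  have hBpos : (0:ℝ) < (bohr Γ ρ1).card := by exact_mod_cast card_bohr_pos _ _ hρ1
  have hQpos : (0:ℝ) < (bohr (half Γ) (ρ2 + η2)).card := by
    exact_mod_cast card_bohr_pos _ _ (by linarith)
  have hApos : (0:ℝ) < A.card := by exact_mod_cast hA.card_pos
  have ha0 : 0 < a := lt_of_lt_of_le (Real.exp_pos _) haL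
  have hN : 0 < a * A.card := by positivity
  have hBP : bohr Γ ρ1 ⊆ bohr Γ (ρ1 + η1) := bohr_mono _ _ _ (by linarith)
  have hP' : ((bohr Γ (ρ1 + η1)).card : ℝ) ≤ (1 + 1 / 100) * ((bohr Γ ρ1).card : ℝ) := by
    linarith
  have hdiff : ∀ c ∈ bohr (half Γ) ρ3, ∀ c' ∈ bohr (half Γ) ρ3, ∀ b ∈ bohr Γ ρ1,
      b + (c - c') ∈ bohr Γ (ρ1 + η1) := by
    intro c hc c' hc' b hb
    have h1 : c - c' ∈ bohr (half Γ) (ρ3 + ρ3) := sub_mem_bohr _ _ _ _ _ hc hc'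
    have h2 : c - c' ∈ bohr Γ (2 * (ρ3 + ρ3)) := bohr_half_subset hq _ _ h1
    have h3 : c - c' ∈ bohr Γ η1 := bohr_mono _ _ _ (by linarith) h2
    exact add_mem_bohr _ _ _ _ _ hb h3
  have key : ∀ c ∈ bohr (half Γ) ρ3, ∀ c' ∈ bohr (half Γ) ρ3,
      (corr A (c - c') : ℝ) / (a * A.card) - 1 ≤
        (∑ y, bal A (bohr Γ (ρ1 + η1)) a (y + c) * bal A (bohr Γ (ρ1 + η1)) a (y + c')) /
          (a * A.card) ∧
      (∑ y, bal A (bohr Γ (ρ1 + η1)) a (y + c) * bal A (bohr Γ (ρ1 + η1)) a (y + c')) /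
          (a * A.card) ≤
        (corr A (c - c') : ℝ) / (a * A.card) - 1 + 1 / 100 := by
    intro c hc c' hc'
    exact bal_corr A (bohr Γ ρ1) (bohr Γ (ρ1 + η1)) a (1 / 100) hAB hA ha hBP hP' c c'
      (hdiff c hc c' hc') (hdiff c' hc' c hc)
  obtain ⟨p, R, hp, hR, h1, h2⟩ := moments (bohr (half Γ) ρ3 ×ˢ bohr (half Γ) ρ3)
    (hCne.product hCne)
    (fun i => (corr A (i.1 - i.2) : ℝ) / (a * A.card))
    (fun i => (∑ y, bal A (bohr Γ (ρ1 + η1)) a (y + i.1) * bal A (bohr Γ (ρ1 + η1)) a (y + i.2)) /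
          (a * A.card)) L hL
    (by
      intro i _
      positivity)
    (by
      intro i _
      have hc : (corr A (i.1 - i.2) : ℝ) ≤ A.card := by
        unfold corr
        exact_mod_cast Finset.card_filter_le _ _
      show (corr A (i.1 - i.2) : ℝ) / (a * A.card) ≤ Real.exp L
      rw [div_le_iff₀ hN]
      have h3 : 1 ≤ Real.exp L * a := by
        calc (1:ℝ) = Real.exp L * Real.exp (-L) := by
              rw [← Real.exp_add]; simp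
          _ ≤ Real.exp L * a := by
              apply mul_le_mul_of_nonneg_left haL (Real.exp_pos _).le
      calc (corr A (i.1 - i.2) : ℝ) ≤ 1 * A.card := by linarith
        _ ≤ (Real.exp L * a) * A.card := by
            apply mul_le_mul_of_nonneg_right h3 hApos.le
        _ = _ := by ring)
    (by
      intro i hi
      obtain ⟨hi1, hi2⟩ := Finset.mem_product.mp hi
      exact (key i.1 hi1 i.2 hi2).1)
    (by
      intro i hi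
      obtain ⟨hi1, hi2⟩ := Finset.mem_product.mp hi
      exact (key i.1 hi1 i.2 hi2).2)
    (by
      intro j
      rw [Finset.sum_product]
      have h := moment_nonneg (bal A (bohr Γ (ρ1 + η1)) a) (bohr (half Γ) ρ3) j
      have h2 : ∑ x ∈ bohr (half Γ) ρ3, ∑ y ∈ bohr (half Γ) ρ3,
          ((∑ y_1, bal A (bohr Γ (ρ1 + η1)) a (y_1 + x) * bal A (bohr Γ (ρ1 + η1)) a (y_1 + y)) /
          (a * A.card)) ^ j = (∑ x ∈ bohr (half Γ) ρ3, ∑ y ∈ bohr (half Γ) ρ3,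
          (∑ y_1, bal A (bohr Γ (ρ1 + η1)) a (y_1 + x) *
            bal A (bohr Γ (ρ1 + η1)) a (y_1 + y)) ^ j) / (a * A.card) ^ j := by
        simp_rw [div_pow, Finset.sum_div]
      show 0 ≤ ∑ x ∈ bohr (half Γ) ρ3, ∑ y ∈ bohr (half Γ) ρ3,
          ((∑ y_1, bal A (bohr Γ (ρ1 + η1)) a (y_1 + x) * bal A (bohr Γ (ρ1 + η1)) a (y_1 + y)) /
          (a * A.card)) ^ j
      rw [h2]
      positivity)
    (by
      intro j hj
      rw [Finset.sum_product, Finset.card_product]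
      have h := moment_lower A (bohr Γ ρ1) (bohr Γ (ρ1 + η1)) Y (bohr (half Γ) (ρ2 + η2))
        (bohr (half Γ) ρ3) a (1 / 100) (by norm_num) (by norm_num) hAB hA ha hP'
        (by
          intro w hw' b hb
          have h1 : w ∈ bohr Γ (2 * ρ2) := bohr_half_subset hq _ _ (hY hw')
          have h2 : w ∈ bohr Γ η1 := bohr_mono _ _ _ h21 h1
          have h3 := sub_mem_bohr _ _ _ _ _ h2 hb
          rwa [add_comm] at h3)
        hw hbig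
        (by
          intro w hw' c hc c' hc'
          have h1 : w - c ∈ bohr (half Γ) (ρ2 + ρ3) := sub_mem_bohr _ _ _ _ _ (hY hw') hc
          have h2 : w - c + c' ∈ bohr (half Γ) (ρ2 + ρ3 + ρ3) := add_mem_bohr _ _ _ _ _ h1 hc'
          exact bohr_mono _ _ _ (by linarith) h2)
        j hj
      have h98 : (1 - 2 * (1 / 100 : ℝ)) = 98 / 100 := by norm_num
      rw [h98] at h
      push_cast
      set S := ∑ c ∈ bohr (half Γ) ρ3, ∑ c' ∈ bohr (half Γ) ρ3,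
        ((∑ y, bal A (bohr Γ (ρ1 + η1)) a (y + c) * bal A (bohr Γ (ρ1 + η1)) a (y + c')) /
          (a * A.card)) ^ j with hS
      have h4 : ((bohr (half Γ) (ρ2 + η2)).card : ℝ) *
          (Real.exp (-L) * (98 / 100) ^ j *
            (((bohr (half Γ) ρ3).card : ℝ) * ((bohr (half Γ) ρ3).card : ℝ))) ≤
          ((bohr (half Γ) (ρ2 + η2)).card : ℝ) * S := by
        refine le_trans ?_ h
        calc ((bohr (half Γ) (ρ2 + η2)).card : ℝ) *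
          (Real.exp (-L) * (98 / 100) ^ j *
            (((bohr (half Γ) ρ3).card : ℝ) * ((bohr (half Γ) ρ3).card : ℝ)))
            = (Real.exp (-L) * ((bohr (half Γ) (ρ2 + η2)).card : ℝ)) *
              (((bohr (half Γ) ρ3).card : ℝ) ^ 2 * (98 / 100) ^ j) := by ring
          _ ≤ (Y.card : ℝ) * (((bohr (half Γ) ρ3).card : ℝ) ^ 2 * (98 / 100) ^ j) := by
              apply mul_le_mul_of_nonneg_right hQ (by positivity)
          _ = _ := by ring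
      exact le_of_mul_le_mul_left h4 hQpos)
  refine ⟨p, R, hp, hR, ?_, ?_⟩
  · rw [Finset.sum_product, Finset.card_product] at h1
    push_cast at h1
    rw [sq]
    exact h1
  · rw [Finset.sum_product, Finset.sum_product] at h2
    exact h2


/-- choice of the radii -/
theorem inc_radii (L M : ℝ) (hL : 1 ≤ L) (hLM : 10 ^ 20 * L ^ 4 ≤ M) (Γ : Finset (ZMod q))
    (hΓ : (Γ.card : ℝ) ≤ M) (η : ℝ) (hη : 0 < η) (hη1 : η ≤ 1) :
    ∃ ρ1 η1 ρ2 η2 ρ3 η3 : ℝ, η / 2 ≤ ρ1 ∧ ρ1 ≤ η ∧ η1 = η / (1600 * M ^ 1) ∧ 0 < η1 ∧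
      η1 ≤ η / 1600 ∧
      ((bohr Γ (ρ1 + η1)).card : ℝ) ≤ (1 + 1 / 100) * ((bohr Γ ρ1).card : ℝ) ∧
      0 < ρ2 ∧ ρ2 ≤ η1 / 2 ∧ η2 = η / (5120000 * M ^ 2) ∧ 0 < η2 ∧ η2 ≤ η1 / 3200 ∧
      ((bohr Γ (ρ2 + η2)).card : ℝ) ≤ (1 + 1 / 100) * ((bohr Γ ρ2).card : ℝ) ∧
      0 < ρ3 ∧ ρ3 ≤ η2 / 2 ∧ η3 = η / (163840000 * M ^ 3) ∧ 0 < η3 ∧ η3 ≤ 1 ∧
      ((bohr (half Γ) (ρ3 + η3)).card : ℝ) ≤ (1 + 1) * ((bohr (half Γ) ρ3).card : ℝ) := by
  have hL4 : (1 : ℝ) ≤ L ^ 4 := one_le_pow₀ hL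
  have hM1 : 1 ≤ M := by linarith [show (1:ℝ) ≤ 10 ^ 20 by norm_num]
  have hM0 : 0 < M := by linarith
  obtain ⟨ρ1, hρ1a, hρ1b, hreg1⟩ := bohr_regular Γ M hM1 hΓ η hη (1 / 100) (by norm_num)
    (by norm_num)
  obtain ⟨η1, hη1def⟩ : ∃ t : ℝ, t = 1 / 100 * η / (16 * M) := ⟨_, rfl⟩
  rw [← hη1def] at hreg1
  have hη1eq : η1 = η / (1600 * M ^ 1) := by
    rw [hη1def]; field_simp; norm_num
  have hη1pos : 0 < η1 := by rw [hη1eq]; positivity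
  have hη1le : η1 ≤ η / 1600 := by
    rw [hη1eq]
    apply div_le_div_of_nonneg_left hη.le (by norm_num)
    linarith
  obtain ⟨ρ2, hρ2a, hρ2b, hreg2⟩ := bohr_regular Γ M hM1 hΓ (η1 / 2) (by positivity) (1 / 100)
    (by norm_num) (by norm_num)
  obtain ⟨η2, hη2def⟩ : ∃ t : ℝ, t = 1 / 100 * (η1 / 2) / (16 * M) := ⟨_, rfl⟩
  rw [← hη2def] at hreg2
  have hη2eq : η2 = η / (5120000 * M ^ 2) := by
    rw [hη2def, hη1eq]; field_simp; norm_num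
  have hη2eq' : η2 = η1 / (3200 * M) := by
    rw [hη2def]; field_simp; norm_num
  have hη2pos : 0 < η2 := by rw [hη2eq]; positivity
  have hη2le : η2 ≤ η1 / 3200 := by
    rw [hη2eq']
    apply div_le_div_of_nonneg_left hη1pos.le (by norm_num)
    linarith
  have hΓ2 : ((half Γ).card : ℝ) ≤ M := le_trans (by exact_mod_cast half_card_le Γ) hΓ
  obtain ⟨ρ3, hρ3a, hρ3b, hreg3⟩ := bohr_regular (half Γ) M hM1 hΓ2 (η2 / 2) (by positivity) 1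
    one_pos le_rfl
  obtain ⟨η3, hη3def⟩ : ∃ t : ℝ, t = 1 * (η2 / 2) / (16 * M) := ⟨_, rfl⟩
  rw [← hη3def] at hreg3
  have hη3eq : η3 = η / (163840000 * M ^ 3) := by
    rw [hη3def, hη2eq]; field_simp; norm_num
  have hη3pos : 0 < η3 := by rw [hη3eq]; positivity
  have hη3le : η3 ≤ 1 := by
    rw [hη3eq, div_le_one (by positivity)]
    have : (1:ℝ) ≤ M ^ 3 := one_le_pow₀ hM1
    linarith
  exact ⟨ρ1, η1, ρ2, η2, ρ3, η3, hρ1a, hρ1b, hη1eq, hη1pos, hη1le, hreg1, by linarith, hρ2b,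
    hη2eq, hη2pos, hη2le, hreg2, by linarith, hρ3b, hη3eq, hη3pos, hη3le, hreg3⟩

/-- localised set: passing to a Bohr set where `A` and its halves are dense -/
theorem inc_local (hq : Odd q) (A : Finset (ZMod q)) (h3 : AP3Free A) (L M α : ℝ) (hL : 1 ≤ L)
    (hLM : 10 ^ 20 * L ^ 4 ≤ M) (hα : 2 * Real.exp (-L) ≤ α) (Γ : Finset (ZMod q))
    (hΓ : (Γ.card : ℝ) ≤ M) (ρ1 η1 ρ2 η2 ρ3 η3 : ℝ) (hρ1pos : 0 < ρ1) (hη1pos : 0 < η1)
    (hreg1 : ((bohr Γ (ρ1 + η1)).card : ℝ) ≤ (1 + 1 / 100) * ((bohr Γ ρ1).card : ℝ))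
    (hρ2pos : 0 < ρ2) (hρ2b : ρ2 ≤ η1 / 2) (hη2pos : 0 < η2) (hη2le : η2 ≤ η1 / 3200)
    (hreg2 : ((bohr Γ (ρ2 + η2)).card : ℝ) ≤ (1 + 1 / 100) * ((bohr Γ ρ2).card : ℝ))
    (hρ3pos : 0 < ρ3) (hρ3b : ρ3 ≤ η2 / 2) (hη3pos : 0 < η3) (hη3le : η3 ≤ 1)
    (hreg3 : ((bohr (half Γ) (ρ3 + η3)).card : ℝ) ≤ (1 + 1) * ((bohr (half Γ) ρ3).card : ℝ))
    (hsize : 200 ≤ α ^ 2 * ((bohr Γ ρ1).card : ℝ)) (x : ZMod q)
    (hx1 : (24 / 25) * α * ((bohr Γ ρ1).card : ℝ) ≤ (cnt A (bohr Γ ρ1) x : ℝ))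
    (hx2 : (24 / 25) * α * ((bohr Γ ρ2).card : ℝ) ≤ (cnt A (bohr Γ ρ2) x : ℝ)) :
    ∃ Λ : Finset (ZMod q), (Λ.card : ℝ) ≤ 10 ^ 20 * L ^ 4 ∧
      ∀ r : ℝ, 0 ≤ r → r ≤ η3 / (10 ^ 6 * M ^ 3) →
        ∃ z : ZMod q, (51 / 50) * α * ((bohr (half Γ ∪ Λ) r).card : ℝ) ≤
          (cnt A (bohr (half Γ ∪ Λ) r) z : ℝ) := by
  have hα0 : 0 < α := lt_of_lt_of_le (by positivity) hα
  have hΓ2 : ((half Γ).card : ℝ) ≤ M := le_trans (by exact_mod_cast half_card_le Γ) hΓ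
  obtain ⟨A1, hA1⟩ : ∃ s : Finset (ZMod q), s = (bohr Γ ρ1).filter (fun b => x + b ∈ A) :=
    ⟨_, rfl⟩
  obtain ⟨A2, hA2⟩ : ∃ s : Finset (ZMod q), s = (bohr Γ ρ2).filter (fun b => x + b ∈ A) :=
    ⟨_, rfl⟩
  have hA1c : A1.card = cnt A (bohr Γ ρ1) x := by rw [hA1]; rfl
  have hA2c : A2.card = cnt A (bohr Γ ρ2) x := by rw [hA2]; rfl
  have hB1pos : (0:ℝ) < (bohr Γ ρ1).card := by exact_mod_cast card_bohr_pos _ _ hρ1pos.le
  have hB2pos : (0:ℝ) < (bohr Γ ρ2).card := by exact_mod_cast card_bohr_pos _ _ hρ2pos.le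
  rw [← hA1c] at hx1
  rw [← hA2c] at hx2
  have hA1pos : (0:ℝ) < A1.card := lt_of_lt_of_le (by positivity) hx1
  have hA1ne : A1.Nonempty := Finset.card_pos.mp (by exact_mod_cast hA1pos)
  have hA1B : A1 ⊆ bohr Γ ρ1 := by rw [hA1]; exact Finset.filter_subset _ _
  obtain ⟨a, ha⟩ : ∃ t : ℝ, t = (A1.card : ℝ) / ((bohr Γ ρ1).card : ℝ) := ⟨_, rfl⟩
  have ha96 : (24 / 25) * α ≤ a := by
    rw [ha, le_div_iff₀ hB1pos]
    exact hx1
  have haL : Real.exp (-L) ≤ a := by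
    have := Real.exp_pos (-L)
    linarith
  have ha1 : a ≤ 1 := by
    rw [ha, div_le_one hB1pos]
    exact_mod_cast Finset.card_le_card hA1B
  have ha0 : 0 < a := lt_of_lt_of_le (Real.exp_pos _) haL
  obtain ⟨Y, hY⟩ : ∃ s : Finset (ZMod q), s = A2.image (fun y => y + y) := ⟨_, rfl⟩
  have hYc : Y.card = A2.card := by
    rw [hY]
    apply Finset.card_image_of_injective
    intro u v huv
    exact double_inj hq u v huv
  have hYsub : Y ⊆ bohr (half Γ) ρ2 := by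
    intro w hw
    rw [hY, Finset.mem_image] at hw
    obtain ⟨y, hy, rfl⟩ := hw
    apply double_mem_bohr_half hq
    rw [hA2] at hy
    exact (Finset.mem_filter.mp hy).1
  have hYw : ∀ w ∈ Y, (A1.filter (fun y => w - y ∈ A1)).card ≤ 1 := by
    intro w hw
    rw [hY, Finset.mem_image] at hw
    obtain ⟨y0, hy0, rfl⟩ := hw
    rw [hA2] at hy0
    have hy0A := (Finset.mem_filter.mp hy0).2
    rw [Finset.card_le_one]
    have haux : ∀ y ∈ A1.filter (fun y => y0 + y0 - y ∈ A1), y = y0 := by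
      intro y hy
      obtain ⟨hy1, hy2⟩ := Finset.mem_filter.mp hy
      rw [hA1] at hy1 hy2
      have h1 := (Finset.mem_filter.mp hy1).2
      have h2 := (Finset.mem_filter.mp hy2).2
      have h4 := h3 (x + y) h1 (x + (y0 + y0 - y)) h2 (x + y0) hy0A (by ring)
      exact add_left_cancel h4
    intro u hu v hv
    rw [haux u hu, haux v hv]
  have hQ : Real.exp (-L) * ((bohr (half Γ) (ρ2 + η2)).card : ℝ) ≤ (Y.card : ℝ) := by
    rw [card_bohr_half hq, hYc]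
    have hexp : Real.exp (-L) ≤ α / 2 := by linarith
    calc Real.exp (-L) * ((bohr Γ (ρ2 + η2)).card : ℝ)
        ≤ (α / 2) * ((1 + 1 / 100) * ((bohr Γ ρ2).card : ℝ)) := by
          apply mul_le_mul hexp hreg2 (by positivity) (by positivity)
      _ ≤ (24 / 25) * α * ((bohr Γ ρ2).card : ℝ) := by
          have := mul_pos hα0 hB2pos
          linarith
      _ ≤ A2.card := hx2
  have hbig : 1 ≤ (1 / 100) * (a * A1.card) := by
    have h6 : (24 / 25) * α * ((24 / 25) * α * ((bohr Γ ρ1).card : ℝ)) ≤ a * A1.card := by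
      apply mul_le_mul ha96 hx1 (by positivity) ha0.le
    have h7 : (24 / 25) * α * ((24 / 25) * α * ((bohr Γ ρ1).card : ℝ)) =
      (576 / 625) * (α ^ 2 * ((bohr Γ ρ1).card : ℝ)) := by ring
    linarith
  obtain ⟨p, R, hp, hR, hm1, hm2⟩ := moment_step hq L hL Γ ρ1 η1 ρ2 η2 ρ3 hρ1pos.le hη1pos.le
    hρ2pos.le hη2pos.le hρ3pos.le (by linarith) (by linarith) (by linarith) A1 Y hA1B hA1ne a ha
    haL (by linarith) hYsub hYw hQ hbig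
  obtain ⟨Λ, hΛ, hcore⟩ := core L M a ρ3 η3 hL haL ha1 hLM (half Γ) hΓ2 hρ3pos.le hη3pos hη3le
    (by linarith) A1 hA1ne p R hp hR hm1 hm2
  refine ⟨Λ, hΛ, ?_⟩
  intro r hr0 hr
  obtain ⟨z, hz⟩ := hcore r hr0 hr
  refine ⟨x + z, ?_⟩
  have hle : (cnt A1 (bohr (half Γ ∪ Λ) r) z : ℝ) ≤ (cnt A (bohr (half Γ ∪ Λ) r) (x + z) : ℝ) := by
    have : cnt A1 (bohr (half Γ ∪ Λ) r) z ≤ cnt A (bohr (half Γ ∪ Λ) r) (x + z) := by
      unfold cnt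
      apply Finset.card_le_card
      intro b hb
      obtain ⟨hb1, hb2⟩ := Finset.mem_filter.mp hb
      rw [Finset.mem_filter]
      refine ⟨hb1, ?_⟩
      rw [hA1] at hb2
      have := (Finset.mem_filter.mp hb2).2
      rwa [← add_assoc] at this
    exact_mod_cast this
  refine le_trans ?_ (hz.trans hle)
  apply mul_le_mul_of_nonneg_right _ (by positivity)
  linarith

theorem increment (hq : Odd q) (A : Finset (ZMod q)) (h3 : AP3Free A) (L M α : ℝ) (hL : 1 ≤ L)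
    (hLM : 10 ^ 20 * L ^ 4 ≤ M) (hα : 2 * Real.exp (-L) ≤ α) (Γ : Finset (ZMod q))
    (hΓ : (Γ.card : ℝ) ≤ M) (ρ η : ℝ) (hρ : 0 ≤ ρ) (hη : 0 < η) (hη1 : η ≤ 1)
    (hreg : ((bohr Γ (ρ + η)).card : ℝ) ≤ (101 / 100) * ((bohr Γ ρ).card : ℝ))
    (x0 : ZMod q) (hd : α * ((bohr Γ ρ).card : ℝ) ≤ (cnt A (bohr Γ ρ) x0 : ℝ))
    (hsize : 200 ≤ α ^ 2 * ((bohr Γ (η / 2)).card : ℝ)) :
    ∃ (Γ' : Finset (ZMod q)) (ρ' η' : ℝ) (x' : ZMod q),
      (Γ'.card : ℝ) ≤ (Γ.card : ℝ) + 10 ^ 20 * L ^ 4 ∧ 0 ≤ ρ' ∧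
      η / (10 ^ 20 * M ^ 7) ≤ η' ∧ η' ≤ 1 ∧
      ((bohr Γ' (ρ' + η')).card : ℝ) ≤ (101 / 100) * ((bohr Γ' ρ').card : ℝ) ∧
      (51 / 50) * α * ((bohr Γ' ρ').card : ℝ) ≤ (cnt A (bohr Γ' ρ') x' : ℝ) := by
  have hL4 : (1 : ℝ) ≤ L ^ 4 := one_le_pow₀ hL
  have hM1 : 1 ≤ M := by linarith [show (1:ℝ) ≤ 10 ^ 20 by norm_num]
  have hM0 : 0 < M := by linarith
  have hα0 : 0 < α := lt_of_lt_of_le (by positivity) hα
  have hbigge : ∀ (K : ℝ) (k : ℕ), 0 < K → K ≤ 10 ^ 20 → k ≤ 7 →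
      η / (10 ^ 20 * M ^ 7) ≤ η / (K * M ^ k) := by
    intro K k hK0 hK hk
    apply div_le_div_of_nonneg_left hη.le (by positivity)
    apply mul_le_mul hK (pow_le_pow_right₀ hM1 hk) (by positivity) (by positivity)
  obtain ⟨ρ1, η1, ρ2, η2, ρ3, η3, hρ1a, hρ1b, hη1eq, hη1pos, hη1le, hreg1, hρ2pos, hρ2b,
    hη2eq, hη2pos, hη2le, hreg2, hρ3pos, hρ3b, hη3eq, hη3pos, hη3le, hreg3⟩ :=
    inc_radii L M hL hLM Γ hΓ η hη hη1
  have hρ1pos : 0 < ρ1 := by linarith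
  by_cases hc1 : ∀ x, (cnt A (bohr Γ ρ1) x : ℝ) ≤ (51 / 50) * α * ((bohr Γ ρ1).card : ℝ)
  swap
  · push Not at hc1
    obtain ⟨x, hx⟩ := hc1
    refine ⟨Γ, ρ1, η1, x, by linarith, hρ1pos.le, ?_, by linarith, by linarith, hx.le⟩
    rw [hη1eq]
    exact hbigge 1600 1 (by norm_num) (by norm_num) (by norm_num)
  by_cases hc2 : ∀ x, (cnt A (bohr Γ ρ2) x : ℝ) ≤ (51 / 50) * α * ((bohr Γ ρ2).card : ℝ)
  swap
  · push Not at hc2
    obtain ⟨x, hx⟩ := hc2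
    refine ⟨Γ, ρ2, η2, x, by linarith, hρ2pos.le, ?_, by linarith, by linarith, hx.le⟩
    rw [hη2eq]
    exact hbigge 5120000 2 (by norm_num) (by norm_num) (by norm_num)
  have hne : ∀ (Δ : Finset (ZMod q)) (r : ℝ), 0 ≤ r → (bohr Δ r).Nonempty := fun Δ r hr =>
    Finset.card_pos.mp (card_bohr_pos _ _ hr)
  obtain ⟨x, hx1, hx2⟩ := step1 A (bohr Γ ρ) (bohr Γ (ρ + η)) (bohr Γ ρ1) (bohr Γ ρ2) α hα0
    (hne _ _ hρ) (hne _ _ hρ1pos.le) (hne _ _ hρ2pos.le) hreg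
    (fun b hb c hc => bohr_mono _ _ _ (by linarith) (sub_mem_bohr _ _ _ _ _ hb hc))
    (fun b hb c hc => bohr_mono _ _ _ (by linarith) (sub_mem_bohr _ _ _ _ _ hb hc))
    x0 hd hc1 hc2
  have h5 : (200:ℝ) ≤ α ^ 2 * ((bohr Γ ρ1).card : ℝ) := by
    refine hsize.trans ?_
    apply mul_le_mul_of_nonneg_left _ (by positivity)
    exact_mod_cast Finset.card_le_card (bohr_mono _ _ _ hρ1a)
  obtain ⟨Λ, hΛ, hcore⟩ := inc_local hq A h3 L M α hL hLM hα Γ hΓ ρ1 η1 ρ2 η2 ρ3 η3 hρ1pos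
    hη1pos hreg1 hρ2pos hρ2b hη2pos hη2le hreg2 hρ3pos hρ3b hη3pos hη3le hreg3 h5 x hx1 hx2
  have hcard' : ((half Γ ∪ Λ).card : ℝ) ≤ (Γ.card : ℝ) + 10 ^ 20 * L ^ 4 := by
    have h7 : (half Γ ∪ Λ).card ≤ (half Γ).card + Λ.card := Finset.card_union_le _ _
    have h8 : ((half Γ).card : ℝ) ≤ Γ.card := by exact_mod_cast half_card_le Γ
    have h9 : ((half Γ ∪ Λ).card : ℝ) ≤ (half Γ).card + Λ.card := by exact_mod_cast h7
    linarith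
  obtain ⟨r0, hr0def⟩ : ∃ t : ℝ, t = η3 / (10 ^ 6 * M ^ 3) := ⟨_, rfl⟩
  have hr0pos : 0 < r0 := by rw [hr0def]; positivity
  obtain ⟨r, hra, hrb, hregr⟩ := bohr_regular (half Γ ∪ Λ) (2 * M) (by linarith) (by linarith) r0
    hr0pos (1 / 100) (by norm_num) (by norm_num)
  obtain ⟨η', hη'def⟩ : ∃ t : ℝ, t = 1 / 100 * r0 / (16 * (2 * M)) := ⟨_, rfl⟩
  rw [← hη'def] at hregr
  have hη'eq : η' = η / (524288000000000000 * M ^ 7) := by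
    rw [hη'def, hr0def, hη3eq]; field_simp; norm_num
  have hη'le : η' ≤ 1 := by
    rw [hη'eq, div_le_one (by positivity)]
    have : (1:ℝ) ≤ M ^ 7 := one_le_pow₀ hM1
    linarith
  obtain ⟨z, hz⟩ := hcore r (by linarith) (by rw [← hr0def]; exact hrb)
  refine ⟨half Γ ∪ Λ, r, η', z, hcard', by linarith, ?_, hη'le, by linarith, hz⟩
  rw [hη'eq]
  exact hbigge 524288000000000000 7 (by norm_num) (by norm_num) (by norm_num)

end P057
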