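import Vale.Agent.Lib.P057.R.Increment

/-!
P057 module Iterate: iterating the density increment.
-/

set_option autoImplicit false

namespace P057

open Finset

variable {q : ℕ} [NeZero q]

namespace Iterate

/-- the state after `j` steps -/
def Stage (A : Finset (ZMod q)) (L M : ℝ) (j : ℕ) : Prop :=
  ∃ (Γ : Finset (ZMod q)) (ρ η : ℝ) (x : ZMod q), (Γ.card : ℝ) ≤ j * (10 ^ 20 * L ^ 4) ∧ 0 ≤ ρ ∧
    1 / (10 ^ 20 * M ^ 7) ^ j ≤ η ∧ η ≤ 1 ∧
    ((bohr Γ (ρ + η)).card : ℝ) ≤ (101 / 100) * ((bohr Γ ρ).card : ℝ) ∧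
    (51 / 50) ^ j * (2 * Real.exp (-L)) * ((bohr Γ ρ).card : ℝ) ≤ (cnt A (bohr Γ ρ) x : ℝ)

theorem cnt_univ (A : Finset (ZMod q)) (x : ZMod q) : cnt A Finset.univ x = A.card := by
  rw [cnt]
  refine Finset.card_bij (fun b _ => x + b) ?_ ?_ ?_
  · intro b hb
    exact (Finset.mem_filter.1 hb).2
  · intro b _ b' _ h
    exact add_left_cancel h
  · intro c hc
    exact ⟨c - x, Finset.mem_filter.2 ⟨Finset.mem_univ _, by simpa using hc⟩, by simp⟩

theorem stage_zero (A : Finset (ZMod q)) (L M : ℝ)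
    (hA : 2 * Real.exp (-L) * (q : ℝ) ≤ (A.card : ℝ)) : Stage A L M 0 := by
  refine ⟨∅, 1, 1, 0, ?_, zero_le_one, ?_, le_rfl, ?_, ?_⟩
  · simp
  · simp
  · rw [bohr_empty, bohr_empty]
    have : (0 : ℝ) ≤ ((Finset.univ : Finset (ZMod q)).card : ℝ) := Nat.cast_nonneg _
    linarith
  · rw [bohr_empty, cnt_univ, Finset.card_univ, ZMod.card, pow_zero, one_mul]
    exact hA

theorem log_ge : (1 : ℝ) / 51 ≤ Real.log (51 / 50) := by
  have := Real.one_sub_inv_le_log_of_pos (x := 51 / 50) (by norm_num)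
  norm_num at this ⊢
  linarith

theorem stage_lt (A : Finset (ZMod q)) (L M : ℝ) (j : ℕ) (h : Stage A L M j) :
    (j : ℝ) < 51 * L := by
  obtain ⟨Γ, ρ, η, x, -, hρ, -, -, -, h6⟩ := h
  have hpos : (0 : ℝ) < ((bohr Γ ρ).card : ℝ) := by exact_mod_cast card_bohr_pos Γ ρ hρ
  have hle : (cnt A (bohr Γ ρ) x : ℝ) ≤ ((bohr Γ ρ).card : ℝ) := by
    exact_mod_cast Finset.card_filter_le _ _
  have h7 : (51 / 50 : ℝ) ^ j * (2 * Real.exp (-L)) ≤ 1 := by
    have := h6.trans hle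
    by_contra hcon
    rw [not_le] at hcon
    have := mul_lt_mul_of_pos_right hcon hpos
    linarith
  by_contra hcon
  rw [not_lt] at hcon
  have h8 : Real.exp L ≤ (51 / 50 : ℝ) ^ j := by
    rw [← Real.exp_log (show (0 : ℝ) < 51 / 50 by norm_num), ← Real.exp_nat_mul]
    refine Real.exp_le_exp.2 ?_
    calc L ≤ (j : ℝ) * (1 / 51) := by linarith
      _ ≤ (j : ℝ) * Real.log (51 / 50) := mul_le_mul_of_nonneg_left log_ge (Nat.cast_nonneg _)
  have h9 : Real.exp L * (2 * Real.exp (-L)) = 2 := by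
    rw [mul_left_comm, ← Real.exp_add, add_neg_cancel, Real.exp_zero, mul_one]
  have h10 : Real.exp L * (2 * Real.exp (-L)) ≤ (51 / 50 : ℝ) ^ j * (2 * Real.exp (-L)) :=
    mul_le_mul_of_nonneg_right h8 (by positivity)
  linarith

theorem exists_last (A : Finset (ZMod q)) (L M : ℝ)
    (hA : 2 * Real.exp (-L) * (q : ℝ) ≤ (A.card : ℝ)) :
    ∃ j, Stage A L M j ∧ ¬ Stage A L M (j + 1) := by
  by_contra hcon
  push Not at hcon
  have hall : ∀ j, Stage A L M j := by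
    intro j
    induction j with
    | zero => exact stage_zero A L M hA
    | succ j ih => exact hcon j ih
  have h1 := stage_lt A L M ⌈51 * L⌉₊ (hall _)
  have h2 := Nat.le_ceil (51 * L)
  linarith

theorem log_ten_le : Real.log 10 ≤ 3 := by
  have h1 : Real.log 10 ≤ Real.log (2 ^ 4) := Real.log_le_log (by norm_num) (by norm_num)
  rw [Real.log_pow] at h1
  have := Real.log_two_lt_d9
  norm_num at h1
  linarith

/-- the final computation -/
theorem compute (L : ℝ) (hL : 1 ≤ L) (g j : ℕ) (η Q : ℝ) (hQ : 1 ≤ Q)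
    (hg : (g : ℝ) ≤ j * (10 ^ 20 * L ^ 4)) (hj : (j : ℝ) < 51 * L)
    (hη : 1 / (10 ^ 20 * (10 ^ 22 * L ^ 5) ^ 7) ^ j ≤ η)
    (hsize : (η / 8) ^ g * Q ≤ 50 * Real.exp (2 * L)) :
    Real.log Q ≤ 10 ^ 28 * L ^ 6 * (1 + Real.log L) := by
  have hL0 : 0 < L := by linarith
  have hK : (0 : ℝ) < 10 ^ 20 * (10 ^ 22 * L ^ 5) ^ 7 := by positivity
  have hη0 : 0 < η := lt_of_lt_of_le (by positivity) hη
  have hlogL : 0 ≤ Real.log L := Real.log_nonneg hL
  have h10 := log_ten_le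
  have h10' : 0 ≤ Real.log 10 := Real.log_nonneg (by norm_num)
  -- the logarithm of `1/η`
  have h1 : -Real.log η ≤ j * (522 + 35 * Real.log L) := by
    have h2 := Real.log_le_log (by positivity) hη
    rw [Real.log_div one_ne_zero (by positivity), Real.log_one, zero_sub, Real.log_pow,
      Real.log_mul (by positivity) (by positivity), Real.log_pow, Real.log_pow,
      Real.log_mul (by positivity) (by positivity), Real.log_pow, Real.log_pow] at h2
    push_cast at h2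
    have h3 : (20 * Real.log 10 + 7 * (22 * Real.log 10 + 5 * Real.log L)) ≤
        522 + 35 * Real.log L := by linarith
    have h4 : (j : ℝ) * (20 * Real.log 10 + 7 * (22 * Real.log 10 + 5 * Real.log L)) ≤
        j * (522 + 35 * Real.log L) := mul_le_mul_of_nonneg_left h3 (Nat.cast_nonneg _)
    linarith
  have h2 : -Real.log η ≤ 51 * L * (522 + 35 * Real.log L) := by
    refine h1.trans (mul_le_mul_of_nonneg_right hj.le ?_)
    linarith
  have h8 : Real.log 8 ≤ 3 := by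
    refine le_trans ?_ h10
    exact Real.log_le_log (by norm_num) (by norm_num)
  have hg2 : (g : ℝ) ≤ 51 * 10 ^ 20 * L ^ 5 := by
    refine hg.trans ?_
    calc (j : ℝ) * (10 ^ 20 * L ^ 4) ≤ 51 * L * (10 ^ 20 * L ^ 4) :=
          mul_le_mul_of_nonneg_right hj.le (by positivity)
      _ = 51 * 10 ^ 20 * L ^ 5 := by ring
  have h3 := Real.log_le_log (by positivity) hsize
  rw [Real.log_mul (by positivity) (by linarith), Real.log_pow,
    Real.log_div hη0.ne' (by norm_num), Real.log_mul (by norm_num) (Real.exp_pos _).ne',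
    Real.log_exp] at h3
  have h50 : Real.log 50 ≤ 6 := by
    have h4 : Real.log 50 ≤ Real.log (10 ^ 2) := Real.log_le_log (by norm_num) (by norm_num)
    rw [Real.log_pow] at h4
    push_cast at h4
    linarith
  have h5 : (g : ℝ) * (Real.log 8 - Real.log η) ≤
      51 * 10 ^ 20 * L ^ 5 * (3 + 51 * L * (522 + 35 * Real.log L)) := by
    have h6 : Real.log 8 - Real.log η ≤ 3 + 51 * L * (522 + 35 * Real.log L) := by linarith
    have h7 : 0 ≤ 3 + 51 * L * (522 + 35 * Real.log L) := by positivity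
    calc (g : ℝ) * (Real.log 8 - Real.log η) ≤ g * (3 + 51 * L * (522 + 35 * Real.log L)) :=
          mul_le_mul_of_nonneg_left h6 (Nat.cast_nonneg _)
      _ ≤ _ := mul_le_mul_of_nonneg_right hg2 h7
  have h6 : Real.log Q ≤ 6 + 2 * L +
      51 * 10 ^ 20 * L ^ 5 * (3 + 51 * L * (522 + 35 * Real.log L)) := by
    have : (g : ℝ) * (Real.log η - Real.log 8) = -(g * (Real.log 8 - Real.log η)) := by ring
    linarith
  have hL5 : L ^ 5 ≤ L ^ 6 := pow_le_pow_right₀ hL (by norm_num)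
  have hL1 : L ≤ L ^ 6 := by
    calc L = L ^ 1 := (pow_one L).symm
      _ ≤ L ^ 6 := pow_le_pow_right₀ hL (by norm_num)
  have hL6 : 1 ≤ L ^ 6 := one_le_pow₀ hL
  have h7 : 51 * 10 ^ 20 * L ^ 5 * (3 + 51 * L * (522 + 35 * Real.log L)) =
      153 * 10 ^ 20 * L ^ 5 + 1357722 * 10 ^ 20 * L ^ 6 + 91035 * 10 ^ 20 * (L ^ 6 * Real.log L) := by
    ring
  have h9 : 0 ≤ L ^ 6 * Real.log L := by positivity
  rw [h7] at h6
  have h11 : 10 ^ 28 * L ^ 6 * (1 + Real.log L) = 10 ^ 28 * L ^ 6 + 10 ^ 28 * (L ^ 6 * Real.log L) := by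
    ring
  rw [h11]
  nlinarith

end Iterate

/-- Let `α0 = 2 exp(-L)` and `M = 10^22 L^5`. Claim: for each natural `j ≤ 51 L` (real inequality),
if for all earlier stages the size condition `200 ≤ α² |bohr Γ (η/2)|` holds, there are
`Γ, ρ, η, x` with `|Γ| ≤ j 10^20 L^4`, `0 ≤ ρ`, `(10^20 M^7)^(-j) ≤ η ≤ 1`, regular and
`(51/50)^j α0 |bohr Γ ρ| ≤ cnt A (bohr Γ ρ) x`.
Start: `Γ = ∅`, `ρ = 1`, `η = 1` (`bohr ∅ r = univ`). Since `cnt ≤ |bohr|`, `(51/50)^j α0 ≤ 1`,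
i.e. `j ≤ L / log(51/50) < 51 L`(`log (51/50) ≥ 1/51`, as `log (1+x) ≥ x/(1+x)`; `α0 ≥ exp(-L)`).
So the size condition fails at some stage `j ≤ 51 L`:
`α0² |bohr Γ (η/2)| < 200` with `|Γ| ≤ 51 L·10^20 L^4 ≤ M`, `η ≥ (10^20 M^7)^(-j)`. By `bohr_size`
`(η/8)^|Γ| q ≤ |bohr Γ (η/2)| < 200/(4 exp(-2L)) = 50 exp(2L)`, so
`log q ≤ log 50 + 2L + M (log 8 + 51 L log(10^20 M^7))` and
`log (10^20 M^7) = 20 log 10 + 7 (22 log 10 + 5 log L) ≤ 401 + 35 log L`. So
`log q ≤ K L^6 (1 + log L)` with e.g. `K = 10^28`. -/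
theorem main_bound (hq : Odd q) (A : Finset (ZMod q)) (h3 : AP3Free A) (L : ℝ) (hL : 1 ≤ L)
    (hA : 2 * Real.exp (-L) * (q : ℝ) ≤ (A.card : ℝ)) :
    Real.log q ≤ 10 ^ 28 * L ^ 6 * (1 + Real.log L) := by
  have hL0 : 0 < L := by linarith
  set M : ℝ := 10 ^ 22 * L ^ 5 with hM
  obtain ⟨j, hj, hj'⟩ := Iterate.exists_last A L M hA
  have hjL := Iterate.stage_lt A L M j hj
  obtain ⟨Γ, ρ, η, x, h1, h2, h3', h4, h5, h6⟩ := hj
  have hMpos : 0 < M := by positivity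
  have hη0 : 0 < η := lt_of_lt_of_le (by positivity) h3'
  have hpow : (1 : ℝ) ≤ (51 / 50) ^ j := one_le_pow₀ (by norm_num)
  have hα : 2 * Real.exp (-L) ≤ (51 / 50) ^ j * (2 * Real.exp (-L)) :=
    le_mul_of_one_le_left (by positivity) hpow
  have hα0 : 0 < 2 * Real.exp (-L) := by positivity
  have hΓM : (Γ.card : ℝ) ≤ M := by
    refine h1.trans ?_
    calc (j : ℝ) * (10 ^ 20 * L ^ 4) ≤ 51 * L * (10 ^ 20 * L ^ 4) :=
          mul_le_mul_of_nonneg_right hjL.le (by positivity)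
      _ = 51 * 10 ^ 20 * L ^ 5 := by ring
      _ ≤ 10 ^ 22 * L ^ 5 := mul_le_mul_of_nonneg_right (by norm_num) (by positivity)
  have hLM : 10 ^ 20 * L ^ 4 ≤ M := by
    rw [hM]
    calc 10 ^ 20 * L ^ 4 ≤ 10 ^ 20 * L ^ 5 :=
          mul_le_mul_of_nonneg_left (pow_le_pow_right₀ hL (by norm_num)) (by norm_num)
      _ ≤ 10 ^ 22 * L ^ 5 := mul_le_mul_of_nonneg_right (by norm_num) (by positivity)
  have hfail : ¬ 200 ≤ ((51 / 50) ^ j * (2 * Real.exp (-L))) ^ 2 * ((bohr Γ (η / 2)).card : ℝ) := by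
    intro hsize
    apply hj'
    obtain ⟨Γ', ρ', η', x', g1, g2, g3, g4, g5, g6⟩ := increment hq A h3 L M
      ((51 / 50) ^ j * (2 * Real.exp (-L))) hL hLM hα Γ hΓM ρ η h2 hη0 h4 h5 x h6 hsize
    refine ⟨Γ', ρ', η', x', ?_, g2, ?_, g4, g5, ?_⟩
    · push_cast
      linarith
    · refine le_trans ?_ g3
      rw [pow_succ, ← div_div]
      exact div_le_div_of_nonneg_right h3' (by positivity)
    · refine le_trans (le_of_eq ?_) g6
      rw [pow_succ]
      ring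
  rw [not_le] at hfail
  have hq1 : (1 : ℝ) ≤ q := by exact_mod_cast Nat.one_le_iff_ne_zero.2 (NeZero.ne q)
  have hbs := bohr_size Γ (η / 2) (by linarith) (by linarith)
  have hcard : ((bohr Γ (η / 2)).card : ℝ) ≤ 50 * Real.exp (2 * L) := by
    have hsq : (2 * Real.exp (-L)) ^ 2 ≤ ((51 / 50) ^ j * (2 * Real.exp (-L))) ^ 2 :=
      pow_le_pow_left₀ hα0.le hα 2
    have h7 : (2 * Real.exp (-L)) ^ 2 * ((bohr Γ (η / 2)).card : ℝ) ≤ 200 :=
      (mul_le_mul_of_nonneg_right hsq (Nat.cast_nonneg _)).trans hfail.le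
    have h8 : (2 * Real.exp (-L)) ^ 2 = 4 * Real.exp (-(2 * L)) := by
      rw [mul_pow, ← Real.exp_nat_mul]
      norm_num
    rw [h8] at h7
    have h9 : Real.exp (2 * L) * Real.exp (-(2 * L)) = 1 := by
      rw [← Real.exp_add, add_neg_cancel, Real.exp_zero]
    have h10 := mul_le_mul_of_nonneg_left h7 (Real.exp_pos (2 * L)).le
    have h11 : Real.exp (2 * L) * (4 * Real.exp (-(2 * L)) * ((bohr Γ (η / 2)).card : ℝ)) =
        4 * ((bohr Γ (η / 2)).card : ℝ) := by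
      calc _ = 4 * (Real.exp (2 * L) * Real.exp (-(2 * L))) * ((bohr Γ (η / 2)).card : ℝ) := by ring
        _ = _ := by rw [h9, mul_one]
    linarith
  have hsz : (η / 8) ^ Γ.card * (q : ℝ) ≤ 50 * Real.exp (2 * L) := by
    have : η / 2 / 4 = η / 8 := by ring
    rw [this] at hbs
    exact hbs.trans hcard
  exact Iterate.compute L hL Γ.card j η q hq1 h1 hjL h3' hsz

end P057
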