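import Vale.Agent.Lib.P057.R.Defs

/-!
P057 module Riesz: the Riesz product estimate (the character sum part of Chang's lemma).
-/

set_option autoImplicit false

namespace P057

open Finset

variable {q : ℕ} [NeZero q]

namespace RieszAux

/-- The three coefficients. -/
noncomputable def uu (s : ℝ) (ω : ℂ) (n : ℤ) : ℂ :=
  if n = 0 then (Real.cosh s : ℂ) else
    if n = 1 then ((Real.sinh s / 2 : ℝ) : ℂ) * ω else
      ((Real.sinh s / 2 : ℝ) : ℂ) * (starRingEnd ℂ) ω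

theorem norm_uu_zero (s : ℝ) (ω : ℂ) : ‖uu s ω 0‖ = Real.cosh s := by
  unfold uu
  rw [if_pos rfl, Complex.norm_real, Real.norm_eq_abs, abs_of_pos (Real.cosh_pos s)]

theorem sum_norm_uu {s : ℝ} (hs : 0 ≤ s) {ω : ℂ} (hω : ‖ω‖ = 1) :
    ∑ n ∈ ({-1, 0, 1} : Finset ℤ), ‖uu s ω n‖ = Real.exp s := by
  have h0 : 0 ≤ Real.sinh s := Real.sinh_nonneg_iff.2 hs
  rw [Finset.sum_insert (by decide), Finset.sum_insert (by decide), Finset.sum_singleton,
    norm_uu_zero]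
  have h1 : ‖uu s ω 1‖ = Real.sinh s / 2 := by
    unfold uu
    rw [if_neg (by decide), if_pos rfl, norm_mul, Complex.norm_real, hω, mul_one,
      Real.norm_eq_abs, abs_of_nonneg (by linarith)]
  have h2 : ‖uu s ω (-1)‖ = Real.sinh s / 2 := by
    unfold uu
    rw [if_neg (by decide), if_neg (by decide), norm_mul, Complex.norm_real, RCLike.norm_conj, hω,
      mul_one, Real.norm_eq_abs, abs_of_nonneg (by linarith)]
  rw [h1, h2, ← Real.cosh_add_sinh]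
  ring

theorem factor_eq (s : ℝ) (ω : ℂ) (t y : ZMod q) :
    ((Real.cosh s + Real.sinh s * (ω * (ZMod.stdAddChar (t * y) : ℂ)).re : ℝ) : ℂ) =
      ∑ n ∈ ({-1, 0, 1} : Finset ℤ), uu s ω n * (ZMod.stdAddChar ((n : ZMod q) * t * y) : ℂ) := by
  rw [Finset.sum_insert (by decide), Finset.sum_insert (by decide), Finset.sum_singleton]
  have h1 : uu s ω 1 = ((Real.sinh s / 2 : ℝ) : ℂ) * ω := by
    unfold uu
    rw [if_neg (by decide), if_pos rfl]
  have h2 : uu s ω (-1) = ((Real.sinh s / 2 : ℝ) : ℂ) * (starRingEnd ℂ) ω := by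
    unfold uu
    rw [if_neg (by decide), if_neg (by decide)]
  have h3 : uu s ω 0 = (Real.cosh s : ℂ) := by
    unfold uu
    rw [if_pos rfl]
  rw [h1, h2, h3]
  have h4 : (ZMod.stdAddChar (((-1 : ℤ) : ZMod q) * t * y) : ℂ) =
      (starRingEnd ℂ) (ZMod.stdAddChar (t * y) : ℂ) := by
    rw [show (((-1 : ℤ) : ZMod q) * t * y) = -(t * y) by push_cast; ring]
    exact AddChar.map_neg_eq_conj _ _
  have h5 : (ZMod.stdAddChar (((1 : ℤ) : ZMod q) * t * y) : ℂ) =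
      (ZMod.stdAddChar (t * y) : ℂ) := by
    rw [show (((1 : ℤ) : ZMod q) * t * y) = t * y by push_cast; ring]
  have h6 : (ZMod.stdAddChar (((0 : ℤ) : ZMod q) * t * y) : ℂ) = 1 := by
    rw [show (((0 : ℤ) : ZMod q) * t * y) = 0 by push_cast; ring]
    exact AddChar.map_zero_eq_one _
  rw [h4, h5, h6]
  set z : ℂ := (ZMod.stdAddChar (t * y) : ℂ) with hz
  have h7 : (((ω * z).re : ℝ) : ℂ) = (ω * z + (starRingEnd ℂ) (ω * z)) / 2 := by
    rw [Complex.re_eq_add_conj]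
  push_cast
  rw [h7, map_mul]
  ring

theorem char_sum_mul {ι : Type*} (S : Finset ι) (c : ι → ZMod q) :
    ∏ t ∈ S, (ZMod.stdAddChar (c t) : ℂ) = (ZMod.stdAddChar (∑ t ∈ S, c t) : ℂ) := by
  classical
  induction S using Finset.induction_on with
  | empty => simp
  | insert a S ha ih =>
    rw [Finset.prod_insert ha, Finset.sum_insert ha, ih, AddChar.map_add_eq_mul]

/-- the average of a character -/
theorem avg_eq (P W : Finset (ZMod q)) (l : ℕ) (ξ : ZMod q) :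
    ∑ z ∈ P, ∑ w ∈ Fintype.piFinset (fun _ : Fin l => W),
        (ZMod.stdAddChar (ξ * (z + ∑ i, w i)) : ℂ) =
      (∑ z ∈ P, (ZMod.stdAddChar (ξ * z) : ℂ)) * (∑ w ∈ W, (ZMod.stdAddChar (ξ * w) : ℂ)) ^ l := by
  rw [Finset.sum_mul]
  refine Finset.sum_congr rfl fun z _ => ?_
  have h1 : (∑ w ∈ W, (ZMod.stdAddChar (ξ * w) : ℂ)) ^ l =
      ∑ w ∈ Fintype.piFinset (fun _ : Fin l => W), ∏ i, (ZMod.stdAddChar (ξ * w i) : ℂ) := by
    rw [Finset.sum_prod_piFinset W (fun _ w => (ZMod.stdAddChar (ξ * w) : ℂ))]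
    simp
  rw [h1, Finset.mul_sum]
  refine Finset.sum_congr rfl fun w _ => ?_
  rw [char_sum_mul, ← AddChar.map_add_eq_mul, ← Finset.mul_sum, ← mul_add]

theorem norm_char_sum_le (P : Finset (ZMod q)) (ξ : ZMod q) :
    ‖∑ z ∈ P, (ZMod.stdAddChar (ξ * z) : ℂ)‖ ≤ P.card := by
  refine (norm_sum_le _ _).trans (le_of_eq ?_)
  simp

end RieszAux

open RieszAux in
/-- Let `χ = ZMod.stdAddChar`, `k = |Λ|`, `N_l = |W|^l`. For each `x`,
`∏_{λ∈Λ} (cosh s + sinh s Re(ω_λ χ(λ x))) = ∑_{θ : Λ → {-1,0,1}} ∏_λ u_λ(θ_λ) χ((∑ θ_λ λ) x)`,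
with `u_λ(0) = cosh s`, `u_λ(1) = (sinh s / 2) ω_λ`, `u_λ(-1) = (sinh s/2) conj ω_λ`
(`Re z = (z + conj z)/2`, `conj (χ(λx)) = χ(-λx)`).
Average over `x = z + w_1 + … + w_l`, `z ∈ P`, `w_i ∈ W`: the term of `θ` contributes at most
`∏ |u_λ(θ_λ)| ‖mh P ξ‖ ‖mh W ξ‖^l` in absolute value, with `ξ = ∑ θ_λ λ`; for `θ = 0` this is
`(cosh s)^k`; for `θ ≠ 0` it is at most `∏|u_λ(θ_λ)| 2^{-l}` by `Dissoc`. The sum over all `θ` of
`∏ |u_λ(θ_λ)|` is `(cosh s + sinh s)^k = exp(s k)`. -/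
theorem riesz (P W Λ : Finset (ZMod q)) (hP : P.Nonempty) (hW : W.Nonempty) (l : ℕ)
    (hΛ : Dissoc W Λ) (ω : ZMod q → ℂ) (hω : ∀ x, ‖ω x‖ = 1) (s : ℝ) (hs : 0 ≤ s) :
    ∑ z ∈ P, ∑ w ∈ Fintype.piFinset (fun _ : Fin l => W),
        ∏ t ∈ Λ, (Real.cosh s + Real.sinh s *
          (ω t * (ZMod.stdAddChar (t * (z + ∑ i, w i)) : ℂ)).re) ≤
      (P.card : ℝ) * (W.card : ℝ) ^ l *
        (Real.cosh s ^ Λ.card + (1 / 2) ^ l * Real.exp (s * Λ.card)) := by
  classical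
  set I : Finset ℤ := {-1, 0, 1} with hI
  set Th : Finset (Λ → ℤ) := Fintype.piFinset (fun _ : Λ => I) with hTh
  set Wc : ℝ := (W.card : ℝ) with hWc
  have hW0 : 0 < Wc := by
    rw [hWc]; exact_mod_cast hW.card_pos
  set cc : (Λ → ℤ) → ℂ := fun θ => ∏ t : Λ, uu s (ω t) (θ t) with hcc
  set xi : (Λ → ℤ) → ZMod q := fun θ => ∑ t : Λ, ((θ t : ZMod q)) * (t : ZMod q) with hxi
  -- pointwise expansion
  have hexp : ∀ y : ZMod q, (((∏ t ∈ Λ, (Real.cosh s + Real.sinh s *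
          (ω t * (ZMod.stdAddChar (t * y) : ℂ)).re) : ℝ)) : ℂ) =
      ∑ θ ∈ Th, cc θ * (ZMod.stdAddChar (xi θ * y) : ℂ) := by
    intro y
    rw [← Finset.prod_coe_sort Λ, Complex.ofReal_prod]
    have hf : ∀ t ∈ (Finset.univ : Finset Λ), ((Real.cosh s + Real.sinh s *
          (ω t * (ZMod.stdAddChar ((t : ZMod q) * y) : ℂ)).re : ℝ) : ℂ) =
        ∑ n ∈ I, uu s (ω t) n * (ZMod.stdAddChar ((n : ZMod q) * (t : ZMod q) * y) : ℂ) :=
      fun t _ => factor_eq s (ω t) (t : ZMod q) y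
    rw [Finset.prod_congr rfl hf, Finset.prod_univ_sum]
    refine Finset.sum_congr rfl fun θ _ => ?_
    rw [Finset.prod_mul_distrib, char_sum_mul]
    simp only [hcc, hxi]
    rw [Finset.sum_mul]
  set S : ℝ := ∑ z ∈ P, ∑ w ∈ Fintype.piFinset (fun _ : Fin l => W),
        ∏ t ∈ Λ, (Real.cosh s + Real.sinh s *
          (ω t * (ZMod.stdAddChar (t * (z + ∑ i, w i)) : ℂ)).re) with hS
  have hS1 : (S : ℂ) = ∑ θ ∈ Th, cc θ * ((∑ z ∈ P, (ZMod.stdAddChar (xi θ * z) : ℂ)) *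
      (∑ w ∈ W, (ZMod.stdAddChar (xi θ * w) : ℂ)) ^ l) := by
    rw [hS]
    simp only [Complex.ofReal_sum]
    simp only [hexp]
    rw [Finset.sum_congr rfl fun z _ => Finset.sum_comm, Finset.sum_comm]
    refine Finset.sum_congr rfl fun θ _ => ?_
    rw [← avg_eq, Finset.mul_sum]
    refine Finset.sum_congr rfl fun z _ => ?_
    rw [Finset.mul_sum]
  have hterm : ∀ θ ∈ Th, ‖cc θ * ((∑ z ∈ P, (ZMod.stdAddChar (xi θ * z) : ℂ)) *
      (∑ w ∈ W, (ZMod.stdAddChar (xi θ * w) : ℂ)) ^ l)‖ ≤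
      (P.card : ℝ) * Wc ^ l * ((if θ = 0 then Real.cosh s ^ Λ.card else 0) +
        (1 / 2) ^ l * ∏ t : Λ, ‖uu s (ω t) (θ t)‖) := by
    intro θ hθ
    rw [norm_mul, norm_mul, norm_pow]
    have e1 : ‖cc θ‖ = ∏ t : Λ, ‖uu s (ω t) (θ t)‖ := by
      simp only [hcc]; exact norm_prod _ _
    have e2 := norm_char_sum_le P (xi θ)
    have e0 : 0 ≤ ∏ t : Λ, ‖uu s (ω t) (θ t)‖ := Finset.prod_nonneg fun _ _ => norm_nonneg _
    rw [e1]
    by_cases h0 : θ = 0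
    · rw [if_pos h0]
      have e3 := norm_char_sum_le W (xi θ)
      have e4 : ∏ t : Λ, ‖uu s (ω t) (θ t)‖ = Real.cosh s ^ Λ.card := by
        subst h0
        simp only [Pi.zero_apply, norm_uu_zero, Finset.prod_const, Finset.card_univ,
          Fintype.card_coe]
      have e5 : ‖∑ z ∈ P, (ZMod.stdAddChar (xi θ * z) : ℂ)‖ *
          ‖∑ w ∈ W, (ZMod.stdAddChar (xi θ * w) : ℂ)‖ ^ l ≤ (P.card : ℝ) * Wc ^ l :=
        mul_le_mul e2 (pow_le_pow_left₀ (norm_nonneg _) e3 l) (by positivity) (by positivity)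
      have e6 := mul_le_mul_of_nonneg_left e5 e0
      have e7 : 0 ≤ (P.card : ℝ) * Wc ^ l * ((1 / 2) ^ l * ∏ t : Λ, ‖uu s (ω t) (θ t)‖) := by
        positivity
      rw [mul_add]
      rw [e4] at e6 e7 ⊢
      linarith
    · rw [if_neg h0, zero_add]
      have e3 : ‖∑ w ∈ W, (ZMod.stdAddChar (xi θ * w) : ℂ)‖ ≤ Wc * (1 / 2) := by
        set θ' : ZMod q → ℤ := fun x => if h : x ∈ Λ then θ ⟨x, h⟩ else 0 with hθ'
        have hθ'e : ∀ t : Λ, θ' (t : ZMod q) = θ t := by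
          intro t
          simp only [hθ']
          rw [dif_pos t.2]
        have d1 := hΛ θ' (by
          intro x hx
          have := Fintype.mem_piFinset.1 hθ ⟨x, hx⟩
          have e : θ' x = θ ⟨x, hx⟩ := hθ'e ⟨x, hx⟩
          rw [e]
          simp only [hI, Finset.mem_insert, Finset.mem_singleton] at this
          exact this) (by
          by_contra hcon
          push Not at hcon
          apply h0
          funext t
          rw [← hθ'e t]
          exact hcon t t.2)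
        have e : ∑ x ∈ Λ, (θ' x : ZMod q) * x = xi θ := by
          rw [← Finset.sum_coe_sort Λ]
          simp only [hxi]
          refine Finset.sum_congr rfl fun t _ => ?_
          rw [hθ'e]
        rw [e, mh, norm_div, Complex.norm_natCast] at d1
        rw [div_le_iff₀ hW0] at d1
        linarith
      have e5 : ‖∑ z ∈ P, (ZMod.stdAddChar (xi θ * z) : ℂ)‖ *
          ‖∑ w ∈ W, (ZMod.stdAddChar (xi θ * w) : ℂ)‖ ^ l ≤ (P.card : ℝ) * (Wc * (1 / 2)) ^ l :=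
        mul_le_mul e2 (pow_le_pow_left₀ (norm_nonneg _) e3 l) (by positivity) (by positivity)
      refine (mul_le_mul_of_nonneg_left e5 e0).trans (le_of_eq ?_)
      rw [mul_pow]; ring
  have hfin : S ≤ ∑ θ ∈ Th, (P.card : ℝ) * Wc ^ l * ((if θ = 0 then Real.cosh s ^ Λ.card else 0) +
        (1 / 2) ^ l * ∏ t : Λ, ‖uu s (ω t) (θ t)‖) := by
    calc S ≤ ‖(S : ℂ)‖ := by
          rw [Complex.norm_real]; exact Real.le_norm_self S
      _ ≤ _ := by
          rw [hS1]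
          exact (norm_sum_le _ _).trans (Finset.sum_le_sum hterm)
  refine hfin.trans (le_of_eq ?_)
  rw [← Finset.mul_sum, Finset.sum_add_distrib, ← Finset.mul_sum]
  congr 2
  · rw [Finset.sum_ite_eq' Th 0, if_pos]
    rw [hTh, Fintype.mem_piFinset]
    intro t
    simp [hI]
  · congr 1
    have h1 : ∏ t : Λ, ∑ n ∈ I, ‖uu s (ω t) n‖ = ∑ θ ∈ Th, ∏ t : Λ, ‖uu s (ω t) (θ t)‖ :=
      Finset.prod_univ_sum _ _
    have h2 : ∀ t ∈ (Finset.univ : Finset Λ), ∑ n ∈ I, ‖uu s (ω t) n‖ = Real.exp s :=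
      fun t _ => sum_norm_uu hs (hω t)
    rw [← h1, Finset.prod_congr rfl h2]
    rw [Finset.prod_const, Finset.card_univ, Fintype.card_coe, ← Real.exp_nat_mul]
    congr 1
    ring

end P057
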