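import Vale.Agent.Lib.P057.R.Final

/-!
P057 (second formulation): upper bounds for the Roth number of Mathlib
(`rothNumberNat N` = the largest size of a subset of `{0, …, N - 1}` without 3-term progressions).
-/

set_option autoImplicit false

open Filter Real

namespace P057.RothSixth

theorem strong : ∃ c : ℝ, 0 < c ∧ ∀ᶠ N : ℕ in atTop,
    (rothNumberNat N : ℝ) ≤ N * exp (-(c * (log N / log (log N)) ^ ((1 : ℝ) / 6))) := by
  obtain ⟨c, hc, N0, h⟩ := _root_.P057.r3_upper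
  refine ⟨c, hc, ?_⟩
  filter_upwards [eventually_ge_atTop N0] with N hN
  obtain ⟨t, ht, htc, hfree⟩ := rothNumberNat_spec N
  have h1 := h N hN (t.map ⟨Nat.succ, Nat.succ_injective⟩) ?_ ?_
  · rw [Finset.card_map, htc] at h1
    rwa [neg_mul] at h1
  · intro x hx
    rw [Finset.mem_map] at hx
    obtain ⟨y, hy, rfl⟩ := hx
    have := Finset.mem_range.1 (ht hy)
    rw [Finset.mem_Icc]
    simp only [Function.Embedding.coeFn_mk]
    omega
  · rintro a d hd ⟨ha, hb, hc'⟩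
    rw [Finset.mem_map] at ha hb hc'
    obtain ⟨x, hx, hx'⟩ := ha
    obtain ⟨y, hy, hy'⟩ := hb
    obtain ⟨z, hz, hz'⟩ := hc'
    simp only [Function.Embedding.coeFn_mk, Nat.succ_eq_add_one] at hx' hy' hz'
    have h2 : x + z = y + y := by omega
    have h3 := hfree hx hy hz h2
    omega

theorem loglog_pos : ∀ᶠ N : ℕ in atTop, 1 ≤ log (log (N : ℝ)) := by
  have h1 : Tendsto (fun N : ℕ => log (log (N : ℝ))) atTop atTop :=
    tendsto_log_atTop.comp (tendsto_log_atTop.comp tendsto_natCast_atTop_atTop)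
  exact h1.eventually_ge_atTop 1

theorem log_pos' : ∀ᶠ N : ℕ in atTop, 1 ≤ log (N : ℝ) := by
  have h1 : Tendsto (fun N : ℕ => log (N : ℝ)) atTop atTop :=
    tendsto_log_atTop.comp tendsto_natCast_atTop_atTop
  exact h1.eventually_ge_atTop 1

theorem second : ∃ c : ℝ, 0 < c ∧ ∀ᶠ N : ℕ in atTop,
    (rothNumberNat N : ℝ) ≤ N * exp (-(c * ((log N) ^ ((1 : ℝ) / 6) / log (log N)))) := by
  obtain ⟨c, hc, h⟩ := strong
  refine ⟨c, hc, ?_⟩
  filter_upwards [h, loglog_pos, log_pos'] with N h1 h2 h3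
  refine h1.trans (mul_le_mul_of_nonneg_left (exp_le_exp.2 (neg_le_neg
    (mul_le_mul_of_nonneg_left ?_ hc.le))) (Nat.cast_nonneg N))
  rw [div_rpow (by linarith) (by linarith)]
  refine div_le_div_of_nonneg_left (rpow_nonneg (by linarith) _) (by positivity) ?_
  calc (log (log (N : ℝ))) ^ ((1 : ℝ) / 6) ≤ (log (log (N : ℝ))) ^ (1 : ℝ) :=
        rpow_le_rpow_of_exponent_le h2 (by norm_num)
    _ = log (log (N : ℝ)) := rpow_one _

theorem third (ε : ℝ) (hε : 0 < ε) : ∀ᶠ N : ℕ in atTop,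
    (rothNumberNat N : ℝ) ≤ N * exp (-(log N) ^ ((1 : ℝ) / 6 - ε)) := by
  obtain ⟨c, hc, h⟩ := second
  have h0 : ∀ᶠ x : ℝ in atTop, log x ≤ c * x ^ ε := by
    have := (isLittleO_log_rpow_atTop hε).bound hc
    filter_upwards [this, eventually_ge_atTop 1] with x hx hx1
    rw [norm_of_nonneg (log_nonneg hx1), norm_of_nonneg (rpow_nonneg (by linarith) _)] at hx
    exact hx
  have h1 : Tendsto (fun N : ℕ => log (N : ℝ)) atTop atTop :=
    tendsto_log_atTop.comp tendsto_natCast_atTop_atTop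
  filter_upwards [h, loglog_pos, log_pos', h1.eventually h0] with N h2 h3 h4 h5
  refine h2.trans (mul_le_mul_of_nonneg_left (exp_le_exp.2 (neg_le_neg ?_)) (Nat.cast_nonneg N))
  have h6 : (0 : ℝ) < log N := by linarith
  have h7 : (0 : ℝ) < log (log N) := by linarith
  rw [rpow_sub h6, ← mul_div_assoc, div_le_div_iff₀ (rpow_pos_of_pos h6 _) h7]
  have h8 : 0 < (log (N : ℝ)) ^ ((1 : ℝ) / 6) := rpow_pos_of_pos h6 _
  nlinarith


theorem card_block (A : Set ℕ) (hA : ThreeAPFree A) (j : ℕ) [DecidablePred (· ∈ A)] :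
    ((Finset.Ico (2 ^ j) (2 ^ (j + 1))).filter (· ∈ A)).card ≤ rothNumberNat (2 ^ j) := by
  have h1 : addRothNumber (Finset.Ico (2 ^ j) (2 ^ (j + 1))) = rothNumberNat (2 ^ j) := by
    rw [addRothNumber_Ico]
    have : 2 ^ (j + 1) - 2 ^ j = 2 ^ j := by rw [pow_succ]; omega
    rw [this]
  rw [← h1]
  apply ThreeAPFree.le_addRothNumber
  · refine hA.mono ?_
    intro x hx
    have := Finset.mem_coe.1 hx
    exact (Finset.mem_filter.1 this).2
  · exact Finset.filter_subset _ _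

theorem sum_two_pow (g : ℕ → ℝ) (n : ℕ) : ∑ i ∈ Finset.range (2 ^ n), g i =
    g 0 + ∑ j ∈ Finset.range n, ∑ i ∈ Finset.Ico (2 ^ j) (2 ^ (j + 1)), g i := by
  induction n with
  | zero => simp
  | succ n ih =>
    rw [← Finset.sum_range_add_sum_Ico g (Nat.pow_le_pow_right two_pos (Nat.le_succ n)), ih,
      Finset.sum_range_succ, add_assoc]

theorem block_le (A : Set ℕ) (hA : ThreeAPFree A) (β : ℝ) (hβ : 0 ≤ β) (j : ℕ) :
    ∑ i ∈ Finset.Ico (2 ^ j) (2 ^ (j + 1)),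
      A.indicator (fun a : ℕ => exp ((log (a : ℝ)) ^ β) / (a : ℝ)) i ≤
      (rothNumberNat (2 ^ j) : ℝ) * (exp ((log ((2 : ℝ) ^ (j + 1))) ^ β) / 2 ^ j) := by
  classical
  have h0 : ∑ i ∈ Finset.Ico (2 ^ j) (2 ^ (j + 1)),
      A.indicator (fun a : ℕ => exp ((log (a : ℝ)) ^ β) / (a : ℝ)) i =
      ∑ i ∈ (Finset.Ico (2 ^ j) (2 ^ (j + 1))).filter (· ∈ A),
        exp ((log (i : ℝ)) ^ β) / (i : ℝ) := by
    rw [Finset.sum_filter]
    refine Finset.sum_congr rfl fun i _ => ?_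
    rw [Set.indicator_apply]
  rw [h0]
  have h2 : (0 : ℝ) < 2 ^ j := by positivity
  have h1 : ∀ i ∈ (Finset.Ico (2 ^ j) (2 ^ (j + 1))).filter (· ∈ A),
      exp ((log (i : ℝ)) ^ β) / (i : ℝ) ≤ exp ((log ((2 : ℝ) ^ (j + 1))) ^ β) / 2 ^ j := by
    intro i hi
    have hi' := Finset.mem_Ico.1 (Finset.mem_filter.1 hi).1
    have h3 : ((2 : ℝ) ^ j) ≤ (i : ℝ) := by exact_mod_cast hi'.1
    have h4 : (i : ℝ) ≤ (2 : ℝ) ^ (j + 1) := by exact_mod_cast hi'.2.le
    have h5 : (1 : ℝ) ≤ (i : ℝ) := (one_le_pow₀ (by norm_num)).trans h3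
    exact div_le_div₀ (exp_pos _).le (exp_le_exp.2 (rpow_le_rpow (log_nonneg h5)
      (log_le_log (by linarith) h4) hβ)) h2 h3
  refine (Finset.sum_le_sum h1).trans ?_
  rw [Finset.sum_const, nsmul_eq_mul]
  refine mul_le_mul_of_nonneg_right ?_ (div_nonneg (exp_pos _).le h2.le)
  exact_mod_cast card_block A hA j

theorem aux (β γ : ℝ) (hβ : 0 ≤ β) (hγ : β < γ) (hβ1 : β ≤ 1) : ∀ᶠ x : ℝ in atTop,
    (2 * x) ^ β - x ^ γ ≤ -(2 * log x) := by
  have hγ0 : 0 < γ := by linarith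
  have h1 := (isLittleO_log_rpow_atTop hγ0).bound (show (0 : ℝ) < 1 / 4 by norm_num)
  have h2 := (tendsto_rpow_atTop (show 0 < γ - β by linarith)).eventually_ge_atTop 4
  filter_upwards [h1, h2, eventually_ge_atTop 1] with x hx1 hx2 hx3
  have hx0 : 0 < x := by linarith
  rw [norm_of_nonneg (log_nonneg hx3), norm_of_nonneg (rpow_nonneg hx0.le _)] at hx1
  have h3 : (2 * x) ^ β ≤ 2 * x ^ β := by
    rw [mul_rpow (by norm_num) hx0.le]
    refine mul_le_mul_of_nonneg_right ?_ (rpow_nonneg hx0.le _)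
    calc (2 : ℝ) ^ β ≤ (2 : ℝ) ^ (1 : ℝ) := rpow_le_rpow_of_exponent_le (by norm_num) hβ1
      _ = 2 := rpow_one _
  have h4 : x ^ γ = x ^ (γ - β) * x ^ β := by
    rw [← rpow_add hx0]; congr 1; ring
  have h5 : 0 < x ^ β := rpow_pos_of_pos hx0 _
  have h6 : 4 * x ^ β ≤ x ^ γ := by
    rw [h4]; exact mul_le_mul_of_nonneg_right hx2 h5.le
  linarith

theorem recip (A : Set ℕ) (hA : ThreeAPFree A) (β : ℝ) (hβ0 : 0 ≤ β) (hβ : β < 1 / 6) :
    Summable (fun a : A => exp ((log ((a : ℕ) : ℝ)) ^ β) / ((a : ℕ) : ℝ)) := by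
  have key : Summable (A.indicator (fun a : ℕ => exp ((log (a : ℝ)) ^ β) / (a : ℝ))) := by
    have hB : Summable (fun j : ℕ =>
        (rothNumberNat (2 ^ j) : ℝ) * (exp ((log ((2 : ℝ) ^ (j + 1))) ^ β) / 2 ^ j)) := by
      have hlog2 : 0 < log (2 : ℝ) := log_pos (by norm_num)
      have hs : Summable (fun j : ℕ => ((log 2) ^ 2)⁻¹ * (1 / (j : ℝ) ^ 2)) :=
        (summable_one_div_nat_pow.2 (by norm_num)).mul_left _
      refine Summable.of_norm_bounded_eventually_nat hs ?_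
      have e1 := (tendsto_pow_atTop_atTop_of_one_lt (show 1 < 2 by norm_num)).eventually
        (third ((1 / 6 - β) / 2) (by linarith))
      have e2 : Tendsto (fun j : ℕ => (j : ℝ) * log 2) atTop atTop :=
        tendsto_natCast_atTop_atTop.atTop_mul_const hlog2
      have e3 := e2.eventually (aux β ((1 : ℝ) / 6 - (1 / 6 - β) / 2) hβ0 (by linarith)
        (by linarith))
      filter_upwards [e1, e3, eventually_ge_atTop 1] with j h4 h5 h6
      have h7 : (1 : ℝ) ≤ j := by exact_mod_cast h6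
      have h2 : (0 : ℝ) < 2 ^ j := by positivity
      rw [norm_of_nonneg (by positivity)]
      rw [Nat.cast_pow, Nat.cast_ofNat, log_pow] at h4
      have h8 : (log ((2 : ℝ) ^ (j + 1))) ^ β ≤ (2 * (j * log 2)) ^ β := by
        rw [log_pow]
        refine rpow_le_rpow (by positivity) ?_ hβ0
        push_cast
        nlinarith
      have h9 : exp (-(2 * log ((j : ℝ) * log 2))) = ((log 2) ^ 2)⁻¹ * (1 / (j : ℝ) ^ 2) := by
        have h10 : 0 < (j : ℝ) * log 2 := by positivity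
        rw [exp_neg, two_mul, exp_add, exp_log h10]
        field_simp
      rw [← h9]
      calc (rothNumberNat (2 ^ j) : ℝ) * (exp ((log ((2 : ℝ) ^ (j + 1))) ^ β) / 2 ^ j)
          ≤ (2 ^ j * exp (-(j * log 2) ^ ((1 : ℝ) / 6 - (1 / 6 - β) / 2))) *
            (exp ((2 * (j * log 2)) ^ β) / 2 ^ j) :=
          mul_le_mul h4 (div_le_div_of_nonneg_right (exp_le_exp.2 h8) h2.le)
            (by positivity) (by positivity)
        _ = exp ((2 * (j * log 2)) ^ β - (j * log 2) ^ ((1 : ℝ) / 6 - (1 / 6 - β) / 2)) := by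
          rw [Real.exp_sub, Real.exp_neg]
          field_simp
        _ ≤ exp (-(2 * log ((j : ℝ) * log 2))) := exp_le_exp.2 h5
    have hnn : ∀ n, 0 ≤ A.indicator (fun a : ℕ => exp ((log (a : ℝ)) ^ β) / (a : ℝ)) n :=
      fun n => Set.indicator_nonneg (fun a _ => by positivity) n
    refine summable_of_sum_range_le (c := A.indicator
      (fun a : ℕ => exp ((log (a : ℝ)) ^ β) / (a : ℝ)) 0 + ∑' j : ℕ,
        (rothNumberNat (2 ^ j) : ℝ) * (exp ((log ((2 : ℝ) ^ (j + 1))) ^ β) / 2 ^ j)) hnn ?_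
    intro n
    have h10 : Finset.range n ⊆ Finset.range (2 ^ n) :=
      Finset.range_subset_range.2 (Nat.lt_two_pow_self).le
    refine (Finset.sum_le_sum_of_subset_of_nonneg h10 fun i _ _ => hnn i).trans ?_
    rw [sum_two_pow]
    refine add_le_add le_rfl ?_
    refine (Finset.sum_le_sum fun j _ => block_le A hA β hβ0 j).trans ?_
    exact hB.sum_le_tsum _ fun j _ => by positivity
  exact (summable_subtype_iff_indicator (s := A)
    (f := fun a : ℕ => exp ((log (a : ℝ)) ^ β) / (a : ℝ))).2 key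

end P057.RothSixth
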