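import Vale.Agent.Lib.P057.R.HsLower

/-!
P057 module SpecMass: the two-sided positivity argument. Most of the Fourier weight sits on the
large spectrum of `T`.
-/

set_option autoImplicit false

namespace P057

open Finset

variable {q : ℕ} [NeZero q]

/-- The normalised exponential sum has modulus at most one. -/
private theorem sm_mh_le (T : Finset (ZMod q)) (hT : T.Nonempty) (γ : ZMod q) :
    ‖mh T γ‖ ≤ 1 := by
  have hc : (0 : ℝ) < T.card := by exact_mod_cast hT.card_pos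
  unfold mh
  rw [norm_div, div_le_one (by simpa using hT)]
  have h1 : ‖∑ x ∈ T, (ZMod.stdAddChar (γ * x) : ℂ)‖ ≤ ∑ x ∈ T, (1 : ℝ) := by
    refine (norm_sum_le _ _).trans (Finset.sum_le_sum fun x _ => ?_)
    rw [AddChar.norm_apply]
  simpa using h1

private theorem sm_mh_zero (γ : ZMod q) : mh ({0} : Finset (ZMod q)) γ = 1 := by
  simp [mh]

private theorem sm_point {x y : ℝ} (hR : 0 < y) : x ≤ y + (x - y) ^ 2 * (50 / y) + y / 200 := by
  have h : y + (x - y) ^ 2 * (50 / y) + y / 200 - x = (50 / y) * ((x - y) - y / 100) ^ 2 := by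
    field_simp
    ring
  have h2 : 0 ≤ (50 / y) * ((x - y) - y / 100) ^ 2 := by positivity
  linarith


/-- Put `N = a |A| > 0`, `F u = corr A u / N`.
* `v0 := ∑ c γ = (∑_{x,y∈X} corr A (x-y))/|X|²` (take `T = {0}` in `hc`: `mh {0} γ = 1`).
  By `F ≤ R + (F-R)²·50/R + R/200` (AM-GM), `∑_{x,y} F(x-y) ≤ (1 + 0.001 + 0.005) R |X|²`, so
  `v0 ≤ 1.006 R N`.
* `v1 := ∑ c γ ‖mh T γ‖² = (∑_{x,y∈X} ∑_{t,t'∈T} corr A (x-y+t-t'))/(|X|²|T|²)`. As
  `F u ≥ (19/20) R 1_{u∈S}` (`F ≥ 0`), `v1 ≥ (19/20) R N · (average over t,t' of hS S X (t-t'))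
  ≥ (19/20) R N (124/125 - 1/100) ≥ 0.9329 R N` (in `hS` the pair is `b - a + u`; swap names).
* With `Δ = {γ : 1/2 < ‖mh T γ‖²}` and `‖mh T γ‖ ≤ 1`:
  `v1 ≤ ∑_Δ c + (1/2)(v0 - ∑_Δ c)`, so `∑_Δ c ≥ 2 v1 - v0 ≥ (1.8658 - 1.006) R N ≥ 0.85 R N`. -/
theorem spec_mass (A X T S : Finset (ZMod q)) (a R : ℝ) (ha : 0 < a) (hA : A.Nonempty)
    (hR : 0 < R) (hX : X.Nonempty) (hT : T.Nonempty)
    (hS' : ∀ u, u ∈ S ↔ (19 / 20) * R ≤ (corr A u : ℝ) / (a * A.card))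
    (hvar : ∑ c ∈ X, ∑ c' ∈ X, ((corr A (c - c') : ℝ) / (a * A.card) - R) ^ 2 ≤
      2 * (1 / 10 ^ 5) * R ^ 2 * (X.card : ℝ) ^ 2)
    (hap : ∀ t ∈ T, ∀ t' ∈ T, |hS S X (t - t') - hS S X 0| ≤ 1 / 100)
    (c : ZMod q → ℝ) (hc0 : ∀ γ, 0 ≤ c γ)
    (hc : ∀ T : Finset (ZMod q), T.Nonempty →
      ∑ γ, c γ * ‖mh T γ‖ ^ 2 =
        (∑ a ∈ X, ∑ b ∈ X, ∑ t ∈ T, ∑ t' ∈ T, (corr A (a - b + t - t') : ℝ)) /
          ((X.card : ℝ) ^ 2 * (T.card : ℝ) ^ 2)) :
    (17 / 20) * R * (a * A.card) ≤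
      ∑ γ ∈ (Finset.univ : Finset (ZMod q)), (if 1 / 2 < ‖mh T γ‖ ^ 2 then c γ else 0) := by
  have hAc : (0 : ℝ) < A.card := by exact_mod_cast hA.card_pos
  have hN : 0 < a * A.card := mul_pos ha hAc
  have hXc : (0 : ℝ) < X.card := by exact_mod_cast hX.card_pos
  have hTc : (0 : ℝ) < T.card := by exact_mod_cast hT.card_pos
  set N : ℝ := a * A.card with hNdef
  -- v0
  have h0 : ∑ γ, c γ ≤ (503 / 500) * R * N := by
    have e := hc {0} (Finset.singleton_nonempty 0)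
    simp only [sm_mh_zero, norm_one, one_pow, mul_one, Finset.sum_singleton, Finset.card_singleton,
      Nat.cast_one, add_zero, sub_zero] at e
    rw [e, div_le_iff₀ (by positivity)]
    have h1 : ∑ x ∈ X, ∑ y ∈ X, (corr A (x - y) : ℝ) ≤
        ∑ x ∈ X, ∑ y ∈ X, N * (R + ((corr A (x - y) : ℝ) / N - R) ^ 2 * (50 / R) + R / 200) := by
      refine Finset.sum_le_sum fun x _ => Finset.sum_le_sum fun y _ => ?_
      have := mul_le_mul_of_nonneg_left (sm_point (x := (corr A (x - y) : ℝ) / N) hR) hN.le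
      rwa [mul_div_cancel₀ _ hN.ne'] at this
    refine h1.trans ?_
    simp_rw [← Finset.mul_sum, Finset.sum_add_distrib, ← Finset.sum_mul, Finset.sum_const,
      nsmul_eq_mul]
    have h2 := mul_le_mul_of_nonneg_right hvar (show 0 ≤ 50 / R by positivity)
    have h3 : 2 * (1 / 10 ^ 5) * R ^ 2 * (X.card : ℝ) ^ 2 * (50 / R)
        = (1 / 1000) * R * (X.card : ℝ) ^ 2 := by
      field_simp
      ring
    rw [h3] at h2
    have h4 : (X.card : ℝ) * (X.card * R) + (∑ c ∈ X, ∑ c' ∈ X,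
        ((corr A (c - c') : ℝ) / N - R) ^ 2) * (50 / R) + X.card * (X.card * (R / 200)) ≤
        (503 / 500) * R * (X.card : ℝ) ^ 2 := by
      nlinarith [h2]
    have h5 := mul_le_mul_of_nonneg_left h4 hN.le
    calc _ ≤ _ := h5
      _ = _ := by ring
  -- v1
  have h1 : (9329 / 10000) * R * N ≤ ∑ γ, c γ * ‖mh T γ‖ ^ 2 := by
    rw [hc T hT, le_div_iff₀ (by positivity)]
    have hlow := hs_lower A X S a R hR hX hS' hvar
    have hpt : ∀ u, N * ((19 / 20) * R) * (if u ∈ S then (1 : ℝ) else 0) ≤ (corr A u : ℝ) := by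
      intro u
      split_ifs with hu
      · have := (hS' u).1 hu
        rw [le_div_iff₀ hN] at this
        linarith
      · simp
    have e1 : ∑ a ∈ X, ∑ b ∈ X, ∑ t ∈ T, ∑ t' ∈ T, (corr A (a - b + t - t') : ℝ)
        = ∑ t ∈ T, ∑ t' ∈ T, ∑ a ∈ X, ∑ b ∈ X, (corr A (b - a + (t - t')) : ℝ) := by
      calc _ = ∑ b ∈ X, ∑ a ∈ X, ∑ t ∈ T, ∑ t' ∈ T, (corr A (a - b + t - t') : ℝ) :=
            Finset.sum_comm
        _ = ∑ b ∈ X, ∑ t ∈ T, ∑ a ∈ X, ∑ t' ∈ T, (corr A (a - b + t - t') : ℝ) :=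
            Finset.sum_congr rfl fun b _ => Finset.sum_comm
        _ = ∑ t ∈ T, ∑ b ∈ X, ∑ a ∈ X, ∑ t' ∈ T, (corr A (a - b + t - t') : ℝ) :=
            Finset.sum_comm
        _ = ∑ t ∈ T, ∑ b ∈ X, ∑ t' ∈ T, ∑ a ∈ X, (corr A (a - b + t - t') : ℝ) :=
            Finset.sum_congr rfl fun t _ => Finset.sum_congr rfl fun b _ => Finset.sum_comm
        _ = ∑ t ∈ T, ∑ t' ∈ T, ∑ b ∈ X, ∑ a ∈ X, (corr A (a - b + t - t') : ℝ) :=
            Finset.sum_congr rfl fun t _ => Finset.sum_comm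
        _ = _ := by
            refine Finset.sum_congr rfl fun t _ => Finset.sum_congr rfl fun t' _ =>
              Finset.sum_congr rfl fun b _ => Finset.sum_congr rfl fun a _ => ?_
            rw [add_sub_assoc]
    rw [e1]
    have h2 : ∀ t ∈ T, ∀ t' ∈ T, (9329 / 10000) * R * N * (X.card : ℝ) ^ 2 ≤
        ∑ a ∈ X, ∑ b ∈ X, (corr A (b - a + (t - t')) : ℝ) := by
      intro t ht t' ht'
      have h3 := abs_le.1 (hap t ht t' ht')
      have h4 : 491 / 500 ≤ hS S X (t - t') := by linarith [h3.1]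
      unfold hS at h4
      rw [le_div_iff₀ (by positivity)] at h4
      have h5 : N * ((19 / 20) * R) * ∑ a ∈ X, ∑ b ∈ X,
          (if b - a + (t - t') ∈ S then (1 : ℝ) else 0) ≤
          ∑ a ∈ X, ∑ b ∈ X, (corr A (b - a + (t - t')) : ℝ) := by
        rw [Finset.mul_sum]
        refine Finset.sum_le_sum fun x _ => ?_
        rw [Finset.mul_sum]
        exact Finset.sum_le_sum fun y _ => hpt _
      have h6 := mul_le_mul_of_nonneg_left h4 (show 0 ≤ N * ((19 / 20) * R) by positivity)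
      refine le_trans ?_ (h6.trans h5)
      apply le_of_eq
      ring
    have h7 : ∑ t ∈ T, ∑ t' ∈ T, (9329 / 10000) * R * N * (X.card : ℝ) ^ 2 ≤
        ∑ t ∈ T, ∑ t' ∈ T, ∑ a ∈ X, ∑ b ∈ X, (corr A (b - a + (t - t')) : ℝ) :=
      Finset.sum_le_sum fun t ht => Finset.sum_le_sum fun t' ht' => h2 t ht t' ht'
    rw [Finset.sum_const, Finset.sum_const, nsmul_eq_mul, nsmul_eq_mul] at h7
    refine le_trans (le_of_eq ?_) h7
    ring
  -- comparison
  have h2 : ∑ γ, c γ * ‖mh T γ‖ ^ 2 ≤ ∑ γ, ((1 / 2) * c γ + (1 / 2) *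
      (if 1 / 2 < ‖mh T γ‖ ^ 2 then c γ else 0)) := by
    refine Finset.sum_le_sum fun γ _ => ?_
    have h3 := sm_mh_le T hT γ
    have h4 : ‖mh T γ‖ ^ 2 ≤ 1 := by
      have := norm_nonneg (mh T γ)
      nlinarith
    split_ifs with h
    · nlinarith [hc0 γ]
    · push Not at h
      nlinarith [hc0 γ]
  rw [Finset.sum_add_distrib, ← Finset.mul_sum, ← Finset.mul_sum] at h2
  have hRN : 0 < R * N := mul_pos hR hN
  nlinarith [h0, h1, h2, hRN]

end P057
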